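/-
Row 324, module B (Bohm's Ricci flat metric on R^(q+1) x S^2).  Architect of the module: helper263 (chief architect helper232).
File Defs: ALL definitions of the module.  No sorry here.

Gauge x = phi:  g = dx^2/z + x^2 g_{S^q} + e^w g_{S^2};  w, z are functions of  Xi = x^2;   th = x d/dx = 2 Xi d/dXi.
   (W)   z th^2 w + (q-1) th w = 2 P,                         P := Xi e^{-w},  Q := th w,  J := 2 - Q
   (H)   z (q(q-1) + 2 q Q + Q^2/2) = q(q-1) + 2 P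
   (Z1)  th z = 2 (q-1) (1-z) - 2 z Q                         (= the S^q-equation rfB = 0; follows from (W), (H))
Planar system in sigma = log x = (1/2) log Xi:   P' = P (2-Q),   Q' = (2P - (q-1) Q)/z(P,Q),   z(P,Q) = (q(q-1)+2P)/(q(q-1)+2qQ+Q^2/2).
Fixed points: (0,0) (tip) and the cone point (q-1, 2), where z = (q-1)/(q+1).
Linearisation at the cone: eigenvalues -al, -alp = roots of mu^2 + m mu + 2 m, m = q+1;  2 < al < 4 < alp.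
-/
import Mathlib

set_option autoImplicit false

namespace Claimed.Agent.R324

open Set Filter Topology
open scoped ContDiff

/-- `th = x d/dx = 2 Ξ d/dΞ`. -/
noncomputable def th (f : ℝ → ℝ) (Ξ : ℝ) : ℝ := 2 * Ξ * deriv f Ξ

/-! ### the planar system -/

/-- numerator of `z(P,Q)`. -/
def bN (q : ℝ) (p : ℝ × ℝ) : ℝ := q * (q - 1) + 2 * p.1

/-- denominator of `z(P,Q)`. -/
noncomputable def bD (q : ℝ) (p : ℝ × ℝ) : ℝ := q * (q - 1) + 2 * q * p.2 + p.2 ^ 2 / 2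

/-- `z(P,Q)` (Hamiltonian constraint). -/
noncomputable def bz (q : ℝ) (p : ℝ × ℝ) : ℝ := bN q p / bD q p

/-- the planar vector field. -/
noncomputable def bX (q : ℝ) (p : ℝ × ℝ) : ℝ × ℝ :=
  (p.1 * (2 - p.2), (2 * p.1 - (q - 1) * p.2) / bz q p)

/-- the open set on which the field is smooth. -/
def bU (q : ℝ) : Set (ℝ × ℝ) := {p | 0 < bN q p ∧ 0 < bD q p}

/-- the cone point. -/
def bC (q : ℝ) : ℝ × ℝ := (q - 1, 2)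

/-- the open triangle with vertices `(0,0)`, `((q-1)/2, 0)`, `(q-1, 2)`. -/
def bTri (q : ℝ) : Set (ℝ × ℝ) :=
  {p | 0 < p.1 ∧ 0 < p.2 ∧ p.2 < 2 * p.1 / (q - 1) ∧ 2 + 4 / (q - 1) * (p.1 - (q - 1)) < p.2}

/-- the closed triangle. -/
def bTriC (q : ℝ) : Set (ℝ × ℝ) :=
  {p | 0 ≤ p.1 ∧ 0 ≤ p.2 ∧ p.2 ≤ 2 * p.1 / (q - 1) ∧ 2 + 4 / (q - 1) * (p.1 - (q - 1)) ≤ p.2}

/-- the invariant region: the triangle, `1 - 2/(q-1) < z < 1`, `z Q' = 2P - (q-1)Q < 4`. -/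
def bReg (q : ℝ) : Set (ℝ × ℝ) :=
  {p | p ∈ bTri q ∧ bz q p < 1 ∧ 1 - bz q p < 2 / (q - 1) ∧ 2 * p.1 - (q - 1) * p.2 < 4}

/-- the slow exponent `α = (m - √(m²-8m))/2`, `m = q+1`. -/
noncomputable def bAl (q : ℝ) : ℝ := ((q + 1) - Real.sqrt ((q + 1) ^ 2 - 8 * (q + 1))) / 2

/-- the fast exponent `α₊ = (m + √(m²-8m))/2`. -/
noncomputable def bAlp (q : ℝ) : ℝ := ((q + 1) + Real.sqrt ((q + 1) ^ 2 - 8 * (q + 1))) / 2

/-- the linear functional which vanishes on the slow eigendirection at the cone: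
`e = (P - (q-1)) + (q-1)/α (2 - Q)`. -/
noncomputable def bE (q : ℝ) (p : ℝ × ℝ) : ℝ := (p.1 - (q - 1)) + (q - 1) / bAl q * (2 - p.2)

/-- a complete trajectory of the planar system inside the invariant region (time `σ = log x`). -/
structure IsTraj (q : ℝ) (γ : ℝ → ℝ × ℝ) : Prop where
  sm : ContDiff ℝ ∞ γ
  hd : ∀ σ, HasDerivAt γ (bX q (γ σ)) σ
  mem : ∀ σ, γ σ ∈ bReg q

/-- Lie derivative along the planar field. -/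
noncomputable def bL (q : ℝ) (G : ℝ × ℝ → ℝ) (p : ℝ × ℝ) : ℝ := fderiv ℝ G p (bX q p)

/-! ### the profile -/

/-- `P = Ξ e^{-w}`. -/
noncomputable def bP (w : ℝ → ℝ) (Ξ : ℝ) : ℝ := Ξ * Real.exp (-w Ξ)

/-- `J = 2 - th w`. -/
noncomputable def bJ (w : ℝ → ℝ) (Ξ : ℝ) : ℝ := 2 - th w Ξ

/-- the point `(P, Q)` of the phase plane. -/
noncomputable def bPQ (w : ℝ → ℝ) (Ξ : ℝ) : ℝ × ℝ := (bP w Ξ, th w Ξ)

/-- the slow eigenvector of the linearisation at the cone (`bE` vanishes on it). -/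
noncomputable def bXi (q : ℝ) : ℝ × ℝ := ((q - 1) / bAl q, 1)

/-- local solution at the tip, on `(-δ, δ)`. -/
structure IsTip (q δ : ℝ) (w z : ℝ → ℝ) : Prop where
  pos : 0 < δ
  smw : ContDiffOn ℝ ∞ w (Ioo (-δ) δ)
  smz : ContDiffOn ℝ ∞ z (Ioo (-δ) δ)
  w0 : w 0 = 0
  z0 : z 0 = 1
  dw0 : deriv w 0 = 1 / (q + 1)
  zpos : ∀ Ξ ∈ Ioo (-δ) δ, 0 < z Ξ
  eqW : ∀ Ξ ∈ Ioo (-δ) δ, z Ξ * th (th w) Ξ + (q - 1) * th w Ξ = 2 * bP w Ξ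
  eqZ : ∀ Ξ ∈ Ioo (-δ) δ, th z Ξ = 2 * (q - 1) * (1 - z Ξ) - 2 * z Ξ * th w Ξ

/-- `w, z` are smooth on `ℝ` and are given on `Ξ > 0` by the planar curve `γ` at time `σ = (log Ξ)/2`. -/
structure IsProfile (q : ℝ) (γ : ℝ → ℝ × ℝ) (w z : ℝ → ℝ) : Prop where
  smw : ContDiff ℝ ∞ w
  smz : ContDiff ℝ ∞ z
  w0 : w 0 = 0
  z0 : z 0 = 1
  pq : ∀ Ξ, 0 < Ξ → bPQ w Ξ = γ (Real.log Ξ / 2)
  zz : ∀ Ξ, 0 < Ξ → z Ξ = bz q (γ (Real.log Ξ / 2))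

/-- **Bohm profile.**  `w, z` are smooth on `ℝ`; only `Ξ ≥ 0` matters. -/
structure IsBohm (q : ℕ) (w z : ℝ → ℝ) : Prop where
  smw : ContDiff ℝ ∞ w
  smz : ContDiff ℝ ∞ z
  w0 : w 0 = 0
  z0 : z 0 = 1
  /-- (W) -/
  eqW : ∀ Ξ, 0 ≤ Ξ → z Ξ * th (th w) Ξ + ((q : ℝ) - 1) * th w Ξ = 2 * bP w Ξ
  /-- (H) in the form `z = z(P,Q)` -/
  eqH : ∀ Ξ, 0 ≤ Ξ → z Ξ = bz q (bPQ w Ξ)
  /-- (Z1) -/
  eqZ : ∀ Ξ, 0 ≤ Ξ → th z Ξ = 2 * ((q : ℝ) - 1) * (1 - z Ξ) - 2 * z Ξ * th w Ξ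
  /-- the trajectory stays in the invariant region -/
  reg : ∀ Ξ, 0 < Ξ → bPQ w Ξ ∈ bReg q
  /-- convergence to the cone -/
  lim : Tendsto (bPQ w) atTop (𝓝 (bC q))
  /-- slow approach -/
  slow : ∃ C : ℝ, ∀ Ξ, 0 ≤ Ξ → |bE q (bPQ w Ξ)| ≤ C * (bJ w Ξ) ^ 2
  /-- decay of `J` -/
  decay : ∃ C : ℝ, ∀ Ξ, 0 ≤ Ξ → bJ w Ξ ≤ C / (1 + Ξ)

end Claimed.Agent.R324
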