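/-
Row 324, module B, file Alpha: the exponents α = bAl q, α₊ = bAlp q  (m = q+1 ≥ 101, S = √(m²-8m)).

PROOFS.  m² - 8m ≥ 0, S² = m² - 8m (`Real.sq_sqrt`), S ≥ 0.     α = (m-S)/2, α₊ = (m+S)/2.
  sum: α + α₊ = m.   prod: α α₊ = (m²-S²)/4 = 2m.   root: α² - mα + 2m = α² - (α+α₊)α + αα₊ = 0.
  S < m  (S² < m²; `Real.sqrt_lt'`/`abs_lt_of_sq_lt_sq`/nlinarith)  ⟹ α > 0, α₊ < m.      S ≥ m - 8  ((m-8)² = m²-16m+64 ≤ m²-8m as m ≥ 8; `Real.le_sqrt`) ⟹ α₊ ≥ m-4 = q-3,  α ≤ 4.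
  2 < α:  α α₊ = 2m and α₊ < m.       α < 3:  α α₊ = 2m, α₊ ≥ m-4, 3 (m-4) > 2m.
  rate:  m (1 - 2/α) = α  ⟸  m (α-2) = α²  (root).
-/
import Claimed.Agent.R324.Bohm.Defs

set_option autoImplicit false

namespace Claimed.Agent.R324

variable {q : ℝ}

theorem bAl_add (q : ℝ) : bAl q + bAlp q = q + 1 := by
  unfold bAl bAlp; ring

theorem bAl_aux_sqrt (hq : 100 ≤ q) :
    Real.sqrt ((q + 1) ^ 2 - 8 * (q + 1)) ^ 2 = (q + 1) ^ 2 - 8 * (q + 1) ∧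
      0 ≤ Real.sqrt ((q + 1) ^ 2 - 8 * (q + 1)) := by
  refine ⟨Real.sq_sqrt (by nlinarith), Real.sqrt_nonneg _⟩

theorem bAl_mul (hq : 100 ≤ q) : bAl q * bAlp q = 2 * (q + 1) := by
  obtain ⟨h1, _⟩ := bAl_aux_sqrt hq
  unfold bAl bAlp
  set S := Real.sqrt ((q + 1) ^ 2 - 8 * (q + 1)) with hS
  nlinarith

theorem bAl_root (hq : 100 ≤ q) : bAl q ^ 2 - (q + 1) * bAl q + 2 * (q + 1) = 0 := by
  rw [← bAl_mul hq, ← bAl_add q]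
  ring

theorem bAlp_bounds (hq : 100 ≤ q) : q - 3 ≤ bAlp q ∧ bAlp q < q + 1 := by
  obtain ⟨h1, h0⟩ := bAl_aux_sqrt hq
  unfold bAlp
  set S := Real.sqrt ((q + 1) ^ 2 - 8 * (q + 1)) with hS
  have hlt : S < q + 1 := by nlinarith
  have hge : q + 1 - 8 ≤ S := by nlinarith
  constructor <;> linarith

theorem bAl_bounds (hq : 100 ≤ q) : 2 < bAl q ∧ bAl q < 3 := by
  obtain ⟨h1, h2⟩ := bAlp_bounds hq
  have h3 := bAl_mul hq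
  have h4 := bAl_add q
  have hpos : 0 < bAl q := by linarith
  constructor
  · nlinarith
  · nlinarith

theorem bAl_rate (hq : 100 ≤ q) : (q + 1) * (1 - 2 / bAl q) = bAl q := by
  obtain ⟨h1, _⟩ := bAl_bounds hq
  have h2 := bAl_root hq
  have hne : bAl q ≠ 0 := by linarith
  field_simp
  nlinarith

end Claimed.Agent.R324
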