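/-
Row 324, module B, file Barrier (generic, pure Mathlib): positivity of finitely many functions under linear differential inequalities.

`barrier_pos`.  g_i (i in a finite type), g_i(a) > 0.  Whenever all g_j(t) > 0 (t ≥ a): g_i is differentiable at t and g_i'(t) ≥ -K g_i(t).
   Whenever all g_j > 0 on [a,t) (a < t): the g_i are continuous at t.            Then all g_i > 0 on [a,∞).
PROOF.  Suppose not: B := {t | a ≤ t ∧ ∃ i, g i t ≤ 0} is nonempty, bounded below by a; T := sInf B ≥ a.  For s ∈ [a,T): s ∉ B (`notMem_of_lt_csInf`), so all g_j(s) > 0.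
  Claim: all g_i(T) > 0.  If T = a: h0.  If a < T: h_i(s) := exp(K s) g_i(s) has derivative exp(K s)(K g_i + g_i') ≥ 0 on [a,T), and it is continuous on [a,T] (differentiable on [a,T), `hc` at T), so it is
  monotone on [a,T] (`monotoneOn_of_deriv_nonneg (convex_Icc a T)`, interior = Ioo a T), so h_i(T) ≥ h_i(a) > 0.
  Then by `hd` at T all g_i are continuous at T, so (finite intersection: `Filter.eventually_all`) ∀ᶠ t in 𝓝 T, ∀ i, 0 < g i t: there is ε > 0 with all g_i > 0 on (T-ε, T+ε).
  But there is t ∈ B with t < T + ε (`exists_lt_of_csInf_lt`), and t ≥ T (`csInf_le`): contradiction.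
-/
import Mathlib

set_option autoImplicit false

namespace Claimed.Agent.R324

open Set Filter Topology

theorem barrier_pos {ι : Type*} [Finite ι] {g g' : ι → ℝ → ℝ} {a K : ℝ}
    (h0 : ∀ i, 0 < g i a)
    (hc : ∀ t, a < t → (∀ s ∈ Ico a t, ∀ j, 0 < g j s) → ∀ i, ContinuousAt (g i) t)
    (hd : ∀ t, a ≤ t → (∀ j, 0 < g j t) → ∀ i, HasDerivAt (g i) (g' i t) t ∧ -K * g i t ≤ g' i t) :
    ∀ t, a ≤ t → ∀ i, 0 < g i t := by
  by_contra hcon
  push Not at hcon
  obtain ⟨t₁, ht₁, i₁, hi₁⟩ := hcon
  set B : Set ℝ := {t | a ≤ t ∧ ∃ i, g i t ≤ 0} with hB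
  have hBne : B.Nonempty := ⟨t₁, ht₁, i₁, hi₁⟩
  have hBbd : BddBelow B := ⟨a, fun t ht => ht.1⟩
  set T := sInf B with hT
  have haT : a ≤ T := le_csInf hBne fun t ht => ht.1
  have hbefore : ∀ s ∈ Ico a T, ∀ j, 0 < g j s := by
    intro s hs j
    by_contra hneg
    exact notMem_of_lt_csInf hs.2 hBbd ⟨hs.1, j, not_lt.1 hneg⟩
  have hposT : ∀ i, 0 < g i T := by
    intro i
    rcases eq_or_lt_of_le haT with h | h
    · rw [← h]; exact h0 i
    · have hder : ∀ s ∈ Ico a T, HasDerivAt (fun s => Real.exp (K * s) * g i s)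
          (Real.exp (K * s) * K * g i s + Real.exp (K * s) * g' i s) s := by
        intro s hs
        have h1 : HasDerivAt (fun s => Real.exp (K * s)) (Real.exp (K * s) * K) s := by
          have := ((hasDerivAt_id s).const_mul K).exp
          simpa using this
        exact h1.mul (hd s hs.1 (hbefore s hs) i).1
      have hcont : ContinuousOn (fun s => Real.exp (K * s) * g i s) (Icc a T) := by
        intro s hs
        rcases eq_or_lt_of_le hs.2 with h2 | h2
        · have h3 : ContinuousAt (g i) s := by rw [h2]; exact hc T h hbefore i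
          exact (ContinuousAt.mul (by fun_prop) h3).continuousWithinAt
        · exact (hder s ⟨hs.1, h2⟩).continuousAt.continuousWithinAt
      have hmono : MonotoneOn (fun s => Real.exp (K * s) * g i s) (Icc a T) := by
        refine monotoneOn_of_deriv_nonneg (convex_Icc a T) hcont ?_ ?_
        · intro s hs
          rw [interior_Icc] at hs
          exact (hder s ⟨hs.1.le, hs.2⟩).differentiableAt.differentiableWithinAt
        · intro s hs
          rw [interior_Icc] at hs
          rw [(hder s ⟨hs.1.le, hs.2⟩).deriv]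
          have h4 := (hd s hs.1.le (hbefore s ⟨hs.1.le, hs.2⟩) i).2
          have h5 := Real.exp_pos (K * s)
          have : Real.exp (K * s) * K * g i s + Real.exp (K * s) * g' i s
              = Real.exp (K * s) * (g' i s - -K * g i s) := by ring
          rw [this]
          exact mul_nonneg h5.le (by linarith)
      have h6 := hmono (left_mem_Icc.2 haT) (right_mem_Icc.2 haT) haT
      simp only at h6
      have h7 : 0 < Real.exp (K * a) * g i a := mul_pos (Real.exp_pos _) (h0 i)
      have h8 : 0 < Real.exp (K * T) * g i T := lt_of_lt_of_le h7 h6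
      exact (pos_iff_pos_of_mul_pos h8).1 (Real.exp_pos _)
  have hev : ∀ᶠ t in 𝓝 T, ∀ i, 0 < g i t := by
    rw [Filter.eventually_all]
    intro i
    exact (hd T haT hposT i).1.continuousAt.eventually (lt_mem_nhds (hposT i))
  obtain ⟨ε, hε, hball⟩ := Metric.eventually_nhds_iff.1 hev
  obtain ⟨t, htB, htlt⟩ := exists_lt_of_csInf_lt hBne (show sInf B < T + ε by linarith)
  have htge : T ≤ t := csInf_le hBbd htB
  obtain ⟨-, i, hi⟩ := htB
  have := hball (y := t) (by rw [Real.dist_eq, abs_lt]; constructor <;> linarith) i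
  linarith

end Claimed.Agent.R324
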