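/-
Row 324, module B, file ConvGen (generic, pure Mathlib): the limit of an integral curve is a zero of the field.

PROOF of `field_zero_of_tendsto`.  Show ‖X p‖ ≤ 2ε for every ε > 0  (`le_of_forall_pos_le_add`, then `norm_le_zero_iff`).
  X ∘ γ → X p (`hX.tendsto.comp hl`): there is S with ‖X (γ s) - X p‖ ≤ ε for s ≥ S.   For σ ≥ S the function φ s := γ s - s • X p has derivative X (γ s) - X p of norm ≤ ε on [σ, σ+1], so
  ‖φ (σ+1) - φ σ‖ ≤ ε * 1    (`Convex.norm_image_sub_le_of_norm_hasDerivWithin_le` on `Icc σ (σ+1)`, or `norm_image_sub_le_of_norm_deriv_le_segment'`),   i.e.  ‖γ (σ+1) - γ σ - X p‖ ≤ ε.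
  γ (σ+1) - γ σ → p - p = 0  (`hl.comp (tendsto_atTop_add_const_right ..)`), so eventually ‖γ (σ+1) - γ σ‖ ≤ ε.   Take one σ satisfying both: ‖X p‖ ≤ 2 ε.
-/
import Mathlib

set_option autoImplicit false

namespace Claimed.Agent.R324

open Filter Topology

theorem field_zero_of_tendsto {E : Type*} [NormedAddCommGroup E] [NormedSpace ℝ E] {X : E → E}
    {γ : ℝ → E} {p : E} (hγ : ∀ σ, HasDerivAt γ (X (γ σ)) σ) (hX : ContinuousAt X p)
    (hl : Tendsto γ atTop (𝓝 p)) : X p = 0 := by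
  have key : ∀ ε : ℝ, 0 < ε → ‖X p‖ ≤ 0 + ε := by
    intro ε hε
    have hε2 : 0 < ε / 2 := by linarith
    have h1 : Tendsto (fun s => X (γ s)) atTop (𝓝 (X p)) := hX.tendsto.comp hl
    have h1' : ∀ᶠ s in atTop, ‖X (γ s) - X p‖ ≤ ε / 2 := by
      have := (Metric.tendsto_nhds.1 h1) (ε / 2) hε2
      filter_upwards [this] with s hs
      rw [dist_eq_norm] at hs
      exact hs.le
    obtain ⟨S, hS⟩ := eventually_atTop.1 h1'
    have h2 : Tendsto (fun σ => γ (σ + 1) - γ σ) atTop (𝓝 (p - p)) :=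
      (hl.comp (tendsto_atTop_add_const_right _ 1 tendsto_id)).sub hl
    rw [sub_self] at h2
    have h2' : ∀ᶠ σ in atTop, ‖γ (σ + 1) - γ σ‖ ≤ ε / 2 := by
      have := (Metric.tendsto_nhds.1 h2) (ε / 2) hε2
      filter_upwards [this] with s hs
      rw [dist_eq_norm, sub_zero] at hs
      exact hs.le
    obtain ⟨σ, hσ2, hσS⟩ := (h2'.and (eventually_ge_atTop S)).exists
    have hφ : ∀ s ∈ Set.Icc σ (σ + 1),
        HasDerivWithinAt (fun s => γ s - s • X p) (X (γ s) - X p) (Set.Icc σ (σ + 1)) s := by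
      intro s _
      have h3 : HasDerivAt (fun s : ℝ => s • X p) ((1 : ℝ) • X p) s :=
        (hasDerivAt_id s).smul_const (X p)
      rw [one_smul] at h3
      exact ((hγ s).sub h3).hasDerivWithinAt
    have hb : ∀ s ∈ Set.Icc σ (σ + 1), ‖X (γ s) - X p‖ ≤ ε / 2 := fun s hs =>
      hS s (hσS.trans hs.1)
    have h4 := (convex_Icc σ (σ + 1)).norm_image_sub_le_of_norm_hasDerivWithin_le hφ hb
      (Set.left_mem_Icc.2 (by linarith)) (Set.right_mem_Icc.2 (by linarith))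
    have e1 : (γ (σ + 1) - (σ + 1) • X p) - (γ σ - σ • X p) = (γ (σ + 1) - γ σ) - X p := by
      rw [add_smul, one_smul]; abel
    have e2 : ‖σ + 1 - σ‖ = 1 := by simp
    rw [e1, e2, mul_one] at h4
    have h5 : ‖X p‖ ≤ ‖γ (σ + 1) - γ σ‖ + ‖(γ (σ + 1) - γ σ) - X p‖ := by
      have : X p = (γ (σ + 1) - γ σ) - ((γ (σ + 1) - γ σ) - X p) := by abel
      calc ‖X p‖ = ‖(γ (σ + 1) - γ σ) - ((γ (σ + 1) - γ σ) - X p)‖ := by rw [← this]
        _ ≤ _ := norm_sub_le _ _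
    linarith
  exact norm_le_zero_iff.1 (le_of_forall_pos_le_add key)

end Claimed.Agent.R324
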