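/-
Row 324, module B, file Field: regularity of the planar field, the closed triangle, the cut-off field.

PROOFS.
* `isOpen_bU`: bN, bD are polynomials in (p.1, p.2): continuous (`fun_prop` after `unfold bN bD`); `isOpen_lt`, `IsOpen.inter`.
* `contDiffOn_bz`: quotient of polynomials, bD ≠ 0 on bU (`ContDiffOn.div`, `contDiff_fst`, `contDiff_snd`; or `ContDiff.contDiffOn` for numerator/denominator).
* `contDiffOn_bX`: `ContDiffOn.prodMk` (old name `.prod`); bz > 0 on bU (`div_pos`).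
* `bTriC_bounds`: n = q-1 > 0.  From 2 + (4/n)(P-n) ≤ Q ≤ 2P/n:  (2/n) P ≤ 2, so P ≤ n and Q ≤ 2.   (multiply out with `div_le_iff₀`, `field_simp`, `nlinarith`/`linarith`.)
* `isCompact_bTriC`: closed (four non-strict inequalities between continuous functions: `isClosed_le`) and contained in `Icc (0,0) (q-1,2)` (compact: `isCompact_Icc`); `IsCompact.of_isClosed_subset`.
* `convex_bTriC`: intersection of four half planes (all four conditions are affine in p); direct proof from the definition of `Convex` (`intro x hx y hy a b ha hb hab`, then `nlinarith`/linear arithmetic after clearing /(q-1)), or `convex_halfSpace_le` etc.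
* `bTriC_subset_bU`: P ≥ 0, Q ≥ 0, q > 1 ⟹ bN ≥ q(q-1) > 0, bD ≥ q(q-1) > 0.
* `exists_bField`: `Claimed.Agent.R213.Flow.exists_cutoff_field (isOpen_bU q) (contDiffOn_bX q) (isCompact_bTriC hq) (bTriC_subset_bU hq)`.
-/
import Claimed.Agent.R324.Bohm.Defs
import Claimed.Agent.R213.Flow.Main

set_option autoImplicit false

namespace Claimed.Agent.R324

open Set
open scoped ContDiff

theorem continuous_bN661 (q : ℝ) : Continuous (bN q) := by
  unfold bN; fun_prop

theorem continuous_bD661 (q : ℝ) : Continuous (bD q) := by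
  unfold bD; fun_prop

theorem contDiff_bN661 (q : ℝ) : ContDiff ℝ ∞ (bN q) := by
  unfold bN; fun_prop

theorem contDiff_bD661 (q : ℝ) : ContDiff ℝ ∞ (bD q) := by
  unfold bD; fun_prop

theorem isOpen_bU (q : ℝ) : IsOpen (bU q) :=
  (isOpen_lt continuous_const (continuous_bN661 q)).inter
    (isOpen_lt continuous_const (continuous_bD661 q))

theorem contDiffOn_bz (q : ℝ) : ContDiffOn ℝ ∞ (bz q) (bU q) :=
  (contDiff_bN661 q).contDiffOn.div (contDiff_bD661 q).contDiffOn (fun _ hp => hp.2.ne')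

theorem contDiffOn_bX (q : ℝ) : ContDiffOn ℝ ∞ (bX q) (bU q) := by
  have h1 : ContDiff ℝ ∞ (fun p : ℝ × ℝ => p.1 * (2 - p.2)) := by fun_prop
  have h2 : ContDiff ℝ ∞ (fun p : ℝ × ℝ => 2 * p.1 - (q - 1) * p.2) := by fun_prop
  have h3 : ContDiffOn ℝ ∞ (fun p : ℝ × ℝ => (2 * p.1 - (q - 1) * p.2) / bz q p) (bU q) :=
    h2.contDiffOn.div (contDiffOn_bz q) (fun p hp => (div_pos hp.1 hp.2).ne')
  exact h1.contDiffOn.prodMk h3

theorem bTriC_bounds {q : ℝ} (hq : 1 < q) {p : ℝ × ℝ} (hp : p ∈ bTriC q) :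
    p.1 ≤ q - 1 ∧ p.2 ≤ 2 := by
  obtain ⟨h1, h2, h3, h4⟩ := hp
  have hn : 0 < q - 1 := by linarith
  have e3 : 2 * p.1 / (q - 1) = 2 * (p.1 / (q - 1)) := by ring
  have e4 : 4 / (q - 1) * (p.1 - (q - 1)) = 4 * (p.1 / (q - 1)) - 4 := by
    field_simp
  rw [e3] at h3
  rw [e4] at h4
  have h5 : p.1 / (q - 1) ≤ 1 := by linarith
  refine ⟨?_, by linarith⟩
  have := (div_le_iff₀ hn).1 h5
  linarith

theorem isClosed_bTriC (q : ℝ) : IsClosed (bTriC q) := by
  have h1 : IsClosed {p : ℝ × ℝ | 0 ≤ p.1} := isClosed_le continuous_const continuous_fst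
  have h2 : IsClosed {p : ℝ × ℝ | 0 ≤ p.2} := isClosed_le continuous_const continuous_snd
  have h3 : IsClosed {p : ℝ × ℝ | p.2 ≤ 2 * p.1 / (q - 1)} :=
    isClosed_le continuous_snd (by fun_prop)
  have h4 : IsClosed {p : ℝ × ℝ | 2 + 4 / (q - 1) * (p.1 - (q - 1)) ≤ p.2} :=
    isClosed_le (by fun_prop) continuous_snd
  exact h1.inter (h2.inter (h3.inter h4))

theorem isCompact_bTriC {q : ℝ} (hq : 1 < q) : IsCompact (bTriC q) := by
  refine IsCompact.of_isClosed_subset (isCompact_Icc (a := ((0 : ℝ), (0 : ℝ))) (b := (q - 1, (2 : ℝ))))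
    (isClosed_bTriC q) ?_
  intro p hp
  obtain ⟨h5, h6⟩ := bTriC_bounds hq hp
  exact ⟨⟨hp.1, hp.2.1⟩, ⟨h5, h6⟩⟩

theorem convex_bTriC {q : ℝ} (hq : 1 < q) : Convex ℝ (bTriC q) := by
  intro x hx y hy a b ha hb hab
  obtain ⟨x1, x2, x3, x4⟩ := hx
  obtain ⟨y1, y2, y3, y4⟩ := hy
  have hb' : b = 1 - a := by linarith
  refine ⟨?_, ?_, ?_, ?_⟩
  · simp only [Prod.fst_add, Prod.smul_fst, smul_eq_mul]
    positivity
  · simp only [Prod.snd_add, Prod.smul_snd, smul_eq_mul]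
    positivity
  · simp only [Prod.fst_add, Prod.smul_fst, Prod.snd_add, Prod.smul_snd, smul_eq_mul]
    have e : 2 * (a * x.1 + b * y.1) / (q - 1)
        = a * (2 * x.1 / (q - 1)) + b * (2 * y.1 / (q - 1)) := by ring
    rw [e]
    exact add_le_add (mul_le_mul_of_nonneg_left x3 ha) (mul_le_mul_of_nonneg_left y3 hb)
  · simp only [Prod.fst_add, Prod.smul_fst, Prod.snd_add, Prod.smul_snd, smul_eq_mul]
    have e : 2 + 4 / (q - 1) * (a * x.1 + b * y.1 - (q - 1))
        = a * (2 + 4 / (q - 1) * (x.1 - (q - 1))) + b * (2 + 4 / (q - 1) * (y.1 - (q - 1))) := by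
      rw [hb']; ring
    rw [e]
    exact add_le_add (mul_le_mul_of_nonneg_left x4 ha) (mul_le_mul_of_nonneg_left y4 hb)

theorem bTriC_subset_bU {q : ℝ} (hq : 1 < q) : bTriC q ⊆ bU q := by
  intro p hp
  obtain ⟨h1, h2, -, -⟩ := hp
  have hn : 0 < q - 1 := by linarith
  have hq0 : 0 < q := by linarith
  have hqq : 0 < q * (q - 1) := mul_pos hq0 hn
  refine ⟨?_, ?_⟩
  · show 0 < q * (q - 1) + 2 * p.1
    linarith
  · show 0 < q * (q - 1) + 2 * q * p.2 + p.2 ^ 2 / 2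
    have : 0 ≤ 2 * q * p.2 := by positivity
    have : 0 ≤ p.2 ^ 2 / 2 := by positivity
    linarith

theorem exists_bField {q : ℝ} (hq : 1 < q) :
    ∃ f : ℝ × ℝ → ℝ × ℝ, ContDiff ℝ ∞ f ∧ HasCompactSupport f ∧
      ∃ V : Set (ℝ × ℝ), IsOpen V ∧ bTriC q ⊆ V ∧ V ⊆ bU q ∧ EqOn f (bX q) V := by
  obtain ⟨f, h1, h2, -, V, h3, h4, h5, h6⟩ := Claimed.Agent.R213.Flow.exists_cutoff_field
    (isOpen_bU q) (contDiffOn_bX q) (isCompact_bTriC hq) (bTriC_subset_bU hq)
  exact ⟨f, h1, h2, V, h3, h4, h5, h6⟩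

end Claimed.Agent.R324
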