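/-
Row 324, module B, file RegAlg: elementary facts in the triangle / the region, and equation (Z1) along integral curves.

Notation: p = (P,Q), n = q-1, J = 2-Q, a = n-P, z = bz q p.
PROOFS.
* `bTri_subset_bTriC`, `bReg_subset_bTri`: unfold, `le_of_lt`.
* `bTri_facts`: from Q < 2P/n:  2 - J < 2 - 2a/n, i.e. 2a < nJ.   From 2 - (4/n) a < Q = 2 - J:  nJ < 4a.   Together 2a < 4a so a > 0, and J > 0.     (clear denominators: `lt_div_iff₀`, `div_mul_eq_mul_div`, `field_simp`.)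
* `bTriC_facts`: the same with ≤.
* `bReg_z`: 1 - z < 2/n ≤ 2/99 < 1/2.
* `hasDerivAt_bz_comp`: write γ = (P,Q); `HasDerivAt` of the components: `hasFDerivAt_fst.comp_hasDerivAt σ hγ`, `hasFDerivAt_snd.comp_hasDerivAt σ hγ` (or `HasDerivAt.fst/.snd` if available) with
     P' = P(2-Q),  Q' = (2P-nQ)/z,  z = N/D.      N' = 2P',  D' = (2q+Q) Q',   (N/D)' = (N' D - N D')/D²  (`HasDerivAt.div`, D ≠ 0).
     Algebra (N, D > 0; Q' = (2P-nQ) D/N):   (N'D - N D')/D² = (2P(2-Q) - (2q+Q)(2P-nQ))/D = (2n(D-N) - 2NQ)/D = 2n(1-z) - 2zQ.      [both numerators = 2nqQ + nQ² - 4nP - 4PQ]    (`field_simp`, `ring`.)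
-/
import Claimed.Agent.R324.Bohm.Field

set_option autoImplicit false

namespace Claimed.Agent.R324

open Set

theorem bTri_subset_bTriC (q : ℝ) : bTri q ⊆ bTriC q :=
  fun _ h => ⟨h.1.le, h.2.1.le, h.2.2.1.le, h.2.2.2.le⟩

theorem bReg_subset_bTri (q : ℝ) : bReg q ⊆ bTri q := fun _ h => h.1

theorem bTri_facts {q : ℝ} (hq : 1 < q) {p : ℝ × ℝ} (hp : p ∈ bTri q) :
    0 < (q - 1) - p.1 ∧ 0 < 2 - p.2 ∧ 2 * ((q - 1) - p.1) < (q - 1) * (2 - p.2) ∧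
      (q - 1) * (2 - p.2) < 4 * ((q - 1) - p.1) := by
  obtain ⟨-, -, h3, h4⟩ := hp
  have hn : 0 < q - 1 := by linarith
  have h3' : p.2 * (q - 1) < 2 * p.1 := (lt_div_iff₀ hn).1 h3
  have h4' : 2 * (q - 1) + 4 * (p.1 - (q - 1)) < p.2 * (q - 1) := by
    have h5 := mul_lt_mul_of_pos_right h4 hn
    have h6 : (2 + 4 / (q - 1) * (p.1 - (q - 1))) * (q - 1)
        = 2 * (q - 1) + 4 * (p.1 - (q - 1)) := by
      field_simp
    rwa [h6] at h5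
  have ha : 0 < (q - 1) - p.1 := by linarith
  refine ⟨ha, ?_, by linarith, by linarith⟩
  have h7 : 0 < (q - 1) * (2 - p.2) := by linarith
  exact (pos_iff_pos_of_mul_pos h7).1 hn

theorem bTriC_facts {q : ℝ} (hq : 1 < q) {p : ℝ × ℝ} (hp : p ∈ bTriC q) :
    0 ≤ (q - 1) - p.1 ∧ 0 ≤ 2 - p.2 ∧ 2 * ((q - 1) - p.1) ≤ (q - 1) * (2 - p.2) ∧
      (q - 1) * (2 - p.2) ≤ 4 * ((q - 1) - p.1) := by
  obtain ⟨-, -, h3, h4⟩ := hp
  have hn : 0 < q - 1 := by linarith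
  have h3' : p.2 * (q - 1) ≤ 2 * p.1 := (le_div_iff₀ hn).1 h3
  have h4' : 2 * (q - 1) + 4 * (p.1 - (q - 1)) ≤ p.2 * (q - 1) := by
    have h5 := mul_le_mul_of_nonneg_right h4 hn.le
    have h6 : (2 + 4 / (q - 1) * (p.1 - (q - 1))) * (q - 1)
        = 2 * (q - 1) + 4 * (p.1 - (q - 1)) := by
      field_simp
    rwa [h6] at h5
  have ha : 0 ≤ (q - 1) - p.1 := by linarith
  refine ⟨ha, ?_, by linarith, by linarith⟩
  have h7 : 0 ≤ (q - 1) * (2 - p.2) := by linarith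
  exact nonneg_of_mul_nonneg_right h7 hn

theorem bReg_z {q : ℝ} (hq : 100 ≤ q) {p : ℝ × ℝ} (hp : p ∈ bReg q) :
    1 / 2 < bz q p ∧ bz q p < 1 := by
  obtain ⟨-, h2, h3, -⟩ := hp
  refine ⟨?_, h2⟩
  have hn : (0 : ℝ) < q - 1 := by linarith
  have h4 : 2 / (q - 1) ≤ 2 / 99 := by
    apply div_le_div_of_nonneg_left (by norm_num) (by norm_num) (by linarith)
  linarith

theorem bReg_subset_bU {q : ℝ} (hq : 1 < q) : bReg q ⊆ bU q :=
  fun _ h => bTriC_subset_bU hq (bTri_subset_bTriC q h.1)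

/-- (Z1) along integral curves. -/
theorem hasDerivAt_bz_comp {q : ℝ} {γ : ℝ → ℝ × ℝ} {σ : ℝ} (hU : γ σ ∈ bU q)
    (hγ : HasDerivAt γ (bX q (γ σ)) σ) :
    HasDerivAt (fun s => bz q (γ s))
      (2 * (q - 1) * (1 - bz q (γ σ)) - 2 * bz q (γ σ) * (γ σ).2) σ := by
  obtain ⟨hN, hD⟩ := hU
  have h1 : HasDerivAt (fun s => (γ s).1) (bX q (γ σ)).1 σ :=
    (hasFDerivAt_fst (𝕜 := ℝ) (E := ℝ) (F := ℝ) (p := γ σ)).comp_hasDerivAt σ hγ
  have h2 : HasDerivAt (fun s => (γ s).2) (bX q (γ σ)).2 σ :=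
    (hasFDerivAt_snd (𝕜 := ℝ) (E := ℝ) (F := ℝ) (p := γ σ)).comp_hasDerivAt σ hγ
  have hNd : HasDerivAt (fun s => bN q (γ s)) (2 * (bX q (γ σ)).1) σ := by
    unfold bN
    exact (h1.const_mul 2).const_add _
  have hDd : HasDerivAt (fun s => bD q (γ s))
      (2 * q * (bX q (γ σ)).2 + (2 * (γ σ).2 * (bX q (γ σ)).2) / 2) σ := by
    unfold bD
    have h3 := ((h2.const_mul (2 * q)).const_add (q * (q - 1))).add ((h2.pow 2).div_const 2)
    refine h3.congr_deriv ?_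
    norm_num
  have hz := hNd.div hDd hD.ne'
  unfold bz
  refine hz.congr_deriv ?_
  have e1 : (bX q (γ σ)).1 = (γ σ).1 * (2 - (γ σ).2) := rfl
  have e2 : (bX q (γ σ)).2 = (2 * (γ σ).1 - (q - 1) * (γ σ).2) / (bN q (γ σ) / bD q (γ σ)) := rfl
  rw [e1, e2]
  have hN0 := hN.ne'
  have hD0 := hD.ne'
  have eN : bN q (γ σ) = q * (q - 1) + 2 * (γ σ).1 := rfl
  have eD : bD q (γ σ) = q * (q - 1) + 2 * q * (γ σ).2 + (γ σ).2 ^ 2 / 2 := rfl
  field_simp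
  rw [eN, eD]
  ring

end Claimed.Agent.R324
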