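/-
Row 324, module B, file Mono: components of a trajectory, monotonicity.

PROOFS.  `hasDerivAt_fst/snd`: `hasFDerivAt_fst.comp_hasDerivAt σ (h.hd σ)` (resp. snd), `simpa [bX]`  (or `(h.hd σ).fst`/`.snd` if these exist; or `hasDerivAt_prodMk_iff`-type lemmas).
 `monotone_fst`: `monotone_of_deriv_nonneg` (differentiable; deriv = P (2-Q) ≥ 0: P > 0 from the region, 2-Q > 0 by `bTri_facts`).
 `monotone_snd`: deriv = (2P-(q-1)Q)/z ≥ 0:  Q < 2P/(q-1) gives 2P-(q-1)Q > 0 (`lt_div_iff₀`), z > 0 by `bReg_z`.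
-/
import Claimed.Agent.R324.Bohm.RegAlg

set_option autoImplicit false

namespace Claimed.Agent.R324

variable {q : ℝ} {γ : ℝ → ℝ × ℝ}

theorem IsTraj.hasDerivAt_fst (h : IsTraj q γ) (σ : ℝ) :
    HasDerivAt (fun s => (γ s).1) ((γ σ).1 * (2 - (γ σ).2)) σ :=
  (hasFDerivAt_fst (𝕜 := ℝ) (E := ℝ) (F := ℝ) (p := γ σ)).comp_hasDerivAt σ (h.hd σ)

theorem IsTraj.hasDerivAt_snd (h : IsTraj q γ) (σ : ℝ) :
    HasDerivAt (fun s => (γ s).2) ((2 * (γ σ).1 - (q - 1) * (γ σ).2) / bz q (γ σ)) σ :=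
  (hasFDerivAt_snd (𝕜 := ℝ) (E := ℝ) (F := ℝ) (p := γ σ)).comp_hasDerivAt σ (h.hd σ)

theorem IsTraj.monotone_fst (hq : 100 ≤ q) (h : IsTraj q γ) : Monotone fun s => (γ s).1 := by
  apply monotone_of_deriv_nonneg
  · intro σ
    exact (h.hasDerivAt_fst σ).differentiableAt
  · intro σ
    rw [(h.hasDerivAt_fst σ).deriv]
    have hm := (h.mem σ).1
    obtain ⟨-, h2, -, -⟩ := bTri_facts (by linarith : (1 : ℝ) < q) hm
    exact mul_nonneg hm.1.le h2.le

theorem IsTraj.monotone_snd (hq : 100 ≤ q) (h : IsTraj q γ) : Monotone fun s => (γ s).2 := by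
  apply monotone_of_deriv_nonneg
  · intro σ
    exact (h.hasDerivAt_snd σ).differentiableAt
  · intro σ
    rw [(h.hasDerivAt_snd σ).deriv]
    have hm := (h.mem σ).1
    obtain ⟨hz, -⟩ := bReg_z hq (h.mem σ)
    have hn : 0 < q - 1 := by linarith
    have h3 : (γ σ).2 * (q - 1) < 2 * (γ σ).1 := (lt_div_iff₀ hn).1 hm.2.2.1
    exact div_nonneg (by linarith) (by linarith)

end Claimed.Agent.R324
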