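/-
Row 324, module B, file Conv: every complete trajectory in the region converges to the cone point.

PROOF of `IsTraj.tendsto`.  P = fst ∘ γ and Q = snd ∘ γ are monotone (Mono) and bounded above (P < q-1, Q < 2 by `bTri_facts`), so they converge:
   `tendsto_atTop_ciSup` (monotone, `BddAbove (range _)`) gives P → P∞, Q → Q∞;  γ → p∞ := (P∞,Q∞)  (`Tendsto.prodMk_nhds`).
   p∞ ∈ bTriC q (closed, γ σ ∈ bReg ⊆ bTriC: `IsClosed.mem_of_tendsto`), so p∞ ∈ bU q, where bX is continuous (`contDiffOn_bX`, `isOpen_bU`).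
   `field_zero_of_tendsto`: bX q p∞ = 0, i.e.  P∞ (2-Q∞) = 0  and  (2P∞-(q-1)Q∞)/bz q p∞ = 0 with bz q p∞ > 0 (bN, bD > 0), so 2P∞ = (q-1) Q∞.
   P∞ ≥ P 0 > 0 (`Monotone.ge_of_tendsto`), so Q∞ = 2 and P∞ = q-1:  p∞ = bC q.
-/
import Claimed.Agent.R324.Bohm.Mono
import Claimed.Agent.R324.Bohm.ConvGen

set_option autoImplicit false

namespace Claimed.Agent.R324

open Filter Topology

theorem IsTraj.tendsto {q : ℝ} (hq : 100 ≤ q) {γ : ℝ → ℝ × ℝ} (h : IsTraj q γ) :
    Tendsto γ atTop (𝓝 (bC q)) := by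
  have hq1 : 1 < q := by linarith
  have hm1 := h.monotone_fst hq
  have hm2 := h.monotone_snd hq
  have hb1 : BddAbove (Set.range fun s => (γ s).1) := by
    refine ⟨q - 1, ?_⟩
    rintro _ ⟨s, rfl⟩
    have := (bTri_facts hq1 (h.mem s).1).1
    simp only
    linarith
  have hb2 : BddAbove (Set.range fun s => (γ s).2) := by
    refine ⟨2, ?_⟩
    rintro _ ⟨s, rfl⟩
    have := (bTri_facts hq1 (h.mem s).1).2.1
    simp only
    linarith
  have ht1 := tendsto_atTop_ciSup hm1 hb1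
  have ht2 := tendsto_atTop_ciSup hm2 hb2
  set P := ⨆ s, (γ s).1 with hP
  set Q := ⨆ s, (γ s).2 with hQ
  have ht : Tendsto γ atTop (𝓝 (P, Q)) := ht1.prodMk_nhds ht2
  have hmem : (P, Q) ∈ bTriC q :=
    (isClosed_bTriC q).mem_of_tendsto ht
      (Eventually.of_forall fun s => bTri_subset_bTriC q (h.mem s).1)
  have hU : (P, Q) ∈ bU q := bTriC_subset_bU hq1 hmem
  have hc : ContinuousAt (bX q) (P, Q) :=
    ((contDiffOn_bX q).continuousOn).continuousAt ((isOpen_bU q).mem_nhds hU)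
  have hz : bX q (P, Q) = 0 := field_zero_of_tendsto h.hd hc ht
  have hz1 : P * (2 - Q) = 0 := congrArg Prod.fst hz
  have hz2 : (2 * P - (q - 1) * Q) / bz q (P, Q) = 0 := congrArg Prod.snd hz
  have hzpos : 0 < bz q (P, Q) := div_pos hU.1 hU.2
  have hP0 : 0 < P := lt_of_lt_of_le (h.mem 0).1.1 (hm1.ge_of_tendsto ht1 0)
  have hQ2 : Q = 2 := by
    rcases mul_eq_zero.mp hz1 with h0 | h0
    · exact absurd h0 hP0.ne'
    · linarith
  have hPq : P = q - 1 := by
    rcases div_eq_zero_iff.mp hz2 with h0 | h0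
    · rw [hQ2] at h0
      linarith
    · exact absurd h0 hzpos.ne'
  have e : bC q = (P, Q) := by
    rw [hPq, hQ2]
    rfl
  rw [e]
  exact ht

end Claimed.Agent.R324
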