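/-
Row 324, module B, file Crude: crude bounds with constants independent of q (blueprint B5).     n = q-1 ≥ 99, P = bP w Ξ, Q = th w Ξ, J = bJ w Ξ = 2-Q.

At Ξ = 0:  P = 0, Q = 0, th _ 0 = 0, z 0 = 1, J = 2 (simp [bP, th, bJ]); every claim is trivial there.   Let Ξ > 0; (P,Q) = bPQ w Ξ ∈ bReg q (field `reg`), z Ξ = bz q (P,Q) (field `eqH`).
* `Q_bounds`, `J_bounds`: 0 < Q, 0 < J (`bTri_facts`).
* `thQ_bounds`: eqW: z th(th w) = 2P - nQ ∈ (0,4) (region: Q < 2P/n and 2P-nQ < 4), 1/2 < z (`bReg_z`)  ⟹  0 < th(th w) < 8.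
* `w_nonneg`: w 0 = 0; for Ξ > 0: 2 Ξ w'(Ξ) = Q > 0 so w' > 0;  w is monotone on [0,∞) (`monotoneOn_of_deriv_nonneg (convex_Ici 0)`, interior = Ioi 0).
* `P_bounds`: 0 < P < n (`bTri_facts`);  P = Ξ e^{-w} ≤ Ξ as w ≥ 0 (`Real.exp_le_one_iff`/`Real.exp_le_one_of_nonpos`…).
* `z_bounds`: region.
* `thz_bound`: eqZ:  th z = 2n(1-z) - 2zQ with z = N/D, N = qn+2P, D = qn+2qQ+Q²/2:
       th z = (2n(D-N) - 2NQ)/D = (-2q(2P-nQ) + nQ² + 4P(1-Q))/D,      -8q < -2q(2P-nQ) < 0,   0 ≤ nQ² ≤ 4n,   |4P(1-Q)| ≤ 4n,    D ≥ qn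
       ⟹  -(8q+4n)/(qn) ≤ th z ≤ 8n/(qn),   and (8q+4n)/(qn) = 8/n + 4/q ≤ 12/n.
-/
import Claimed.Agent.R324.Bohm.RegAlg

set_option autoImplicit false

namespace Claimed.Agent.R324

variable {q : ℕ} {w z : ℝ → ℝ}

theorem crude_th_zero (f : ℝ → ℝ) : th f 0 = 0 := by simp [th]

/-- all the pointwise facts at `Ξ > 0`. -/
theorem IsBohm.crude_pos (hq : 100 ≤ q) (h : IsBohm q w z) {Ξ : ℝ} (hΞ : 0 < Ξ) :
    0 < bP w Ξ ∧ 0 < th w Ξ ∧ bP w Ξ < (q : ℝ) - 1 ∧ th w Ξ < 2 ∧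
      ((q : ℝ) - 1) * th w Ξ < 2 * bP w Ξ ∧ 2 * bP w Ξ - ((q : ℝ) - 1) * th w Ξ < 4 ∧
      1 / 2 < z Ξ ∧ z Ξ < 1 ∧ 1 - z Ξ < 2 / ((q : ℝ) - 1) := by
  have hq' : (100 : ℝ) ≤ q := by exact_mod_cast hq
  have hn : (0 : ℝ) < (q : ℝ) - 1 := by linarith
  have hp := h.reg Ξ hΞ
  have hz := h.eqH Ξ hΞ.le
  obtain ⟨hz1, hz2⟩ := bReg_z hq' hp
  obtain ⟨f1, f2, -, -⟩ := bTri_facts (by linarith : (1 : ℝ) < q) hp.1
  obtain ⟨⟨t1, t2, t3, -⟩, -, r3, r4⟩ := hp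
  rw [← hz] at hz1 hz2 r3
  have t3' : th w Ξ * ((q : ℝ) - 1) < 2 * bP w Ξ := (lt_div_iff₀ hn).1 t3
  exact ⟨t1, t2, by simpa [bPQ] using f1, by simpa [bPQ] using f2, by linarith, r4, hz1, hz2, r3⟩

theorem IsBohm.Q_bounds (hq : 100 ≤ q) (h : IsBohm q w z) :
    ∀ Ξ, 0 ≤ Ξ → 0 ≤ th w Ξ ∧ th w Ξ < 2 := by
  intro Ξ hΞ
  rcases hΞ.eq_or_lt with rfl | hpos
  · rw [crude_th_zero]; norm_num
  · obtain ⟨-, h2, -, h4, -⟩ := h.crude_pos hq hpos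
    exact ⟨h2.le, h4⟩

theorem IsBohm.J_bounds (hq : 100 ≤ q) (h : IsBohm q w z) :
    ∀ Ξ, 0 ≤ Ξ → 0 < bJ w Ξ ∧ bJ w Ξ ≤ 2 := by
  intro Ξ hΞ
  obtain ⟨h1, h2⟩ := h.Q_bounds hq Ξ hΞ
  unfold bJ
  constructor <;> linarith

theorem IsBohm.thQ_bounds (hq : 100 ≤ q) (h : IsBohm q w z) :
    ∀ Ξ, 0 ≤ Ξ → 0 ≤ th (th w) Ξ ∧ th (th w) Ξ ≤ 8 := by
  intro Ξ hΞ
  rcases hΞ.eq_or_lt with rfl | hpos
  · rw [crude_th_zero]; norm_num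
  · obtain ⟨-, -, -, -, h5, h6, h7, h8, -⟩ := h.crude_pos hq hpos
    have hW := h.eqW Ξ hΞ
    have e1 : 0 < z Ξ * th (th w) Ξ := by linarith
    have e2 : z Ξ * th (th w) Ξ < 4 := by linarith
    have hz0 : 0 < z Ξ := by linarith
    have e3 : 0 < th (th w) Ξ := (pos_iff_pos_of_mul_pos e1).1 hz0
    refine ⟨e3.le, ?_⟩
    nlinarith

theorem IsBohm.w_nonneg (hq : 100 ≤ q) (h : IsBohm q w z) : ∀ Ξ, 0 ≤ Ξ → 0 ≤ w Ξ := by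
  intro Ξ hΞ
  have hd : Differentiable ℝ w := h.smw.differentiable (by simp)
  have hmono : MonotoneOn w (Set.Ici 0) := by
    refine monotoneOn_of_deriv_nonneg (convex_Ici 0) hd.continuous.continuousOn
      hd.differentiableOn ?_
    intro x hx
    rw [interior_Ici] at hx
    have hx0 : 0 < x := hx
    obtain ⟨-, h2, -⟩ := h.crude_pos hq hx0
    unfold th at h2
    have h3 : 0 < 2 * x := by linarith
    exact ((pos_iff_pos_of_mul_pos h2).1 h3).le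
  have := hmono (Set.mem_Ici.2 le_rfl) (Set.mem_Ici.2 hΞ) hΞ
  rwa [h.w0] at this

theorem IsBohm.P_bounds (hq : 100 ≤ q) (h : IsBohm q w z) :
    ∀ Ξ, 0 ≤ Ξ → 0 ≤ bP w Ξ ∧ bP w Ξ ≤ (q : ℝ) - 1 ∧ bP w Ξ ≤ Ξ := by
  intro Ξ hΞ
  have hq' : (100 : ℝ) ≤ q := by exact_mod_cast hq
  have h3 : bP w Ξ ≤ Ξ := by
    unfold bP
    have h4 : Real.exp (-w Ξ) ≤ 1 := Real.exp_le_one_iff.2 (by linarith [h.w_nonneg hq Ξ hΞ])
    nlinarith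
  rcases hΞ.eq_or_lt with rfl | hpos
  · refine ⟨by simp [bP], by simp [bP]; linarith, h3⟩
  · obtain ⟨h1, -, h2, -⟩ := h.crude_pos hq hpos
    exact ⟨h1.le, h2.le, h3⟩

theorem IsBohm.z_bounds (hq : 100 ≤ q) (h : IsBohm q w z) :
    ∀ Ξ, 0 ≤ Ξ → 0 ≤ 1 - z Ξ ∧ 1 - z Ξ ≤ 2 / ((q : ℝ) - 1) := by
  intro Ξ hΞ
  have hq' : (100 : ℝ) ≤ q := by exact_mod_cast hq
  have hn : (0 : ℝ) < (q : ℝ) - 1 := by linarith
  rcases hΞ.eq_or_lt with rfl | hpos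
  · rw [h.z0]
    refine ⟨by norm_num, ?_⟩
    rw [sub_self]
    positivity
  · obtain ⟨-, -, -, -, -, -, -, h8, h9⟩ := h.crude_pos hq hpos
    exact ⟨by linarith, h9.le⟩

theorem IsBohm.thz_bound (hq : 100 ≤ q) (h : IsBohm q w z) :
    ∀ Ξ, 0 ≤ Ξ → |th z Ξ| ≤ 12 / ((q : ℝ) - 1) := by
  intro Ξ hΞ
  have hq' : (100 : ℝ) ≤ q := by exact_mod_cast hq
  have hn : (0 : ℝ) < (q : ℝ) - 1 := by linarith
  rcases hΞ.eq_or_lt with rfl | hpos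
  · rw [crude_th_zero, abs_zero]
    positivity
  · obtain ⟨p1, p2, p3, p4, p5, p6, -, -, -⟩ := h.crude_pos hq hpos
    have hZ := h.eqZ Ξ hΞ
    have hH := h.eqH Ξ hΞ
    generalize th z Ξ = T at hZ ⊢
    generalize z Ξ = ζ at hZ hH
    have eN : bN q (bPQ w Ξ) = q * ((q : ℝ) - 1) + 2 * bP w Ξ := rfl
    have eD : bD q (bPQ w Ξ) = q * ((q : ℝ) - 1) + 2 * q * th w Ξ + th w Ξ ^ 2 / 2 := rfl
    unfold bz at hH
    rw [eN, eD] at hH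
    generalize bP w Ξ = P at *
    generalize th w Ξ = Q at *
    generalize hnn : (q : ℝ) - 1 = n at *
    have hqn : (q : ℝ) = n + 1 := by linarith
    generalize (q : ℝ) = r at *
    subst hqn
    have hD : (n + 1) * n ≤ (n + 1) * n + 2 * (n + 1) * Q + Q ^ 2 / 2 := by
      have : 0 ≤ 2 * (n + 1) * Q + Q ^ 2 / 2 := by positivity
      linarith
    have hD0 : 0 < (n + 1) * n := by positivity
    have hT : T = (-2 * (n + 1) * (2 * P - n * Q) + n * Q ^ 2 + 4 * P * (1 - Q)) /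
        ((n + 1) * n + 2 * (n + 1) * Q + Q ^ 2 / 2) := by
      rw [hZ, hH]
      have : (n + 1) * n + 2 * (n + 1) * Q + Q ^ 2 / 2 ≠ 0 := (lt_of_lt_of_le hD0 hD).ne'
      field_simp
      ring
    have hnum : |(-2 * (n + 1) * (2 * P - n * Q) + n * Q ^ 2 + 4 * P * (1 - Q))|
        ≤ 8 * (n + 1) + 4 * n := by
      rw [abs_le]
      constructor
      · nlinarith [mul_pos p1 p2, mul_pos hn p2, mul_pos p2 p2, mul_pos p1 (sub_pos.2 p4),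
          mul_pos hn (sub_pos.2 p6)]
      · nlinarith [mul_pos p1 p2, mul_pos hn p2, mul_pos p2 (sub_pos.2 p4),
          mul_pos hn (sub_pos.2 p5)]
    rw [hT, abs_div, abs_of_pos (lt_of_lt_of_le hD0 hD)]
    refine (div_le_div₀ (by positivity) hnum hD0 hD).trans ?_
    rw [div_le_div_iff₀ hD0 hn]
    nlinarith

end Claimed.Agent.R324
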