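/-
Row 324, module B, file Damped (generic): a priori bound for u' = -c(t) u + e(t), c ≥ c0 > 0, |e| ≤ M.

PROOF of `abs_le_of_damped`.  B ≥ |u a| ≥ 0.  Fix ε > 0 and apply `barrier_pos` (ι = Bool or Fin 2, constant K) to  g₁ = B + ε - u,  g₂ = B + ε + u  (differentiable on [a,∞); for `hc`, `hd` use hd's HasDerivAt):
    g₁' = c u - e = c (B+ε) - e - c g₁ ≥ -c g₁ ≥ -K g₁      [c (B+ε) ≥ c0 B ≥ M ≥ e;   g₁ > 0, c ≤ K],        same for g₂ (with -e).
  So |u t| < B + ε for every ε > 0 (`abs_lt`), hence |u t| ≤ B (`le_of_forall_pos_lt_add` / `le_of_forall_pos_le_add`).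
-/
import Claimed.Agent.R324.Bohm.Barrier

set_option autoImplicit false

namespace Claimed.Agent.R324

theorem abs_le_of_damped {u c e : ℝ → ℝ} {a c0 K M B : ℝ} (hc0 : 0 < c0)
    (hd : ∀ t, a ≤ t → HasDerivAt u (-c t * u t + e t) t)
    (hc : ∀ t, a ≤ t → c0 ≤ c t ∧ c t ≤ K) (he : ∀ t, a ≤ t → |e t| ≤ M)
    (hB : |u a| ≤ B) (hMB : M ≤ c0 * B) : ∀ t, a ≤ t → |u t| ≤ B := by
  intro t ht
  have hB0 : 0 ≤ B := (abs_nonneg _).trans hB
  refine le_of_forall_pos_le_add fun ε hε => ?_
  set σ : Bool → ℝ := fun b => if b then 1 else -1 with hσdef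
  have hσ : ∀ b, σ b = 1 ∨ σ b = -1 := by
    intro b
    cases b
    · right; simp [hσdef]
    · left; simp [hσdef]
  have key := barrier_pos (ι := Bool) (g := fun b s => B + ε - σ b * u s)
    (g' := fun b s => -(σ b * (-c s * u s + e s))) (a := a) (K := K) ?_ ?_ ?_ t ht
  · have h1 := key true
    have h2 := key false
    simp only [hσdef] at h1 h2
    simp at h1 h2
    rw [abs_le]
    constructor <;> linarith
  · intro b
    have h1 := abs_le.1 hB
    rcases hσ b with h | h <;> simp only [h] <;> linarith [h1.1, h1.2]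
  · intro s hs _ b
    have h1 : ContinuousAt u s := (hd s hs.le).continuousAt
    exact continuousAt_const.sub (continuousAt_const.mul h1)
  · intro s hs hpos b
    refine ⟨?_, ?_⟩
    · exact ((hd s hs).const_mul (σ b)).const_sub (B + ε)
    · have hg : 0 < B + ε - σ b * u s := hpos b
      show -K * (B + ε - σ b * u s) ≤ -(σ b * (-c s * u s + e s))
      obtain ⟨hc1, hc2⟩ := hc s hs
      have he1 := abs_le.1 (he s hs)
      have h1 : c0 * B ≤ c s * (B + ε) := by
        have : c0 * B ≤ c s * B := mul_le_mul_of_nonneg_right hc1 hB0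
        have h2 : 0 ≤ c s * ε := mul_nonneg (hc0.le.trans hc1) hε.le
        nlinarith
      have h3 : c s * (B + ε - σ b * u s) ≤ K * (B + ε - σ b * u s) :=
        mul_le_mul_of_nonneg_right hc2 hg.le
      rcases hσ b with h | h <;> rw [h] at h3 ⊢ <;> nlinarith [he1.1, he1.2]

end Claimed.Agent.R324
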