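/-
Row 324, module B, file Decay: J ≤ C/(1+Ξ), Ξ = e^{2σ}.

* `tendsto_rate`.  γ → bC q (`IsTraj.tendsto`).  So J = 2-Q → 0;  |k-α| ≤ C J → 0 (`slowK`, `squeeze_zero_norm`/`tendsto_iff_norm_sub_tendsto_zero`) so k → α ≠ 0;
     bz q is continuous at bC q ∈ bU q (`contDiffOn_bz`, `isOpen_bU`; bC q ∈ bTriC q ⊆ bU q, or directly bN, bD > 0) and bz q (bC q) = (q-1)(q+2)/((q+1)(q+2)) = (q-1)/(q+1) ≠ 0.
     Limit:  (n/(n/m)) (1-2/α) = m (1-2/α) = α  (`bAl_rate`).     (`Tendsto.div`, `Tendsto.mul`, `Tendsto.const_sub`...)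
* `decay`.  α > 2: there is σ1 with rate(σ) ≥ 2 for σ ≥ σ1 (`Tendsto.eventually_ge_const`/`eventually_gt`…, `eventually_atTop`).     F σ := J σ e^{2σ} has derivative  J e^{2σ} (2 - rate) ≤ 0 for σ ≥ σ1 (`hasDerivAt_J`),
     so F is antitone on [σ1,∞) (`antitoneOn_of_deriv_nonpos (convex_Ici σ1)`):  J σ e^{2σ} ≤ F σ1 ≤ 2 e^{2σ1}.   For σ ≤ σ1:  J σ e^{2σ} ≤ 2 e^{2σ1} too (0 < J < 2).
     So J (1+e^{2σ}) ≤ 2 + 2 e^{2σ1} =: C   (`le_div_iff₀`).
-/
import Claimed.Agent.R324.Bohm.Slow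
import Claimed.Agent.R324.Bohm.Conv

set_option autoImplicit false

namespace Claimed.Agent.R324

open Filter Topology

variable {q : ℝ} {γ : ℝ → ℝ × ℝ}

theorem IsTraj.tendsto_rate (hq : 100 ≤ q) (h : IsTraj q γ) :
    Tendsto (fun σ => (q - 1) / bz q (γ σ) * (1 - 2 / bK q (γ σ))) atTop (𝓝 (bAl q)) := by
  have hγ := h.tendsto hq
  have hal := bAl_bounds hq
  have hJ : Tendsto (fun σ => 2 - (γ σ).2) atTop (𝓝 0) := by
    have h2 : Tendsto (fun σ => (γ σ).2) atTop (𝓝 (bC q).2) :=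
      (continuous_snd.tendsto (bC q)).comp hγ
    have h3 := h2.const_sub 2
    simpa [bC] using h3
  obtain ⟨C, hC⟩ := h.slowK hq
  have hk : Tendsto (fun σ => bK q (γ σ)) atTop (𝓝 (bAl q)) := by
    rw [tendsto_iff_norm_sub_tendsto_zero]
    have h0 : Tendsto (fun σ => C * (2 - (γ σ).2)) atTop (𝓝 0) := by
      simpa using hJ.const_mul C
    exact squeeze_zero (fun σ => norm_nonneg _)
      (fun σ => by rw [Real.norm_eq_abs]; exact hC σ) h0
  have hCU : bC q ∈ bU q := by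
    constructor
    · simp only [bN, bC]; nlinarith
    · simp only [bD, bC]; nlinarith
  have hzc : ContinuousAt (bz q) (bC q) :=
    (contDiffOn_bz q).continuousOn.continuousAt ((isOpen_bU q).mem_nhds hCU)
  have hz : Tendsto (fun σ => bz q (γ σ)) atTop (𝓝 (bz q (bC q))) := hzc.tendsto.comp hγ
  have hzval : bz q (bC q) = (q - 1) / (q + 1) := by
    simp only [bz, bN, bD, bC]
    rw [div_eq_div_iff (by nlinarith) (by linarith)]
    ring
  have hz0 : bz q (bC q) ≠ 0 := by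
    rw [hzval]
    have : 0 < (q - 1) / (q + 1) := by apply div_pos <;> linarith
    exact this.ne'
  have h1 : Tendsto (fun σ => (q - 1) / bz q (γ σ)) atTop (𝓝 ((q - 1) / bz q (bC q))) :=
    tendsto_const_nhds.div hz hz0
  have h2 : Tendsto (fun σ => 1 - 2 / bK q (γ σ)) atTop (𝓝 (1 - 2 / bAl q)) :=
    (tendsto_const_nhds.div hk (by linarith)).const_sub 1
  have h3 := h1.mul h2
  have e1 : (q - 1) / ((q - 1) / (q + 1)) = q + 1 := by
    have a1 : q - 1 ≠ 0 := by linarith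
    have a2 : q + 1 ≠ 0 := by linarith
    field_simp
  rwa [hzval, e1, bAl_rate hq] at h3

theorem IsTraj.decay (hq : 100 ≤ q) (h : IsTraj q γ) :
    ∃ C : ℝ, ∀ σ, 2 - (γ σ).2 ≤ C / (1 + Real.exp (2 * σ)) := by
  have hal := bAl_bounds hq
  have hr := h.tendsto_rate hq
  have hev : ∀ᶠ σ in atTop, 2 ≤ (q - 1) / bz q (γ σ) * (1 - 2 / bK q (γ σ)) :=
    hr.eventually_const_le hal.1
  obtain ⟨σ1, hσ1⟩ := eventually_atTop.1 hev
  have hJpos : ∀ σ, 0 < 2 - (γ σ).2 := fun σ => (bTri_facts (by linarith) (h.mem σ).1).2.1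
  have hJlt : ∀ σ, 2 - (γ σ).2 < 2 := fun σ => by
    have := (h.mem σ).1.2.1
    linarith
  have hFd : ∀ σ, HasDerivAt (fun s => (2 - (γ s).2) * Real.exp (2 * s))
      ((2 - (γ σ).2) * Real.exp (2 * σ) * (2 - (q - 1) / bz q (γ σ) * (1 - 2 / bK q (γ σ)))) σ := by
    intro σ
    have h1 := h.hasDerivAt_J hq σ
    have h2 : HasDerivAt (fun s => Real.exp (2 * s)) (Real.exp (2 * σ) * 2) σ := by
      have := ((hasDerivAt_id σ).const_mul 2).exp
      simpa using this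
    have h3 := h1.fun_mul h2
    refine h3.congr_deriv ?_
    ring
  have hanti : AntitoneOn (fun s => (2 - (γ s).2) * Real.exp (2 * s)) (Set.Ici σ1) := by
    apply antitoneOn_of_deriv_nonpos (convex_Ici σ1)
    · exact fun σ _ => (hFd σ).continuousAt.continuousWithinAt
    · exact fun σ _ => (hFd σ).differentiableAt.differentiableWithinAt
    · intro σ hσ
      rw [interior_Ici] at hσ
      rw [(hFd σ).deriv]
      have h4 := hσ1 σ (le_of_lt hσ)
      apply mul_nonpos_of_nonneg_of_nonpos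
      · exact mul_nonneg (hJpos σ).le (Real.exp_pos _).le
      · linarith
  refine ⟨2 + 2 * Real.exp (2 * σ1), fun σ => ?_⟩
  rw [le_div_iff₀ (by positivity)]
  have hFle : (2 - (γ σ).2) * Real.exp (2 * σ) ≤ 2 * Real.exp (2 * σ1) := by
    rcases le_total σ1 σ with hs | hs
    · have h5 := hanti (Set.mem_Ici.2 le_rfl) (Set.mem_Ici.2 hs) hs
      exact le_trans h5 (mul_le_mul_of_nonneg_right (hJlt σ1).le (Real.exp_pos _).le)
    · exact mul_le_mul (hJlt σ).le (Real.exp_le_exp.2 (by linarith)) (Real.exp_pos _).le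
        (by norm_num)
  have h6 := hJlt σ
  nlinarith

end Claimed.Agent.R324
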