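/-
Row 324, module B, file TipReg: the tip solution enters the invariant region.

PROOF of `IsTip.exists_reg`.  Only uses: w is C^1 near 0 (w and deriv w continuous at 0), w 0 = 0, deriv w 0 = 1/(q+1), q > 1.
 With P = Ξ e^{-w}, Q = 2 Ξ w'  (unfold bPQ bP th) the seven conditions for small Ξ > 0:
  1. 0 < P: clear.                 2. 0 < Q  ⟸ w'(Ξ) > 0        [w'(0) = 1/(q+1) > 0, continuity].
  3. Q < 2P/(q-1)  ⟸  w'(Ξ) < e^{-w(Ξ)}/(q-1)                   [at 0: 1/(q+1) < 1/(q-1)].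
  4. 2 + 4/(q-1) (P-(q-1)) < Q:  the map Ξ ↦ Q - 2 - 4/(q-1)(P-(q-1)) is continuous at 0 with value 2 > 0.
  5. bz < 1  ⟸  bN < bD (bD > 0 as Q > 0)  ⟸  2P < 2qQ  ⟸  e^{-w(Ξ)} < 2 q w'(Ξ)      [at 0: 1 < 2q/(q+1)].
  6. 1 - bz < 2/(q-1):  Ξ ↦ bz q (bPQ w Ξ) is continuous at 0 (bD = q(q-1) ≠ 0 there) with value 1.
  7. 2P - (q-1)Q < 4:  continuous, value 0 at 0.
 Each is an `∀ᶠ Ξ in 𝓝 0` statement (for 2,3,5 about w', e^{-w}); intersect (`Filter.Eventually.and`), get a ball (`Metric.eventually_nhds_iff`), take δ' = min ε δ.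
-/
import Claimed.Agent.R324.Bohm.Defs

set_option autoImplicit false

namespace Claimed.Agent.R324

open Set

theorem IsTip.exists_reg {q δ : ℝ} (hq : 1 < q) {w z : ℝ → ℝ} (h : IsTip q δ w z) :
    ∃ δ' ∈ Ioc 0 δ, ∀ Ξ ∈ Ioo 0 δ', bPQ w Ξ ∈ bReg q := by
  have hq1 : 0 < q - 1 := by linarith
  have hq0 : 0 < q := by linarith
  have hq2 : 0 < q + 1 := by linarith
  have hopen : IsOpen (Ioo (-δ) δ) := isOpen_Ioo
  have h0 : (0 : ℝ) ∈ Ioo (-δ) δ := ⟨by linarith [h.pos], h.pos⟩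
  have hwc : ContinuousAt w 0 := h.smw.continuousOn.continuousAt (hopen.mem_nhds h0)
  have hdc : ContinuousAt (deriv w) 0 :=
    (h.smw.continuousOn_deriv_of_isOpen hopen (by simp)).continuousAt (hopen.mem_nhds h0)
  have hE : ContinuousAt (fun Ξ => Real.exp (-w Ξ)) 0 :=
    Real.continuous_exp.continuousAt.comp hwc.neg
  have hE0 : Real.exp (-w 0) = 1 := by rw [h.w0, neg_zero, Real.exp_zero]
  have e1 : ∀ᶠ Ξ in nhds (0 : ℝ), 0 < deriv w Ξ :=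
    continuousAt_const.eventually_lt hdc (by rw [h.dw0]; positivity)
  have e2 : ∀ᶠ Ξ in nhds (0 : ℝ), deriv w Ξ < Real.exp (-w Ξ) / (q - 1) :=
    hdc.eventually_lt (hE.div_const _) (by
      show deriv w 0 < Real.exp (-w 0) / (q - 1)
      rw [h.dw0, hE0]
      exact one_div_lt_one_div_of_lt hq1 (by linarith))
  have e3 : ∀ᶠ Ξ in nhds (0 : ℝ), Real.exp (-w Ξ) < 2 * q * deriv w Ξ :=
    hE.eventually_lt (continuousAt_const.mul hdc) (by
      show Real.exp (-w 0) < 2 * q * deriv w 0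
      rw [h.dw0, hE0, mul_one_div, lt_div_iff₀ hq2]
      linarith)
  have e4 : ∀ᶠ Ξ in nhds (0 : ℝ), Ξ * Real.exp (-w Ξ) < (q - 1) / 2 :=
    (continuousAt_id.mul hE).eventually_lt continuousAt_const (by
      show id (0 : ℝ) * Real.exp (-w 0) < (q - 1) / 2
      rw [id, zero_mul]
      positivity)
  have e5 : ∀ᶠ Ξ in nhds (0 : ℝ), Ξ * Real.exp (-w Ξ) < 2 :=
    (continuousAt_id.mul hE).eventually_lt continuousAt_const (by
      show id (0 : ℝ) * Real.exp (-w 0) < 2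
      rw [id, zero_mul]
      norm_num)
  have e6 : ∀ᶠ Ξ in nhds (0 : ℝ), 2 * Ξ * deriv w Ξ < 1 / 2 :=
    ((continuousAt_const.mul continuousAt_id).mul hdc).eventually_lt continuousAt_const (by
      show 2 * id (0 : ℝ) * deriv w 0 < 1 / 2
      rw [id, mul_zero, zero_mul]
      norm_num)
  obtain ⟨ε, hε, hball⟩ := Metric.eventually_nhds_iff.1
    (e1.and (e2.and (e3.and (e4.and (e5.and e6)))))
  refine ⟨min ε δ, ⟨lt_min hε h.pos, min_le_right _ _⟩, fun Ξ hΞ => ?_⟩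
  have hΞ0 : 0 < Ξ := hΞ.1
  have hdist : dist Ξ 0 < ε := by
    rw [Real.dist_eq, sub_zero, abs_of_pos hΞ0]
    exact lt_of_lt_of_le hΞ.2 (min_le_left _ _)
  obtain ⟨a1, a2, a3, a4, a5, a6⟩ := hball hdist
  set D := deriv w Ξ with hD
  set E := Real.exp (-w Ξ) with hEd
  have hEpos : 0 < E := Real.exp_pos _
  have hP : 0 < Ξ * E := mul_pos hΞ0 hEpos
  have hQ : 0 < 2 * Ξ * D := by positivity
  have hbD : q * (q - 1) < q * (q - 1) + 2 * q * (2 * Ξ * D) + (2 * Ξ * D) ^ 2 / 2 := by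
    have : 0 < 2 * q * (2 * Ξ * D) := by positivity
    have : 0 ≤ (2 * Ξ * D) ^ 2 / 2 := by positivity
    linarith
  have hbD0 : 0 < q * (q - 1) + 2 * q * (2 * Ξ * D) + (2 * Ξ * D) ^ 2 / 2 :=
    lt_trans (by positivity) hbD
  have hPQ : 2 * (Ξ * E) < 2 * q * (2 * Ξ * D) := by
    have := mul_lt_mul_of_pos_left a3 hΞ0
    nlinarith
  show (Ξ * E, 2 * Ξ * D) ∈ bReg q
  refine ⟨⟨hP, hQ, ?_, ?_⟩, ?_, ?_, ?_⟩
  · show 2 * Ξ * D < 2 * (Ξ * E) / (q - 1)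
    have h3 := mul_lt_mul_of_pos_left a2 (show 0 < 2 * Ξ by positivity)
    calc 2 * Ξ * D < 2 * Ξ * (E / (q - 1)) := h3
      _ = 2 * (Ξ * E) / (q - 1) := by ring
  · show 2 + 4 / (q - 1) * (Ξ * E - (q - 1)) < 2 * Ξ * D
    have h4 : 4 / (q - 1) * (Ξ * E - (q - 1)) = 4 * (Ξ * E) / (q - 1) - 4 := by
      field_simp
    have h5 : 4 * (Ξ * E) / (q - 1) < 2 := by
      rw [div_lt_iff₀ hq1]
      linarith
    rw [h4]
    linarith
  · show (q * (q - 1) + 2 * (Ξ * E)) / (q * (q - 1) + 2 * q * (2 * Ξ * D) + (2 * Ξ * D) ^ 2 / 2) < 1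
    rw [div_lt_one hbD0]
    have : 0 ≤ (2 * Ξ * D) ^ 2 / 2 := by positivity
    linarith
  · show 1 - (q * (q - 1) + 2 * (Ξ * E)) /
      (q * (q - 1) + 2 * q * (2 * Ξ * D) + (2 * Ξ * D) ^ 2 / 2) < 2 / (q - 1)
    rw [one_sub_div hbD0.ne', div_lt_div_iff₀ hbD0 hq1]
    set Q := 2 * Ξ * D with hQd
    set P := Ξ * E with hPd
    have hQ2 : Q ^ 2 / 2 < 1 / 8 := by nlinarith
    have h7 : q * (q - 1) + 2 * q * Q + Q ^ 2 / 2 - (q * (q - 1) + 2 * P) < 2 * q := by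
      nlinarith
    calc (q * (q - 1) + 2 * q * Q + Q ^ 2 / 2 - (q * (q - 1) + 2 * P)) * (q - 1)
        < 2 * q * (q - 1) := mul_lt_mul_of_pos_right h7 hq1
      _ = 2 * (q * (q - 1)) := by ring
      _ < 2 * (q * (q - 1) + 2 * q * Q + Q ^ 2 / 2) := by linarith
  · show 2 * (Ξ * E) - (q - 1) * (2 * Ξ * D) < 4
    have : 0 < (q - 1) * (2 * Ξ * D) := by positivity
    linarith

end Claimed.Agent.R324
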