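/-
Row 324, module B, file TipH: the Hamiltonian constraint (H) holds for the tip solution (first integral).

`eq_zero_of_sing` (generic).  x E'(x) = -(c + x b'(x)) E(x) on (0,δ), c ≥ 0, E(0) = 0, E and b continuous on [0,δ)  ⟹  E = 0 on [0,δ).
  PROOF: G := (exp(b) E)^2.  For 0<x<δ: G' = 2 exp(2b) E (E' + b' E), so x G' = -2 c exp(2b) E^2 ≤ 0, so G' ≤ 0.  G is continuous on [0,δ), hence antitone there
  (`antitoneOn_of_deriv_nonpos (convex_Ico 0 δ)`, interior = Ioo 0 δ: `interior_Ico`).  0 ≤ G x ≤ G 0 = 0, exp > 0 ⟹ E x = 0.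

`IsTip.eqH`.  Put Q = th w, P = bP w, n = q-1, E := z (q n + 2 q Q + Q²/2) - (q n + 2 P)   (functions of Ξ, smooth on (-δ,δ)).   With θ = th (θf = 2 Ξ f'):
      θP = P (2 - Q)   [P = Ξ e^{-w}],      z θQ = 2P - nQ  (eqW),      θz = 2n(1-z) - 2zQ  (eqZ),
      θE = θz D + z (2q+Q) θQ - 2 θP = -2 (n + Q) E          (`linear_combination`; checked by hand: all terms without E cancel).
  i.e.  Ξ E' = -(n + Ξ (2w)') E;   E(0) = z(0) q n - q n = 0  (Q(0) = 0 = P(0)).    Apply `eq_zero_of_sing` with c = n, b = 2 w.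
  So z D = N on [0,δ).  N = q n + 2 P > 0 for Ξ ≥ 0, hence D ≠ 0 and z = N/D = bz q (bPQ w Ξ)  (`eq_div_iff`).
  Differentiability: w is C^∞ on the open interval, so w, deriv w (`ContDiffOn.deriv_of_isOpen`), th w, z are differentiable at each point of it.
-/
import Claimed.Agent.R324.Bohm.Defs

set_option autoImplicit false

namespace Claimed.Agent.R324

open Set

theorem eq_zero_of_sing {δ c : ℝ} (hc : 0 ≤ c) {E E' b b' : ℝ → ℝ}
    (hEc : ContinuousOn E (Ico 0 δ)) (hbc : ContinuousOn b (Ico 0 δ))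
    (hE : ∀ x ∈ Ioo 0 δ, HasDerivAt E (E' x) x) (hb : ∀ x ∈ Ioo 0 δ, HasDerivAt b (b' x) x)
    (hode : ∀ x ∈ Ioo 0 δ, x * E' x = -(c + x * b' x) * E x) (h0 : E 0 = 0) :
    ∀ x ∈ Ico 0 δ, E x = 0 := by
  intro x hx
  have hδ : 0 < δ := lt_of_le_of_lt hx.1 hx.2
  have hG : ∀ y ∈ Ioo 0 δ, HasDerivAt (fun y => (Real.exp (b y) * E y) ^ 2)
      (2 * (Real.exp (b y) * E y) * (Real.exp (b y) * b' y * E y + Real.exp (b y) * E' y)) y := by
    intro y hy
    have h1 : HasDerivAt (fun y => (Real.exp (b y) * E y) ^ 2) _ y :=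
      ((hb y hy).exp.mul (hE y hy)).pow 2
    refine h1.congr_deriv ?_
    simp only [Pi.mul_apply]
    norm_num
  have hcont : ContinuousOn (fun y => (Real.exp (b y) * E y) ^ 2) (Ico 0 δ) :=
    ((Real.continuous_exp.comp_continuousOn hbc).mul hEc).pow 2
  have hanti : AntitoneOn (fun y => (Real.exp (b y) * E y) ^ 2) (Ico 0 δ) := by
    refine antitoneOn_of_deriv_nonpos (convex_Ico 0 δ) hcont ?_ ?_
    · rw [interior_Ico]
      exact fun y hy => (hG y hy).differentiableAt.differentiableWithinAt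
    · rw [interior_Ico]
      intro y hy
      rw [(hG y hy).deriv]
      have hy0 : 0 < y := hy.1
      have h2 : y * (2 * (Real.exp (b y) * E y) *
          (Real.exp (b y) * b' y * E y + Real.exp (b y) * E' y))
          = -(2 * c * (Real.exp (b y) * E y) ^ 2) := by
        linear_combination (2 * Real.exp (b y) ^ 2 * E y) * hode y hy
      have h3 : y * (2 * (Real.exp (b y) * E y) *
          (Real.exp (b y) * b' y * E y + Real.exp (b y) * E' y)) ≤ 0 := by
        rw [h2]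
        have : 0 ≤ 2 * c * (Real.exp (b y) * E y) ^ 2 := by positivity
        linarith
      by_contra hneg
      push Not at hneg
      have := mul_pos hy0 hneg
      linarith
  have h0mem : (0 : ℝ) ∈ Ico 0 δ := ⟨le_rfl, hδ⟩
  have h4 := hanti h0mem hx hx.1
  simp only [h0, mul_zero] at h4
  have h5 : (Real.exp (b x) * E x) ^ 2 = 0 :=
    le_antisymm (by simpa using h4) (sq_nonneg _)
  have h6 : Real.exp (b x) * E x = 0 := by simpa using h5
  exact (mul_eq_zero.1 h6).resolve_left (Real.exp_pos _).ne'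

theorem IsTip.eqH {q δ : ℝ} (hq : 1 < q) {w z : ℝ → ℝ} (h : IsTip q δ w z) :
    ∀ Ξ ∈ Ico 0 δ, z Ξ = bz q (bPQ w Ξ) := by
  have hopen : IsOpen (Ioo (-δ) δ) := isOpen_Ioo
  have hsub : Ico 0 δ ⊆ Ioo (-δ) δ := fun x hx => ⟨by linarith [hx.1, h.pos], hx.2⟩
  have hsub' : Ioo 0 δ ⊆ Ioo (-δ) δ := fun x hx => ⟨by linarith [hx.1, h.pos], hx.2⟩
  have hw : ∀ x ∈ Ioo (-δ) δ, HasDerivAt w (deriv w x) x := fun x hx =>
    ((h.smw.contDiffAt (hopen.mem_nhds hx)).differentiableAt (by simp)).hasDerivAt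
  have hz : ∀ x ∈ Ioo (-δ) δ, HasDerivAt z (deriv z x) x := fun x hx =>
    ((h.smz.contDiffAt (hopen.mem_nhds hx)).differentiableAt (by simp)).hasDerivAt
  have hsm1 : ContDiffOn ℝ ((⊤ : ℕ∞) : WithTop ℕ∞) (deriv w) (Ioo (-δ) δ) :=
    h.smw.deriv_of_isOpen hopen (by simp)
  have hw1 : ∀ x ∈ Ioo (-δ) δ, HasDerivAt (deriv w) (deriv (deriv w) x) x := fun x hx =>
    ((hsm1.contDiffAt (hopen.mem_nhds hx)).differentiableAt (by simp)).hasDerivAt
  have hQ : ∀ x ∈ Ioo (-δ) δ, HasDerivAt (th w) (2 * deriv w x + 2 * x * deriv (deriv w) x) x := by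
    intro x hx
    have h1 : HasDerivAt (fun Ξ => 2 * Ξ * deriv w Ξ) _ x :=
      ((hasDerivAt_id x).const_mul 2).mul (hw1 x hx)
    refine HasDerivAt.congr_deriv (f := th w) h1 ?_
    simp
  have hP : ∀ x ∈ Ioo (-δ) δ, HasDerivAt (bP w)
      (Real.exp (-w x) - x * deriv w x * Real.exp (-w x)) x := by
    intro x hx
    have h1 : HasDerivAt (fun Ξ => Ξ * Real.exp (-w Ξ)) _ x :=
      (hasDerivAt_id x).mul (hw x hx).neg.exp
    refine HasDerivAt.congr_deriv (f := bP w) h1 ?_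
    simp
    ring
  have hE : ∀ x ∈ Ioo (-δ) δ, HasDerivAt
      (fun Ξ => z Ξ * (q * (q - 1) + 2 * q * th w Ξ + th w Ξ ^ 2 / 2) - (q * (q - 1) + 2 * bP w Ξ))
      (deriv z x * (q * (q - 1) + 2 * q * th w x + th w x ^ 2 / 2)
        + z x * ((2 * q + th w x) * (2 * deriv w x + 2 * x * deriv (deriv w) x))
        - 2 * (Real.exp (-w x) - x * deriv w x * Real.exp (-w x))) x := by
    intro x hx
    have h1 : HasDerivAt (fun Ξ => z Ξ * (q * (q - 1) + 2 * q * th w Ξ + th w Ξ ^ 2 / 2)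
        - (q * (q - 1) + 2 * bP w Ξ)) _ x :=
      ((hz x hx).mul ((((hQ x hx).const_mul (2 * q)).const_add (q * (q - 1))).add
      (((hQ x hx).pow 2).div_const 2))).sub (((hP x hx).const_mul 2).const_add (q * (q - 1)))
    refine h1.congr_deriv ?_
    simp only [Pi.add_apply, Pi.pow_apply, Nat.cast_ofNat, Nat.reduceSub, pow_one]
    ring
  have hb : ∀ x ∈ Ioo (-δ) δ, HasDerivAt (fun Ξ => 2 * w Ξ) (2 * deriv w x) x :=
    fun x hx => (hw x hx).const_mul 2
  have key := eq_zero_of_sing (δ := δ) (c := q - 1) (by linarith)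
    (E := fun Ξ => z Ξ * (q * (q - 1) + 2 * q * th w Ξ + th w Ξ ^ 2 / 2)
      - (q * (q - 1) + 2 * bP w Ξ))
    (E' := fun x => deriv z x * (q * (q - 1) + 2 * q * th w x + th w x ^ 2 / 2)
        + z x * ((2 * q + th w x) * (2 * deriv w x + 2 * x * deriv (deriv w) x))
        - 2 * (Real.exp (-w x) - x * deriv w x * Real.exp (-w x)))
    (b := fun Ξ => 2 * w Ξ) (b' := fun x => 2 * deriv w x)
    (fun x hx => (hE x (hsub hx)).continuousAt.continuousWithinAt)
    (fun x hx => (hb x (hsub hx)).continuousAt.continuousWithinAt)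
    (fun x hx => hE x (hsub' hx)) (fun x hx => hb x (hsub' hx))
    (by
      intro x hx
      have eW := h.eqW x (hsub' hx)
      have eZ := h.eqZ x (hsub' hx)
      have hthth : th (th w) x = 2 * x * (2 * deriv w x + 2 * x * deriv (deriv w) x) := by
        show 2 * x * deriv (th w) x = _
        rw [(hQ x (hsub' hx)).deriv]
      have hthw : th w x = 2 * x * deriv w x := rfl
      have hthz : th z x = 2 * x * deriv z x := rfl
      have hbP : bP w x = x * Real.exp (-w x) := rfl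
      rw [hthth, hthw, hbP] at eW
      rw [hthz, hthw] at eZ
      simp only [hthw, hbP]
      linear_combination
        ((q * (q - 1) + 2 * q * (2 * x * deriv w x) + (2 * x * deriv w x) ^ 2 / 2) / 2) * eZ
        + ((2 * q + 2 * x * deriv w x) / 2) * eW)
    (by
      have hthw : th w 0 = 0 := by simp [th]
      have hbP : bP w 0 = 0 := by simp [bP]
      simp only [hthw, hbP, h.z0]
      ring)
  intro Ξ hΞ
  have hk := key Ξ hΞ
  have hPnn : 0 ≤ bP w Ξ := mul_nonneg hΞ.1 (Real.exp_pos _).le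
  have hN : 0 < q * (q - 1) + 2 * bP w Ξ := by
    have : 0 < q * (q - 1) := mul_pos (by linarith) (by linarith)
    linarith
  have hD : bD q (bPQ w Ξ) ≠ 0 := by
    intro h0
    have h0' : q * (q - 1) + 2 * q * th w Ξ + th w Ξ ^ 2 / 2 = 0 := h0
    simp only [h0', mul_zero] at hk
    linarith
  unfold bz
  rw [eq_div_iff hD]
  show z Ξ * (q * (q - 1) + 2 * q * th w Ξ + th w Ξ ^ 2 / 2) = q * (q - 1) + 2 * bP w Ξ
  linarith

end Claimed.Agent.R324
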