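/-
Row 324, module B, file TipTraj: in the time σ = (log Ξ)/2 the tip solution is an integral curve of the planar field.

`hasDerivAt_comp_exp`: chain rule, d/dσ f(e^{2σ}) = f'(e^{2σ}) 2 e^{2σ} = th f (e^{2σ}).
`th_bP`: P = Ξ e^{-w}:  th P = 2Ξ (e^{-w} - Ξ w' e^{-w}) = P (2 - th w).
`IsTip.hasDerivAt_traj`: Ξ = e^{2σ} ∈ (0,δ).  First component: `hasDerivAt_comp_exp` + `th_bP`.  Second component: d/dσ (th w)(e^{2σ}) = th (th w) Ξ = (2P - (q-1)Q)/z  by eqW (z > 0)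
   and z Ξ = bz q (bPQ w Ξ) by `IsTip.eqH`.   `HasDerivAt.prodMk` (old name `HasDerivAt.prod`).   th w is differentiable at Ξ since w is C^∞ on the open interval.
-/
import Claimed.Agent.R324.Bohm.TipH

set_option autoImplicit false

namespace Claimed.Agent.R324

open Set
open scoped ContDiff

theorem hasDerivAt_comp_exp {f : ℝ → ℝ} {σ : ℝ} (hf : DifferentiableAt ℝ f (Real.exp (2 * σ))) :
    HasDerivAt (fun s => f (Real.exp (2 * s))) (th f (Real.exp (2 * σ))) σ := by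
  have h1 : HasDerivAt (fun s : ℝ => 2 * s) 2 σ := by
    simpa using (hasDerivAt_id σ).const_mul (2 : ℝ)
  have h2 : HasDerivAt (fun s : ℝ => Real.exp (2 * s)) (Real.exp (2 * σ) * 2) σ := h1.exp
  have h3 := hf.hasDerivAt.comp σ h2
  have h4 : th f (Real.exp (2 * σ)) = deriv f (Real.exp (2 * σ)) * (Real.exp (2 * σ) * 2) := by
    unfold th; ring
  rw [h4]
  exact h3

theorem th_bP {w : ℝ → ℝ} {Ξ : ℝ} (hw : DifferentiableAt ℝ w Ξ) :
    DifferentiableAt ℝ (bP w) Ξ ∧ th (bP w) Ξ = bP w Ξ * (2 - th w Ξ) := by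
  have h1 : HasDerivAt (fun x => Real.exp (-w x)) (Real.exp (-w Ξ) * (-deriv w Ξ)) Ξ :=
    (hw.hasDerivAt.neg).exp
  have h2 : HasDerivAt (bP w)
      (1 * Real.exp (-w Ξ) + Ξ * (Real.exp (-w Ξ) * (-deriv w Ξ))) Ξ :=
    (hasDerivAt_id Ξ).mul h1
  refine ⟨h2.differentiableAt, ?_⟩
  unfold th
  rw [h2.deriv]
  unfold bP
  ring

theorem IsTip.hasDerivAt_traj {q δ : ℝ} (hq : 1 < q) {w z : ℝ → ℝ} (h : IsTip q δ w z) {σ : ℝ}
    (hσ : Real.exp (2 * σ) < δ) :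
    HasDerivAt (fun s => bPQ w (Real.exp (2 * s))) (bX q (bPQ w (Real.exp (2 * σ)))) σ := by
  set Ξ := Real.exp (2 * σ) with hΞ
  have hΞ0 : 0 < Ξ := Real.exp_pos _
  have hmem : Ξ ∈ Ioo (-δ) δ := ⟨by linarith [h.pos], hσ⟩
  have hnhds : Ioo (-δ) δ ∈ nhds Ξ := isOpen_Ioo.mem_nhds hmem
  have hwA : ContDiffAt ℝ ∞ w Ξ := h.smw.contDiffAt hnhds
  have hwd : DifferentiableAt ℝ w Ξ := hwA.differentiableAt (by simp)
  have hdw : ContDiffOn ℝ ∞ (deriv w) (Ioo (-δ) δ) :=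
    h.smw.deriv_of_isOpen isOpen_Ioo (by simp)
  have hdwd : DifferentiableAt ℝ (deriv w) Ξ :=
    (hdw.contDiffAt hnhds).differentiableAt (by simp)
  have hthd : DifferentiableAt ℝ (th w) Ξ := by
    unfold th
    exact ((differentiableAt_const (2 : ℝ)).mul differentiableAt_id).mul hdwd
  obtain ⟨hPd, hPe⟩ := th_bP hwd
  have c1 : HasDerivAt (fun s => bP w (Real.exp (2 * s))) (th (bP w) Ξ) σ :=
    hasDerivAt_comp_exp hPd
  have c2 : HasDerivAt (fun s => th w (Real.exp (2 * s))) (th (th w) Ξ) σ :=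
    hasDerivAt_comp_exp hthd
  have hz : 0 < z Ξ := h.zpos Ξ hmem
  have hzH : z Ξ = bz q (bPQ w Ξ) := h.eqH hq Ξ ⟨hΞ0.le, hσ⟩
  have hW := h.eqW Ξ hmem
  have e2 : th (th w) Ξ = (2 * bP w Ξ - (q - 1) * th w Ξ) / bz q (bPQ w Ξ) := by
    rw [← hzH, eq_div_iff hz.ne']
    linarith
  have hX : bX q (bPQ w Ξ) = (th (bP w) Ξ, th (th w) Ξ) := by
    rw [hPe, e2]
    rfl
  rw [hX]
  exact c1.prodMk c2

end Claimed.Agent.R324
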