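/-
Row 324, module B, file TrapIneq: the seven differential inequalities on the region (pure real algebra; no definitions of the module are used).

Variables: n = q-1 ≥ 99, P, Q, z with the seven conditions H1..H7 of the region:
   0<P, 0<Q, Q < 2P/n, 2 + 4/n (P-n) < Q, z<1, 1-z < 2/n, 2P-nQ < 4.            X1 := P(2-Q),  X2 := (2P-nQ)/z,  K := 2n.
Consequences used everywhere:  a := n-P > 0, J := 2-Q > 0 (as in RegAlg `bTri_facts`), P < n, 1/2 < z < 1, so 1 < 1/z < 2 and n/z ≤ 2n = K;  g1 := 2P/n - Q > 0, 2P-nQ = n g1 > 0.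
 t1  X1 = P J ≥ 0 ≥ -K P.
 t2  X2 = n g1/z ≥ 0 ≥ -K Q.
 t3  2 X1/n - X2 = 2PJ/n - (n/z) g1 ≥ -(n/z) g1 ≥ -K g1.
 t4  g3 := Q - 2 - (4/n)(P-n) > 0, s = 4/n.   2P-nQ = 2a - n g3,   J = s a - g3.      X2 - s X1 = a (2/z - s² P) + g3 (s P - n/z)     [identity; `field_simp; ring`]
       2/z > 2 ≥ 16/n > s² P  (P<n, n ≥ 8),  s P g3 ≥ 0,  -(n/z) g3 ≥ -K g3.
 t5  -(2n(1-z) - 2zQ) = -K (1-z) + 2zQ ≥ -K(1-z).
 t6  2n(1-z) - 2zQ = -K (2/n - (1-z)) + (4 - 2zQ),   zQ < 2.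
 t7  -(2 X1 - n X2) = (4n/z - 2PJ) - (n/z)(4 - (2P-nQ)),      4n/z > 4n > 2PJ (P<n, J<2),     -(n/z) g ≥ -K g for g = 4-(2P-nQ) > 0.
-/
import Mathlib

set_option autoImplicit false

namespace Claimed.Agent.R324

/-- the seven conditions of the region, for real numbers. -/
structure RegH (n P Q z : ℝ) : Prop where
  hn : 99 ≤ n
  h1 : 0 < P
  h2 : 0 < Q
  h3 : Q < 2 * P / n
  h4 : 2 + 4 / n * (P - n) < Q
  h5 : z < 1
  h6 : 1 - z < 2 / n
  h7 : 2 * P - n * Q < 4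

variable {n P Q z : ℝ}

theorem RegH.facts (h : RegH n P Q z) :
    0 < n ∧ P < n ∧ Q < 2 ∧ 1 / 2 < z ∧ 0 < 2 * P - n * Q := by
  obtain ⟨hn, h1, h2, h3, h4, h5, h6, h7⟩ := h
  have hn0 : 0 < n := by linarith
  have h3' : n * Q < 2 * P := by
    rw [lt_div_iff₀ hn0] at h3
    linarith
  have h4' : 2 * n + 4 * (P - n) < n * Q := by
    have e : (2 + 4 / n * (P - n)) * n = 2 * n + 4 * (P - n) := by
      field_simp
    have := mul_lt_mul_of_pos_right h4 hn0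
    rw [e] at this
    linarith
  have hP : P < n := by linarith
  have hQ : Q < 2 := by nlinarith
  have hz : 1 / 2 < z := by
    have : 2 / n ≤ 2 / 99 := div_le_div_of_nonneg_left (by norm_num) (by norm_num) hn
    linarith
  exact ⟨hn0, hP, hQ, hz, by linarith⟩

/-- `w = 1/z ∈ (1,2)`. -/
theorem RegH.winv (h : RegH n P Q z) : 1 < z⁻¹ ∧ z⁻¹ < 2 := by
  obtain ⟨-, -, -, hz, -⟩ := h.facts
  have hz0 : 0 < z := by linarith
  constructor
  · exact (one_lt_inv₀ hz0).2 h.h5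
  · rw [inv_lt_comm₀ hz0 (by norm_num)]
    linarith

theorem RegH.t1 (h : RegH n P Q z) : -(2 * n) * P ≤ P * (2 - Q) := by
  obtain ⟨hn0, hP, hQ, hz, hg⟩ := h.facts
  have h1 := h.h1
  have a1 : 0 < P * (2 - Q) := mul_pos h1 (by linarith)
  have a2 : 0 < n * P := mul_pos hn0 h1
  linarith

theorem RegH.t2 (h : RegH n P Q z) : -(2 * n) * Q ≤ (2 * P - n * Q) / z := by
  obtain ⟨hn0, hP, hQ, hz, hg⟩ := h.facts
  have a1 : 0 ≤ (2 * P - n * Q) / z := div_nonneg hg.le (by linarith)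
  have a2 : 0 < n * Q := mul_pos hn0 h.h2
  linarith

theorem RegH.t3 (h : RegH n P Q z) :
    -(2 * n) * (2 * P / n - Q) ≤ 2 * (P * (2 - Q)) / n - (2 * P - n * Q) / z := by
  obtain ⟨hn0, hP, hQ, hz, hg⟩ := h.facts
  obtain ⟨hw1, hw2⟩ := h.winv
  have e1 : -(2 * n) * (2 * P / n - Q) = -2 * (2 * P - n * Q) := by
    field_simp
  have a1 : 0 ≤ 2 * (P * (2 - Q)) / n :=
    div_nonneg (by have := mul_pos h.h1 (show 0 < 2 - Q by linarith); linarith) hn0.le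
  have a2 : (2 * P - n * Q) / z ≤ 2 * (2 * P - n * Q) := by
    rw [div_eq_mul_inv]
    nlinarith
  rw [e1]
  linarith

theorem RegH.t4 (h : RegH n P Q z) :
    -(2 * n) * (Q - (2 + 4 / n * (P - n))) ≤ (2 * P - n * Q) / z - 4 / n * (P * (2 - Q)) := by
  obtain ⟨hn0, hP, hQ, hz, hg⟩ := h.facts
  obtain ⟨hw1, hw2⟩ := h.winv
  have h4 := h.h4
  have h1 := h.h1
  have hn := h.hn
  rw [div_eq_mul_inv (2 * P - n * Q) z]
  have hs : 4 / n * n = 4 := by field_simp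
  have hs0 : 0 < 4 / n := by positivity
  generalize z⁻¹ = w at hw1 hw2 ⊢
  generalize 4 / n = s at hs hs0 h4 ⊢
  have key : (2 * P - n * Q) * w - s * (P * (2 - Q)) + 2 * n * (Q - (2 + s * (P - n)))
      = (n - P) * (2 * w - s ^ 2 * P) + (Q - (2 + s * (P - n))) * (s * P + n * (2 - w)) := by
    linear_combination (w * (n - P)) * hs
  have hs1 : s ≤ 1 := by nlinarith
  have b1 : s ^ 2 * P ≤ 2 := by
    have c1 : s * P ≤ 4 := by nlinarith
    nlinarith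
  have b2 : 0 ≤ (n - P) * (2 * w - s ^ 2 * P) :=
    mul_nonneg (by linarith) (by linarith)
  have b3 : 0 ≤ (Q - (2 + s * (P - n))) * (s * P + n * (2 - w)) := by
    apply mul_nonneg (by linarith)
    have c1 : 0 < s * P := mul_pos hs0 h1
    have c2 : 0 < n * (2 - w) := mul_pos hn0 (by linarith)
    linarith
  linarith

theorem RegH.t5 (h : RegH n P Q z) :
    -(2 * n) * (1 - z) ≤ -(2 * n * (1 - z) - 2 * z * Q) := by
  obtain ⟨hn0, hP, hQ, hz, hg⟩ := h.facts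
  have a1 : 0 < z * Q := mul_pos (by linarith) h.h2
  linarith

theorem RegH.t6 (h : RegH n P Q z) :
    -(2 * n) * (2 / n - (1 - z)) ≤ 2 * n * (1 - z) - 2 * z * Q := by
  obtain ⟨hn0, hP, hQ, hz, hg⟩ := h.facts
  have e1 : -(2 * n) * (2 / n - (1 - z)) = -4 + 2 * n * (1 - z) := by
    field_simp
    ring
  have a1 : z * Q ≤ 2 := by
    have h5 := h.h5
    have h2 := h.h2
    nlinarith
  rw [e1]
  linarith

theorem RegH.t7 (h : RegH n P Q z) :
    -(2 * n) * (4 - (2 * P - n * Q)) ≤ -(2 * (P * (2 - Q)) - n * ((2 * P - n * Q) / z)) := by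
  obtain ⟨hn0, hP, hQ, hz, hg⟩ := h.facts
  obtain ⟨hw1, hw2⟩ := h.winv
  have h7 := h.h7
  have h1 := h.h1
  have h2 := h.h2
  rw [div_eq_mul_inv (2 * P - n * Q) z]
  generalize z⁻¹ = w at hw1 hw2 ⊢
  have key : -(2 * (P * (2 - Q)) - n * ((2 * P - n * Q) * w)) + 2 * n * (4 - (2 * P - n * Q))
      = (4 * n * w - 2 * (P * (2 - Q))) + n * (2 - w) * (4 - (2 * P - n * Q)) := by
    ring
  have b1 : P * (2 - Q) ≤ n * 2 :=
    mul_le_mul hP.le (by linarith) (by linarith) hn0.le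
  have b2 : 4 * n ≤ 4 * n * w := by nlinarith
  have b3 : 0 ≤ n * (2 - w) * (4 - (2 * P - n * Q)) :=
    mul_nonneg (mul_nonneg hn0.le (by linarith)) (by linarith)
  linarith

end Claimed.Agent.R324
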