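/-
Row 324, module B, file Trap: the region bReg is forward invariant.

PROOF of `trap`: apply `barrier_pos` with ι = Fin 7, K = 2(q-1), a, and (P s, Q s) = γ s, z s = bz q (γ s), n = q-1:
     g 0 = P,  g 1 = Q,  g 2 = 2P/n - Q,  g 3 = Q - (2 + 4/n (P-n)),  g 4 = 1 - z,  g 5 = 2/n - (1-z),  g 6 = 4 - (2P - nQ).
  (∀ j, 0 < g j s) ⟺ γ s ∈ bReg q  (unfold bReg bTri; `Fin.forall_fin_succ`/`fin_cases`; it may be easier to prove both directions as a separate lemma `mem_bReg_iff`).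
  h0: ha.
  hd: if γ t ∈ bReg q then γ t ∈ bTriC q (RegAlg), so γ' t = bX q (γ t); the components have derivatives X1 = P(2-Q), X2 = (2P-nQ)/z (`hasFDerivAt_fst.comp_hasDerivAt`, ...), z∘γ has the derivative
      2n(1-z) - 2zQ by `hasDerivAt_bz_comp` (γ t ∈ bU by `bReg_subset_bU`); the derivatives of g 0..g 6 are the right hand sides of `RegH.t1 .. t7`; `RegH n P Q z` is the membership γ t ∈ bReg q plus 99 ≤ n.
  hc: a < t and γ s ∈ bReg q ⊆ bTriC q for s ∈ [a,t).  bTriC is closed, γ is continuous, t ∈ closure (Ico a t) (`closure_Ico`), so γ t ∈ bTriC q ⊆ bU q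
      (`IsClosed.closure_subset_iff`, `ContinuousOn.image_closure`/`map_mem_closure`, or `IsClosed.mem_of_tendsto` along 𝓝[<] t).  On the open set bU, bz is continuous (`contDiffOn_bz`, `ContDiffOn.continuousOn`, `ContinuousOn.continuousAt` with `isOpen_bU.mem_nhds`), so every g i is continuous at t.
-/
import Claimed.Agent.R324.Bohm.RegAlg
import Claimed.Agent.R324.Bohm.TrapIneq
import Claimed.Agent.R324.Bohm.Barrier

set_option autoImplicit false

namespace Claimed.Agent.R324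

open Set

/-- the seven barrier functions. -/
noncomputable def trapG (q : ℝ) (γ : ℝ → ℝ × ℝ) : Fin 7 → ℝ → ℝ :=
  ![fun s => (γ s).1, fun s => (γ s).2, fun s => 2 * (γ s).1 / (q - 1) - (γ s).2,
    fun s => (γ s).2 - (2 + 4 / (q - 1) * ((γ s).1 - (q - 1))),
    fun s => 1 - bz q (γ s), fun s => 2 / (q - 1) - (1 - bz q (γ s)),
    fun s => 4 - (2 * (γ s).1 - (q - 1) * (γ s).2)]

/-- their derivatives along the field. -/
noncomputable def trapG' (q : ℝ) (γ : ℝ → ℝ × ℝ) : Fin 7 → ℝ → ℝ :=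
  ![fun s => (γ s).1 * (2 - (γ s).2),
    fun s => (2 * (γ s).1 - (q - 1) * (γ s).2) / bz q (γ s),
    fun s => 2 * ((γ s).1 * (2 - (γ s).2)) / (q - 1)
      - (2 * (γ s).1 - (q - 1) * (γ s).2) / bz q (γ s),
    fun s => (2 * (γ s).1 - (q - 1) * (γ s).2) / bz q (γ s)
      - 4 / (q - 1) * ((γ s).1 * (2 - (γ s).2)),
    fun s => -(2 * (q - 1) * (1 - bz q (γ s)) - 2 * bz q (γ s) * (γ s).2),
    fun s => 2 * (q - 1) * (1 - bz q (γ s)) - 2 * bz q (γ s) * (γ s).2,
    fun s => -(2 * ((γ s).1 * (2 - (γ s).2))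
      - (q - 1) * ((2 * (γ s).1 - (q - 1) * (γ s).2) / bz q (γ s)))]

theorem mem_bReg_iff_trapG (q : ℝ) (γ : ℝ → ℝ × ℝ) (s : ℝ) :
    (∀ j, 0 < trapG q γ j s) ↔ γ s ∈ bReg q := by
  constructor
  · intro h
    have h0 : 0 < (γ s).1 := h 0
    have h1 : 0 < (γ s).2 := h 1
    have h2 : 0 < 2 * (γ s).1 / (q - 1) - (γ s).2 := h 2
    have h3 : 0 < (γ s).2 - (2 + 4 / (q - 1) * ((γ s).1 - (q - 1))) := h 3
    have h4 : 0 < 1 - bz q (γ s) := h 4
    have h5 : 0 < 2 / (q - 1) - (1 - bz q (γ s)) := h 5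
    have h6 : 0 < 4 - (2 * (γ s).1 - (q - 1) * (γ s).2) := h 6
    exact ⟨⟨h0, h1, by linarith, by linarith⟩, by linarith, by linarith, by linarith⟩
  · rintro ⟨⟨h0, h1, h2, h3⟩, h4, h5, h6⟩ j
    fin_cases j
    · exact h0
    · exact h1
    · show 0 < 2 * (γ s).1 / (q - 1) - (γ s).2
      linarith
    · show 0 < (γ s).2 - (2 + 4 / (q - 1) * ((γ s).1 - (q - 1)))
      linarith
    · show 0 < 1 - bz q (γ s)
      linarith
    · show 0 < 2 / (q - 1) - (1 - bz q (γ s))
      linarith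
    · show 0 < 4 - (2 * (γ s).1 - (q - 1) * (γ s).2)
      linarith

theorem regH_of_mem_bReg {q : ℝ} (hq : 100 ≤ q) {p : ℝ × ℝ} (hp : p ∈ bReg q) :
    RegH (q - 1) p.1 p.2 (bz q p) :=
  ⟨by linarith, hp.1.1, hp.1.2.1, hp.1.2.2.1, hp.1.2.2.2, hp.2.1, hp.2.2.1, hp.2.2.2⟩

theorem trap {q : ℝ} (hq : 100 ≤ q) {γ γ' : ℝ → ℝ × ℝ} {a : ℝ} (hγ : ∀ σ, HasDerivAt γ (γ' σ) σ)
    (hX : ∀ σ, γ σ ∈ bTriC q → γ' σ = bX q (γ σ)) (ha : γ a ∈ bReg q) :
    ∀ σ, a ≤ σ → γ σ ∈ bReg q := by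
  have hq1 : 1 < q := by linarith
  have hcγ : Continuous γ := continuous_iff_continuousAt.2 fun σ => (hγ σ).continuousAt
  have key := barrier_pos (ι := Fin 7) (g := trapG q γ) (g' := trapG' q γ) (a := a)
    (K := 2 * (q - 1)) ((mem_bReg_iff_trapG q γ a).2 ha) ?_ ?_
  · exact fun σ hσ => (mem_bReg_iff_trapG q γ σ).1 (key σ hσ)
  · intro t hat hs i
    have hmem : γ t ∈ bTriC q := by
      have h1 : t ∈ closure (Ico a t) := by
        rw [closure_Ico hat.ne]
        exact ⟨hat.le, le_rfl⟩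
      have h2 : γ t ∈ closure (bTriC q) := map_mem_closure hcγ h1 fun s hs' =>
        bTri_subset_bTriC q (bReg_subset_bTri q ((mem_bReg_iff_trapG q γ s).1 (hs s hs')))
      rwa [(isClosed_bTriC q).closure_eq] at h2
    have hU : γ t ∈ bU q := bTriC_subset_bU hq1 hmem
    have hc1 : ContinuousAt (fun s => (γ s).1) t := (continuous_fst.comp hcγ).continuousAt
    have hc2 : ContinuousAt (fun s => (γ s).2) t := (continuous_snd.comp hcγ).continuousAt
    have hcz : ContinuousAt (fun s => bz q (γ s)) t :=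
      ContinuousAt.comp (g := bz q)
        ((contDiffOn_bz q).continuousOn.continuousAt ((isOpen_bU q).mem_nhds hU))
        hcγ.continuousAt
    fin_cases i
    · exact hc1
    · exact hc2
    · exact ((hc1.const_mul 2).div_const (q - 1)).sub hc2
    · exact hc2.sub (continuousAt_const.add
        ((hc1.sub continuousAt_const).const_mul (4 / (q - 1))))
    · exact continuousAt_const.sub hcz
    · exact continuousAt_const.sub (continuousAt_const.sub hcz)
    · exact continuousAt_const.sub ((hc1.const_mul 2).sub (hc2.const_mul (q - 1)))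
  · intro t _ hpos i
    have hmem : γ t ∈ bReg q := (mem_bReg_iff_trapG q γ t).1 hpos
    have hR := regH_of_mem_bReg hq hmem
    have hd : HasDerivAt γ (bX q (γ t)) t := by
      rw [← hX t (bTri_subset_bTriC q (bReg_subset_bTri q hmem))]
      exact hγ t
    have hd1 : HasDerivAt (fun s => (γ s).1) ((γ t).1 * (2 - (γ t).2)) t :=
      (hasFDerivAt_fst (𝕜 := ℝ) (p := γ t)).comp_hasDerivAt t hd
    have hd2 : HasDerivAt (fun s => (γ s).2)
        ((2 * (γ t).1 - (q - 1) * (γ t).2) / bz q (γ t)) t :=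
      (hasFDerivAt_snd (𝕜 := ℝ) (p := γ t)).comp_hasDerivAt t hd
    have hdz := hasDerivAt_bz_comp (bReg_subset_bU hq1 hmem) hd
    fin_cases i
    · exact ⟨hd1, hR.t1⟩
    · exact ⟨hd2, hR.t2⟩
    · exact ⟨((hd1.const_mul 2).div_const (q - 1)).sub hd2, hR.t3⟩
    · refine ⟨?_, hR.t4⟩
      have h := hd2.sub (((hd1.sub_const (q - 1)).const_mul (4 / (q - 1))).const_add 2)
      exact h
    · exact ⟨hdz.const_sub 1, hR.t5⟩
    · refine ⟨?_, hR.t6⟩
      have h := (hdz.const_sub 1).const_sub (2 / (q - 1))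
      rw [neg_neg] at h
      exact h
    · refine ⟨?_, hR.t7⟩
      have h := ((hd1.const_mul 2).sub (hd2.const_mul (q - 1))).const_sub 4
      exact h

end Claimed.Agent.R324
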