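/-
Row 324, module B, file Global: the complete trajectory which continues the tip solution.

PROOF of `exists_traj`.  (open Claimed.Agent.R213.Flow: `flow`, `hasDerivAt_flow`, `flow_zero`, `contDiff_flow`, `eqOn_flow_sub`; all for a smooth compactly supported field f.)
 * δ' from `IsTip.exists_reg`;  f, V from `exists_bField`.   Ξ0 := δ'/2, σ0 := log Ξ0 / 2, σ1 := log δ' / 2  (σ0 < σ1; exp (2σ) < δ' ⟺ σ < σ1).
 * β s := bPQ w (exp (2 s)).  For s < σ1:  β s ∈ bReg q ⊆ bTriC q ⊆ V, and HasDerivAt β (bX q (β s)) s by `IsTip.hasDerivAt_traj` (exp (2s) < δ' ≤ δ), and bX q (β s) = f (β s).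
 * γ σ := flow f (σ - σ0) (β σ0).   Smooth: `contDiff_flow` composed with σ ↦ (σ - σ0, β σ0).   HasDerivAt γ (f (γ σ)) σ  (`hasDerivAt_flow` + `HasDerivAt.comp_sub_const`/`scomp`).
 * for s < σ1: γ s = β s:  `eqOn_flow_sub hf hc (a := min s σ0 - 1) (b := σ1) (t₀ := σ0)` applied to α = β.     So γ s ∈ bReg q for s < σ1.
 * for s ≥ σ0: γ s ∈ bReg q by `trap hq` (γ' := fun σ => f (γ σ);  f = bX on bTriC ⊆ V;  γ σ0 = β σ0 ∈ bReg).
 * hence γ σ ∈ bReg q for all σ and f (γ σ) = bX q (γ σ): `IsTraj`.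
 * for Ξ ∈ (0,δ'):  s = log Ξ / 2 < σ1 and exp (2 s) = Ξ (`Real.exp_log`), so γ (log Ξ/2) = bPQ w Ξ.
-/
import Claimed.Agent.R324.Bohm.Trap
import Claimed.Agent.R324.Bohm.TipReg
import Claimed.Agent.R324.Bohm.TipTraj
import Claimed.Agent.R213.Flow.Variational

set_option autoImplicit false

namespace Claimed.Agent.R324

open Set
open scoped ContDiff

theorem exists_traj {q : ℝ} (hq : 100 ≤ q) {δ : ℝ} {w z : ℝ → ℝ} (h : IsTip q δ w z) :
    ∃ γ : ℝ → ℝ × ℝ, IsTraj q γ ∧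
      ∃ δ' ∈ Ioc 0 δ, ∀ Ξ ∈ Ioo 0 δ', γ (Real.log Ξ / 2) = bPQ w Ξ := by
  have hq1 : 1 < q := by linarith
  obtain ⟨δ', hδ', hreg⟩ := h.exists_reg hq1
  obtain ⟨f, hf, hc, V, -, hTV, -, hfV⟩ := exists_bField hq1
  have hδ0 : 0 < δ' := hδ'.1
  set σ0 : ℝ := Real.log (δ' / 2) / 2 with hσ0
  set σ1 : ℝ := Real.log δ' / 2 with hσ1
  have h01 : σ0 < σ1 := by
    have : Real.log (δ' / 2) < Real.log δ' := Real.log_lt_log (by positivity) (by linarith)
    rw [hσ0, hσ1]; linarith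
  have hexp : ∀ s, s < σ1 → Real.exp (2 * s) < δ' := by
    intro s hs
    have h2 : 2 * s < Real.log δ' := by rw [hσ1] at hs; linarith
    calc Real.exp (2 * s) < Real.exp (Real.log δ') := Real.exp_lt_exp.2 h2
      _ = δ' := Real.exp_log hδ0
  set β : ℝ → ℝ × ℝ := fun s => bPQ w (Real.exp (2 * s)) with hβ
  have hβreg : ∀ s, s < σ1 → β s ∈ bReg q := fun s hs =>
    hreg _ ⟨Real.exp_pos _, hexp s hs⟩
  have hRV : ∀ p, p ∈ bReg q → f p = bX q p := fun p hp =>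
    hfV (hTV (bTri_subset_bTriC q (bReg_subset_bTri q hp)))
  have hβd : ∀ s, s < σ1 → HasDerivAt β (f (β s)) s := by
    intro s hs
    rw [hRV _ (hβreg s hs)]
    exact h.hasDerivAt_traj hq1 ((hexp s hs).trans_le hδ'.2)
  set γ : ℝ → ℝ × ℝ := fun σ => Claimed.Agent.R213.Flow.flow f (σ - σ0) (β σ0) with hγ
  have hγsm : ContDiff ℝ ∞ γ := by
    have h1 : ContDiff ℝ ∞ (fun σ : ℝ => ((σ - σ0, β σ0) : ℝ × (ℝ × ℝ))) :=
      (contDiff_id.sub contDiff_const).prodMk contDiff_const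
    exact (Claimed.Agent.R213.Flow.contDiff_flow hf hc).comp h1
  have hγd : ∀ σ, HasDerivAt γ (f (γ σ)) σ := by
    intro σ
    exact (Claimed.Agent.R213.Flow.hasDerivAt_flow hf hc (β σ0) (σ - σ0)).comp_sub_const σ σ0
  have hγβ : ∀ s, s < σ1 → γ s = β s := by
    intro s hs
    have := Claimed.Agent.R213.Flow.eqOn_flow_sub hf hc (a := min s σ0 - 1) (b := σ1) (t₀ := σ0)
      ⟨by linarith [min_le_right s σ0], h01⟩ (α := β) (fun t ht => hβd t ht.2)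
      (x := s) ⟨by linarith [min_le_left s σ0], hs⟩
    exact this.symm
  have hγ0 : γ σ0 ∈ bReg q := by
    rw [hγβ σ0 h01]; exact hβreg σ0 h01
  have htrap : ∀ σ, σ0 ≤ σ → γ σ ∈ bReg q :=
    trap hq (γ' := fun σ => f (γ σ)) hγd (fun σ hσ => hfV (hTV hσ)) hγ0
  have hmem : ∀ σ, γ σ ∈ bReg q := by
    intro σ
    rcases le_or_gt σ0 σ with hs | hs
    · exact htrap σ hs
    · rw [hγβ σ (hs.trans h01)]; exact hβreg σ (hs.trans h01)
  refine ⟨γ, ⟨hγsm, fun σ => ?_, hmem⟩, δ', hδ', ?_⟩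
  · rw [← hRV _ (hmem σ)]; exact hγd σ
  · intro Ξ hΞ
    have hs : Real.log Ξ / 2 < σ1 := by
      have : Real.log Ξ < Real.log δ' := Real.log_lt_log hΞ.1 hΞ.2
      rw [hσ1]; linarith
    rw [hγβ _ hs]
    have : Real.exp (2 * (Real.log Ξ / 2)) = Ξ := by
      rw [mul_div_cancel₀ _ (two_ne_zero)]; exact Real.exp_log hΞ.1
    simp only [hβ, this]

end Claimed.Agent.R324
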