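/-
Row 324, module B, file GlueFn (generic, pure Mathlib): gluing of a smooth germ at 0 with a smooth function on (0,∞).

PROOF of `exists_glue`.  χ : ℝ → ℝ smooth with χ = 0 on (-∞, -δ/2], χ = 1 on [-δ/4, ∞):   χ x := Real.smoothTransition ((x + δ/2) / (δ/4))
   (`Real.smoothTransition.contDiff`, `.zero_of_nonpos`, `.one_of_one_le`).
   F x := χ x * (if x < δ then f₁ x else f₂ x).    ContDiff ⟸ ContDiffAt at every x (`contDiff_iff_contDiffAt`), via `ContDiffAt.congr_of_eventuallyEq`: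
     x ∈ (-δ, δ):  F = χ f₁ on the open set Ioo (-δ) δ;  f₁ is ContDiffAt x (`ContDiffOn.contDiffAt` with `Ioo_mem_nhds`).
     x > 0:        F = χ f₂ on the open set Ioi 0 (for 0 < y < δ use h);  f₂ ContDiffAt x.
     x ≤ -δ:       F = 0 on the open set Iio (-δ/2).
   F 0 = χ 0 f₁ 0 = f₁ 0;  for x > 0: χ x = 1 and the bracket is f₂ x (by h if x < δ).
-/
import Mathlib

set_option autoImplicit false

namespace Claimed.Agent.R324

open Set
open scoped ContDiff

theorem exists_glue {δ : ℝ} (hδ : 0 < δ) {f₁ f₂ : ℝ → ℝ} (h₁ : ContDiffOn ℝ ∞ f₁ (Ioo (-δ) δ))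
    (h₂ : ContDiffOn ℝ ∞ f₂ (Ioi 0)) (h : ∀ x ∈ Ioo 0 δ, f₁ x = f₂ x) :
    ∃ F : ℝ → ℝ, ContDiff ℝ ∞ F ∧ F 0 = f₁ 0 ∧ ∀ x, 0 < x → F x = f₂ x := by
  classical
  set χ : ℝ → ℝ := fun x => Real.smoothTransition ((x + δ / 2) / (δ / 4)) with hχ
  have hχs : ContDiff ℝ ∞ χ := by
    refine Real.smoothTransition.contDiff.comp ?_
    exact (contDiff_id.add contDiff_const).div_const _
  have hχ0 : ∀ x, x ≤ -δ / 2 → χ x = 0 := by
    intro x hx
    refine Real.smoothTransition.zero_of_nonpos ?_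
    exact div_nonpos_of_nonpos_of_nonneg (by linarith) (by positivity)
  have hχ1 : ∀ x, -δ / 4 ≤ x → χ x = 1 := by
    intro x hx
    refine Real.smoothTransition.one_of_one_le ?_
    rw [le_div_iff₀ (by positivity)]
    linarith
  refine ⟨fun x => χ x * (if x < δ then f₁ x else f₂ x), ?_, ?_, ?_⟩
  · rw [contDiff_iff_contDiffAt]
    intro x
    rcases lt_or_ge 0 x with hx | hx
    · -- x > 0
      have hf : ContDiffAt ℝ ∞ (fun y => χ y * f₂ y) x :=
        hχs.contDiffAt.mul (h₂.contDiffAt (Ioi_mem_nhds hx))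
      refine hf.congr_of_eventuallyEq ?_
      filter_upwards [Ioi_mem_nhds hx] with y hy
      have hy' : 0 < y := hy
      by_cases hyδ : y < δ
      · simp only [if_pos hyδ, h y ⟨hy', hyδ⟩]
      · simp only [if_neg hyδ]
    · rcases lt_or_ge (-δ) x with hx2 | hx2
      · have hmem : Ioo (-δ) δ ∈ nhds x := Ioo_mem_nhds hx2 (by linarith)
        have hf : ContDiffAt ℝ ∞ (fun y => χ y * f₁ y) x :=
          hχs.contDiffAt.mul (h₁.contDiffAt hmem)
        refine hf.congr_of_eventuallyEq ?_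
        filter_upwards [hmem] with y hy
        simp only [if_pos hy.2]
      · have hf : ContDiffAt ℝ ∞ (fun _ : ℝ => (0 : ℝ)) x := contDiffAt_const
        refine hf.congr_of_eventuallyEq ?_
        have hmem : Iio (-δ / 2) ∈ nhds x := Iio_mem_nhds (by linarith)
        filter_upwards [hmem] with y hy
        have hy' : y < -δ / 2 := hy
        simp only [hχ0 y hy'.le, zero_mul]
  · simp only [hχ1 0 (by linarith), one_mul, if_pos hδ]
  · intro x hx
    simp only [hχ1 x (by linarith), one_mul]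
    by_cases hxδ : x < δ
    · rw [if_pos hxδ, h x ⟨hx, hxδ⟩]
    · rw [if_neg hxδ]

end Claimed.Agent.R324
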