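/-
Row 324, module B, file PowSerA (generic, pure Mathlib): real power series `ps a x = ∑ a_n x^n`, algebra.

`AbsConv a r` : the series converges absolutely for `|x| < r`.
PROOFS.
* `absConv_of_geo`: `|a_n x^n| ≤ (M|x|)^n`, geometric series (`summable_geometric_of_lt_one`, `Summable.of_nonneg_of_le`).
* `ps_zero`: `tsum_eq_single 0` (`0^n = 0` for `n ≠ 0`).
* `ps_add, ps_smul, ps_sub`: `Summable.tsum_add`, `tsum_mul_left` (summability from `AbsConv` via `Summable.of_abs`/`Summable.of_norm`).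
* `AbsConv.conv`, `ps_conv`: Cauchy product. `a_i x^i * (b_j x^j) = a_i b_j x^(i+j)`;
   `summable_norm_sum_mul_antidiagonal_of_summable_norm`, `tsum_mul_tsum_eq_tsum_sum_antidiagonal_of_summable_norm`;
   inside the antidiagonal sum rewrite `x^i * x^j = x^n` (`Finset.mem_antidiagonal`, `pow_add`) and pull `x^n` out (`Finset.sum_mul`).
* `AbsConv.shift`, `ps_shift`: `x * ∑ a_n x^n = ∑ a_n x^(n+1)`; `tsum_eq_zero_add` for the shifted series (its 0-th term is 0); `summable_nat_add_iff 1`.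
-/
import Mathlib

set_option autoImplicit false

namespace Claimed.Agent.R324

open Finset

/-- sum of a real power series. -/
noncomputable def ps (a : ℕ → ℝ) (x : ℝ) : ℝ := ∑' n, a n * x ^ n

/-- absolute convergence on `(-r, r)`. -/
def AbsConv (a : ℕ → ℝ) (r : ℝ) : Prop := ∀ x : ℝ, |x| < r → Summable fun n => |a n * x ^ n|

/-- Cauchy product of coefficient sequences. -/
def cv (a b : ℕ → ℝ) (n : ℕ) : ℝ := ∑ ij ∈ antidiagonal n, a ij.1 * b ij.2

/-- coefficients of `x * ∑ a_n x^n`. -/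
def sh (a : ℕ → ℝ) (n : ℕ) : ℝ := if n = 0 then 0 else a (n - 1)

theorem absConv_of_geo {a : ℕ → ℝ} {M : ℝ} (hM : 0 < M) (ha : ∀ n, |a n| ≤ M ^ n) :
    AbsConv a (1 / M) := by
  intro x hx
  have h1 : M * |x| < 1 := by
    rw [lt_div_iff₀ hM] at hx
    linarith
  have h0 : 0 ≤ M * |x| := mul_nonneg hM.le (abs_nonneg x)
  refine Summable.of_nonneg_of_le (fun n => abs_nonneg _) (fun n => ?_)
    (summable_geometric_of_lt_one h0 h1)
  rw [abs_mul, abs_pow, mul_pow]
  exact mul_le_mul_of_nonneg_right (ha n) (pow_nonneg (abs_nonneg x) n)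

theorem AbsConv.summable {a : ℕ → ℝ} {r x : ℝ} (ha : AbsConv a r) (hx : |x| < r) :
    Summable fun n => a n * x ^ n := (ha x hx).of_abs

theorem ps_zero (a : ℕ → ℝ) : ps a 0 = a 0 := by
  unfold ps
  rw [tsum_eq_single 0 (fun n hn => by rw [zero_pow hn, mul_zero])]
  simp

theorem AbsConv.add {a b : ℕ → ℝ} {r : ℝ} (ha : AbsConv a r) (hb : AbsConv b r) :
    AbsConv (fun n => a n + b n) r := by
  intro x hx
  refine Summable.of_nonneg_of_le (fun n => abs_nonneg _) (fun n => ?_) ((ha x hx).add (hb x hx))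
  rw [add_mul]
  exact abs_add_le _ _

theorem AbsConv.smul {a : ℕ → ℝ} {r : ℝ} (c : ℝ) (ha : AbsConv a r) :
    AbsConv (fun n => c * a n) r := by
  intro x hx
  have h := (ha x hx).mul_left |c|
  refine h.congr fun n => ?_
  rw [mul_assoc, abs_mul c]

theorem ps_add {a b : ℕ → ℝ} {r x : ℝ} (ha : AbsConv a r) (hb : AbsConv b r) (hx : |x| < r) :
    ps (fun n => a n + b n) x = ps a x + ps b x := by
  unfold ps
  rw [← (ha.summable hx).tsum_add (hb.summable hx)]
  refine tsum_congr fun n => ?_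
  rw [add_mul]

theorem ps_smul {a : ℕ → ℝ} (c x : ℝ) : ps (fun n => c * a n) x = c * ps a x := by
  unfold ps
  rw [← tsum_mul_left]
  refine tsum_congr fun n => ?_
  rw [mul_assoc]

theorem cv_mul_pow (a b : ℕ → ℝ) (x : ℝ) (n : ℕ) :
    cv a b n * x ^ n = ∑ ij ∈ antidiagonal n, (a ij.1 * x ^ ij.1) * (b ij.2 * x ^ ij.2) := by
  unfold cv
  rw [Finset.sum_mul]
  refine Finset.sum_congr rfl fun ij hij => ?_
  rw [← Finset.HasAntidiagonal.mem_antidiagonal.1 hij, pow_add]
  ring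

theorem AbsConv.conv {a b : ℕ → ℝ} {r : ℝ} (ha : AbsConv a r) (hb : AbsConv b r) :
    AbsConv (cv a b) r := by
  intro x hx
  have h := summable_norm_sum_mul_antidiagonal_of_summable_norm
    (f := fun n => a n * x ^ n) (g := fun n => b n * x ^ n) (ha x hx) (hb x hx)
  refine h.congr fun n => ?_
  rw [cv_mul_pow, Real.norm_eq_abs]

theorem ps_conv {a b : ℕ → ℝ} {r x : ℝ} (ha : AbsConv a r) (hb : AbsConv b r) (hx : |x| < r) :
    ps (cv a b) x = ps a x * ps b x := by
  unfold ps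
  rw [tsum_mul_tsum_eq_tsum_sum_antidiagonal_of_summable_norm
    (f := fun n => a n * x ^ n) (g := fun n => b n * x ^ n) (ha x hx) (hb x hx)]
  refine tsum_congr fun n => ?_
  rw [cv_mul_pow]

theorem sh_succ_mul_pow (a : ℕ → ℝ) (x : ℝ) (n : ℕ) :
    sh a (n + 1) * x ^ (n + 1) = x * (a n * x ^ n) := by
  unfold sh
  rw [if_neg (Nat.succ_ne_zero n), Nat.add_sub_cancel, pow_succ]
  ring

theorem AbsConv.shift {a : ℕ → ℝ} {r : ℝ} (ha : AbsConv a r) : AbsConv (sh a) r := by
  intro x hx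
  rw [← summable_nat_add_iff 1]
  have h := (ha x hx).mul_left |x|
  refine h.congr fun n => ?_
  rw [sh_succ_mul_pow, abs_mul x]

theorem ps_shift {a : ℕ → ℝ} {r x : ℝ} (ha : AbsConv a r) (hx : |x| < r) :
    ps (sh a) x = x * ps a x := by
  unfold ps
  rw [(ha.shift.summable hx).tsum_eq_zero_add, ← tsum_mul_left]
  have h0 : sh a 0 * x ^ 0 = 0 := by simp [sh]
  rw [h0, zero_add]
  refine tsum_congr fun n => ?_
  rw [sh_succ_mul_pow]

end Claimed.Agent.R324
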