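/-
Row 324, module B, file PowSerB (generic): real power series, derivative and smoothness.

PROOFS.
* `AbsConv.deriv`: let `|x| < r`, pick `ρ` with `|x| < ρ < r` (`exists_between`).  `|a_{n+1}| ρ^{n+1}` is summable, hence bounded by some `K`
   (`Summable.tendsto_atTop_zero` + bounded, or `le_hasSum`/`Summable.le_tsum`: each term `≤` the sum).   With `t = |x|/ρ < 1`:
   `|(n+1) a_{n+1} x^n| ≤ (K/ρ) (n+1) t^n`, and `∑ (n+1) t^n` converges (`summable_pow_mul_geometric_of_norm_lt_one 1`, or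
   `summable_geometric_of_lt_one` + `summable_nat_pow_mul_geometric...`).  If `ρ = 0` impossible since `0 ≤ |x| < ρ`.
* `hasDerivAt_ps`: `hasDerivAt_tsum_of_isPreconnected` on the open interval `Ioo (-ρ) ρ`, `|x| < ρ < r`, with
   `g n y = a n * y^n`, `g' n y = a n * (n * y^(n-1))`, bound `u n = |a n| * n * ρ^(n-1)` (summable: it is `AbsConv.deriv` at the point `ρ`,
   shifted by one: `summable_nat_add_iff 1`); then `∑' n, a n * (n * x^(n-1)) = ∑' n, (n+1) a_{n+1} x^n` by `tsum_eq_zero_add`.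
* `x_mul_deriv_ps`: `x * ((n+1) a_{n+1} x^n) = (n+1) a_{n+1} x^{n+1}`; use `ps_shift` for `fun n => (n+1) a_{n+1}` and
   `sh (fun n => (n+1) * a (n+1)) n = n * a n` (cases `n`).
* `contDiffOn_ps`: for `k : ℕ` by induction on `k` (for all `a`): `contDiffOn_succ_iff_deriv_of_isOpen isOpen_Ioo`;
   `deriv (ps a) = ps (a')` on the interval (`HasDerivAt.deriv`, `ContDiffOn.congr`); then `contDiffOn_infty`.
-/
import Claimed.Agent.R324.Bohm.PowSerA

set_option autoImplicit false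

namespace Claimed.Agent.R324

open Set
open scoped ContDiff

/-- coefficients of the derivative. -/
def dv (a : ℕ → ℝ) (n : ℕ) : ℝ := ((n : ℝ) + 1) * a (n + 1)

theorem AbsConv.deriv {a : ℕ → ℝ} {r : ℝ} (ha : AbsConv a r) : AbsConv (dv a) r := by
  intro x hx
  obtain ⟨ρ, hxρ, hρr⟩ := exists_between hx
  have hρ0 : 0 < ρ := lt_of_le_of_lt (abs_nonneg x) hxρ
  have hs : Summable fun n => |a n * ρ ^ n| := ha ρ (by rwa [abs_of_pos hρ0])
  set K := ∑' n, |a n * ρ ^ n| with hK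
  have hle : ∀ n, |a n * ρ ^ n| ≤ K := fun n => hs.le_tsum n (fun j _ => abs_nonneg _)
  set t := |x| / ρ with ht
  have ht0 : 0 ≤ t := by positivity
  have ht1 : t < 1 := by rw [ht, div_lt_one hρ0]; exact hxρ
  have hnt : ‖t‖ < 1 := by rwa [Real.norm_eq_abs, abs_of_nonneg ht0]
  have hg1 : Summable fun n : ℕ => (n : ℝ) ^ 1 * t ^ n := summable_pow_mul_geometric_of_norm_lt_one 1 hnt
  have hg2 : Summable fun n : ℕ => t ^ n := summable_geometric_of_lt_one ht0 ht1
  have hg : Summable fun n : ℕ => K / ρ * ((n : ℝ) ^ 1 * t ^ n + t ^ n) := (hg1.add hg2).mul_left _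
  refine Summable.of_nonneg_of_le (fun n => abs_nonneg _) (fun n => ?_) hg
  have h1 := hle (n + 1)
  have e : |dv a n * x ^ n| = |a (n + 1) * ρ ^ (n + 1)| / ρ * (((n : ℝ) + 1) * t ^ n) := by
    unfold dv
    rw [abs_mul, abs_mul, abs_mul, abs_pow, abs_pow, abs_of_pos hρ0,
      abs_of_nonneg (by positivity : (0 : ℝ) ≤ (n : ℝ) + 1), ht, div_pow]
    field_simp
    ring
  rw [e]
  have h2 : |a (n + 1) * ρ ^ (n + 1)| / ρ ≤ K / ρ := div_le_div_of_nonneg_right h1 hρ0.le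
  calc |a (n + 1) * ρ ^ (n + 1)| / ρ * (((n : ℝ) + 1) * t ^ n)
      ≤ K / ρ * (((n : ℝ) + 1) * t ^ n) := mul_le_mul_of_nonneg_right h2 (by positivity)
    _ = K / ρ * ((n : ℝ) ^ 1 * t ^ n + t ^ n) := by ring

theorem hasDerivAt_ps {a : ℕ → ℝ} {r x : ℝ} (ha : AbsConv a r) (hx : |x| < r) :
    HasDerivAt (ps a) (ps (dv a) x) x := by
  obtain ⟨ρ, hxρ, hρr⟩ := exists_between hx
  have hρ0 : 0 < ρ := lt_of_le_of_lt (abs_nonneg x) hxρ
  have hu : Summable fun n : ℕ => |a n| * n * ρ ^ (n - 1) := by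
    rw [← summable_nat_add_iff 1]
    have h := ha.deriv ρ (by rwa [abs_of_pos hρ0])
    refine h.congr fun n => ?_
    unfold dv
    rw [abs_mul, abs_mul, abs_pow, abs_of_pos hρ0,
      abs_of_nonneg (by positivity : (0 : ℝ) ≤ (n : ℝ) + 1)]
    simp only [Nat.add_sub_cancel]
    push_cast
    ring
  have hxmem : x ∈ Ioo (-ρ) ρ := abs_lt.1 hxρ
  have hbd : ∀ (n : ℕ) (y : ℝ), y ∈ Ioo (-ρ) ρ → ‖a n * ((n : ℝ) * y ^ (n - 1))‖ ≤ |a n| * n * ρ ^ (n - 1) := by
    intro n y hy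
    have hy' : |y| ≤ ρ := (abs_lt.2 hy).le
    rw [Real.norm_eq_abs, abs_mul, abs_mul, abs_pow,
      abs_of_nonneg (Nat.cast_nonneg n : (0 : ℝ) ≤ (n : ℝ)), mul_assoc]
    have := pow_le_pow_left₀ (abs_nonneg y) hy' (n - 1)
    gcongr
  have hmain := hasDerivAt_tsum_of_isPreconnected (g := fun n y => a n * y ^ n)
    (g' := fun n y => a n * ((n : ℝ) * y ^ (n - 1))) hu isOpen_Ioo isPreconnected_Ioo
    (fun n y _ => (hasDerivAt_pow n y).const_mul (a n)) hbd hxmem (ha.summable hx) hxmem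
  have hsum : Summable fun n : ℕ => a n * ((n : ℝ) * x ^ (n - 1)) :=
    Summable.of_norm_bounded hu (fun n => hbd n x hxmem)
  have e : ∑' n : ℕ, a n * ((n : ℝ) * x ^ (n - 1)) = ps (dv a) x := by
    rw [hsum.tsum_eq_zero_add]
    unfold ps dv
    simp only [Nat.cast_zero, zero_mul, mul_zero, zero_add, Nat.add_sub_cancel]
    refine tsum_congr fun n => ?_
    push_cast
    ring
  rw [e] at hmain
  exact hmain

theorem sh_dv (a : ℕ → ℝ) : sh (dv a) = fun n : ℕ => (n : ℝ) * a n := by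
  funext n
  cases n with
  | zero => simp [sh]
  | succ n => simp [sh, dv]

theorem AbsConv.nmul {a : ℕ → ℝ} {r : ℝ} (ha : AbsConv a r) : AbsConv (fun n => (n : ℝ) * a n) r := by
  have h := ha.deriv.shift
  rwa [sh_dv] at h

theorem x_mul_deriv_ps {a : ℕ → ℝ} {r x : ℝ} (ha : AbsConv a r) (hx : |x| < r) :
    x * ps (dv a) x = ps (fun n => (n : ℝ) * a n) x := by
  rw [← ps_shift ha.deriv hx, sh_dv]

theorem contDiffOn_ps {a : ℕ → ℝ} {r : ℝ} (ha : AbsConv a r) :
    ContDiffOn ℝ ∞ (ps a) (Ioo (-r) r) := by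
  rw [contDiffOn_infty]
  intro k
  induction k generalizing a with
  | zero =>
    rw [Nat.cast_zero, contDiffOn_zero]
    intro x hx
    exact (hasDerivAt_ps ha (abs_lt.2 hx)).continuousAt.continuousWithinAt
  | succ k ih =>
    have e : ((k + 1 : ℕ) : WithTop ℕ∞) = (k : WithTop ℕ∞) + 1 := by push_cast; rfl
    rw [e, contDiffOn_succ_iff_deriv_of_isOpen isOpen_Ioo]
    refine ⟨?_, ?_, ?_⟩
    · intro x hx
      exact (hasDerivAt_ps ha (abs_lt.2 hx)).differentiableAt.differentiableWithinAt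
    · intro h
      exact absurd h (by simp)
    · exact (ih ha.deriv).congr fun x hx => (hasDerivAt_ps ha (abs_lt.2 hx)).deriv

end Claimed.Agent.R324
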