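/-
Row 324, module B, file TipCoefA: the coefficient recursion of the power series solution at the tip (existence).

Unknown power series in Ξ:  U = e^{-w},  V = w',  Y = 1/z.   The equations (see TipODE)
     U' = -U V,      2 V + 2 Ξ V' = Y (U - (q-1) V),      Ξ Y' = (q-1) Y (1-Y) + 2 Ξ Y V
are equivalent to the coefficient identities `TipRec` (`cv` = Cauchy product, `dv` = derivative, `sh` = multiplication by Ξ).
SOLVED FORM (n ≥ 0), using u_0 = y_0 = 1:
     u_{n+1} = -(1/(n+1)) ∑_{i+j=n} u_i v_j,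
     y_{n+1} = ( -(q-1) ∑_{i=1}^{n} y_i y_{n+1-i} + 2 ∑_{i+j=n} y_i v_j ) / (n+q),
     v_n     = ( u_n + ∑_{i=1}^{n} y_i (u_{n-i} - (q-1) v_{n-i}) ) / (2n+q+1).
So (u_n, y_n, v_n) is a function of the triples of index < n (first u_n, y_n, then v_n).
PROOF of `exists_tipRec`: define `c : ℕ → ℝ × ℝ × ℝ` by strong recursion (`Nat.strongRec`, or a `def` by well-founded recursion with sums over
`Fin n`/`Finset.range n` attached (`Finset.attach`), or build the list of the first n triples by ordinary recursion) and check the three identities: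
split off the terms with i = 0 / j = 0 of the antidiagonal sums (`Finset.Nat.sum_antidiagonal_eq_sum_range_succ_mk`, `Finset.sum_range_succ`,
`Finset.sum_range_succ'`), `field_simp`, `ring`.  The denominators n+1, n+q, 2n+q+1 are positive because q > 1.
-/
import Claimed.Agent.R324.Bohm.PowSerB

set_option autoImplicit false

namespace Claimed.Agent.R324

/-- coefficient identities of the tip system. -/
structure TipRec (q : ℝ) (u v y : ℕ → ℝ) : Prop where
  u0 : u 0 = 1
  y0 : y 0 = 1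
  urec : ∀ n : ℕ, dv u n = -cv u v n
  vrec : ∀ n : ℕ, (2 * (n : ℝ) + 2) * v n = cv y (fun j => u j - (q - 1) * v j) n
  yrec : ∀ n : ℕ, (n : ℝ) * y n = (q - 1) * (y n - cv y y n) + 2 * sh (cv y v) n

/-- truncation of a sequence below `n`. -/
def tipTr (n : ℕ) (a : ℕ → ℝ) (m : ℕ) : ℝ := if m < n then a m else 0

theorem cv_congr_le {a a' b b' : ℕ → ℝ} {n : ℕ} (ha : ∀ i, i ≤ n → a i = a' i)
    (hb : ∀ i, i ≤ n → b i = b' i) : cv a b n = cv a' b' n := by
  unfold cv
  refine Finset.sum_congr rfl fun ij hij => ?_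
  have h := Finset.HasAntidiagonal.mem_antidiagonal.1 hij
  rw [ha ij.1 (by omega), hb ij.2 (by omega)]

theorem cv_tipTr_lt (a b : ℕ → ℝ) (n : ℕ) : cv (tipTr (n + 1) a) (tipTr (n + 1) b) n = cv a b n :=
  cv_congr_le (fun i hi => by simp [tipTr, Nat.lt_succ_of_le hi])
    (fun i hi => by simp [tipTr, Nat.lt_succ_of_le hi])

theorem cv_tipTr_succ (a b : ℕ → ℝ) (n : ℕ) :
    cv (tipTr (n + 1) a) (tipTr (n + 1) b) (n + 1) = cv a b (n + 1) - a 0 * b (n + 1) - a (n + 1) * b 0 := by
  unfold cv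
  rw [Finset.Nat.sum_antidiagonal_eq_sum_range_succ_mk, Finset.Nat.sum_antidiagonal_eq_sum_range_succ_mk,
    Finset.sum_range_succ, Finset.sum_range_succ', Finset.sum_range_succ _ (n + 1), Finset.sum_range_succ' _ n]
  have h1 : ∑ k ∈ Finset.range n, tipTr (n + 1) a (k + 1) * tipTr (n + 1) b (n + 1 - (k + 1)) =
      ∑ k ∈ Finset.range n, a (k + 1) * b (n + 1 - (k + 1)) := by
    refine Finset.sum_congr rfl fun k hk => ?_
    have hk' := Finset.mem_range.1 hk
    simp only [tipTr]
    rw [if_pos (by omega), if_pos (by omega)]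
  simp only [h1]
  simp [tipTr]
  ring

/-- the triple `(u_n, v_n, y_n)`, by strong recursion. -/
noncomputable def tipC (q : ℝ) : ℕ → ℝ × ℝ × ℝ
  | 0 => (1, 1 / (q + 1), 1)
  | (n + 1) =>
    let u : ℕ → ℝ := fun m => if _h : m < n + 1 then (tipC q m).1 else 0
    let v : ℕ → ℝ := fun m => if _h : m < n + 1 then (tipC q m).2.1 else 0
    let y : ℕ → ℝ := fun m => if _h : m < n + 1 then (tipC q m).2.2 else 0
    let u' : ℝ := -cv u v n / ((n : ℝ) + 1)
    let y' : ℝ := (-(q - 1) * cv y y (n + 1) + 2 * cv y v n) / ((n : ℝ) + q)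
    let v' : ℝ := (u' + cv y (fun j => u j - (q - 1) * v j) (n + 1) + y' * (u 0 - (q - 1) * v 0)) /
      (2 * (n : ℝ) + q + 3)
    (u', v', y')

theorem tipC_succ (q : ℝ) (n : ℕ) :
    tipC q (n + 1) =
      (-cv (tipTr (n + 1) fun m => (tipC q m).1) (tipTr (n + 1) fun m => (tipC q m).2.1) n / ((n : ℝ) + 1),
       ((-cv (tipTr (n + 1) fun m => (tipC q m).1) (tipTr (n + 1) fun m => (tipC q m).2.1) n / ((n : ℝ) + 1)) +
          cv (tipTr (n + 1) fun m => (tipC q m).2.2)
            (fun j => tipTr (n + 1) (fun m => (tipC q m).1) j - (q - 1) * tipTr (n + 1) (fun m => (tipC q m).2.1) j)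
            (n + 1) +
          ((-(q - 1) * cv (tipTr (n + 1) fun m => (tipC q m).2.2) (tipTr (n + 1) fun m => (tipC q m).2.2) (n + 1) +
            2 * cv (tipTr (n + 1) fun m => (tipC q m).2.2) (tipTr (n + 1) fun m => (tipC q m).2.1) n) /
              ((n : ℝ) + q)) *
            (tipTr (n + 1) (fun m => (tipC q m).1) 0 - (q - 1) * tipTr (n + 1) (fun m => (tipC q m).2.1) 0)) /
          (2 * (n : ℝ) + q + 3),
       (-(q - 1) * cv (tipTr (n + 1) fun m => (tipC q m).2.2) (tipTr (n + 1) fun m => (tipC q m).2.2) (n + 1) +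
            2 * cv (tipTr (n + 1) fun m => (tipC q m).2.2) (tipTr (n + 1) fun m => (tipC q m).2.1) n) /
              ((n : ℝ) + q)) := by
  rw [tipC]
  simp only [dite_eq_ite]
  rfl

theorem tipTr_lin (n : ℕ) (c : ℝ) (a b : ℕ → ℝ) :
    (fun j => tipTr n a j - c * tipTr n b j) = tipTr n (fun j => a j - c * b j) := by
  funext j
  simp only [tipTr]
  split_ifs <;> simp

theorem cv_zero_idx (a b : ℕ → ℝ) : cv a b 0 = a 0 * b 0 := by
  simp [cv]

theorem exists_tipRec (q : ℝ) (hq : 1 < q) : ∃ u v y : ℕ → ℝ, TipRec q u v y := by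
  refine ⟨fun n => (tipC q n).1, fun n => (tipC q n).2.1, fun n => (tipC q n).2.2, ?_⟩
  set u : ℕ → ℝ := fun n => (tipC q n).1 with hu
  set v : ℕ → ℝ := fun n => (tipC q n).2.1 with hv
  set y : ℕ → ℝ := fun n => (tipC q n).2.2 with hy
  have u0 : u 0 = 1 := by simp [hu, tipC]
  have y0 : y 0 = 1 := by simp [hy, tipC]
  have v0 : v 0 = 1 / (q + 1) := by simp [hv, tipC]
  have hq1 : q + 1 ≠ 0 := by linarith
  have eu : ∀ n : ℕ, u (n + 1) = -cv u v n / ((n : ℝ) + 1) := by
    intro n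
    have h := congrArg Prod.fst (tipC_succ q n)
    simp only [cv_tipTr_lt] at h
    exact h
  have ey : ∀ n : ℕ, y (n + 1) =
      (-(q - 1) * (cv y y (n + 1) - y 0 * y (n + 1) - y (n + 1) * y 0) + 2 * cv y v n) / ((n : ℝ) + q) := by
    intro n
    have h := congrArg (fun t => t.2.2) (tipC_succ q n)
    simp only [cv_tipTr_lt, cv_tipTr_succ] at h
    exact h
  have ev : ∀ n : ℕ, v (n + 1) =
      (u (n + 1) + (cv y (fun j => u j - (q - 1) * v j) (n + 1) - y 0 * (u (n + 1) - (q - 1) * v (n + 1)) -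
        y (n + 1) * (u 0 - (q - 1) * v 0)) + y (n + 1) * (u 0 - (q - 1) * v 0)) / (2 * (n : ℝ) + q + 3) := by
    intro n
    have h := congrArg (fun t => t.2.1) (tipC_succ q n)
    simp only [tipTr_lin, cv_tipTr_lt, cv_tipTr_succ] at h
    rw [← eu n, ← ey n] at h
    have h0 : ∀ a : ℕ → ℝ, tipTr (n + 1) a 0 = a 0 := fun a => by simp [tipTr]
    rw [h0, h0] at h
    exact h
  refine ⟨u0, y0, ?_, ?_, ?_⟩
  · intro n
    have hn : ((n : ℝ) + 1) ≠ 0 := by positivity
    rw [dv, eu n]
    field_simp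
  · intro n
    cases n with
    | zero =>
      rw [cv_zero_idx, y0, u0, v0]
      field_simp
      ring
    | succ m =>
      have hm : (2 * (m : ℝ) + q + 3) ≠ 0 := by positivity
      have h := ev m
      rw [eq_div_iff hm, y0] at h
      push_cast
      linarith
  · intro n
    cases n with
    | zero =>
      rw [cv_zero_idx, y0]
      simp [sh]
    | succ m =>
      have hm : ((m : ℝ) + q) ≠ 0 := by positivity
      have h := ey m
      rw [eq_div_iff hm, y0] at h
      have hs : sh (cv y v) (m + 1) = cv y v m := by simp [sh]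
      rw [hs]
      push_cast
      linarith

/-- the first coefficients. -/
theorem TipRec.first {q : ℝ} (hq : 1 < q) {u v y : ℕ → ℝ} (h : TipRec q u v y) :
    v 0 = 1 / (q + 1) ∧ y 1 = 2 / (q * (q + 1)) := by
  have hq1 : q + 1 ≠ 0 := by linarith
  have hq0 : q ≠ 0 := by linarith
  have hv0 : v 0 = 1 / (q + 1) := by
    have h1 := h.vrec 0
    rw [cv_zero_idx, h.y0, h.u0] at h1
    rw [eq_div_iff hq1]
    push_cast at h1
    linarith
  refine ⟨hv0, ?_⟩
  have h2 := h.yrec 1
  have hs : sh (cv y v) 1 = y 0 * v 0 := by simp [sh, cv_zero_idx]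
  have hc : cv y y 1 = y 0 * y 1 + y 1 * y 0 := by
    simp [cv, Finset.Nat.antidiagonal_succ]
  rw [hs, hc, h.y0, hv0] at h2
  rw [eq_div_iff (mul_ne_zero hq0 hq1)]
  push_cast at h2
  field_simp at h2
  linarith

end Claimed.Agent.R324
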