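/-
Row 324, module B, file TipCoefB: geometric bound for the coefficients of the tip series.

CLAIM.  With M = 4 (q+3)^2 and b_0 = 1, b_n = M^(n-1) (n ≥ 1):  |u_n|, |v_n|, |y_n| ≤ b_n  (≤ M^n).
PROOF: strong induction on n, using the solved form of the recursion (header of TipCoefA):
  n = 0: u_0 = y_0 = 1, v_0 = 1/(q+1).
  For i, j ≥ 1, i + j = n:  b_i b_j = M^(n-2).   Hence  ∑_{i+j=n} b_i b_j = 2 M^(n-1) + (n-1) M^(n-2)  (n ≥ 1; = 2 for n = 1),   ∑_{i=1}^{n-1} b_i b_{n-i} = (n-1) M^(n-2).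
  u_{n+1}:  n = 0: |u_1| ≤ 1.   n ≥ 1: |u_{n+1}| ≤ (2 M^(n-1) + (n-1) M^(n-2))/(n+1) ≤ M^n        ⟸ 2 M + (n-1) ≤ (n+1) M^2.
  y_n (n ≥ 2): (n+q-1)|y_n| ≤ (q-1)(n-1) M^(n-2) + 2 (2 M^(n-2) + (n-2) M^(n-3)) ≤ (n+q-1) M^(n-1)   ⟸ (q-1)(n-1) M + 4 M + 2 (n-2) ≤ (n+q-1) M^2;   y_1 = 2 v_0/q.
  v_n (n ≥ 1): (2n+q+1)|v_n| ≤ b_n + q (M^(n-1) + (n-1) M^(n-2)) ≤ (2n+q+1) M^(n-1)                 ⟸ q (n-1) ≤ 2 n M.
  (order inside step n: first u_n and y_n from the induction hypothesis, then v_n.)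
It is convenient to prove first the three "solved" inequalities as separate lemmas for an abstract majorant.
Any other M = M(q) would do as well: if you prefer another constant, change `tipM` (nothing else depends on its value).
-/
import Claimed.Agent.R324.Bohm.TipCoefA

set_option autoImplicit false

namespace Claimed.Agent.R324

open Finset

/-- inverse radius of convergence (lower bound). -/
def tipM (q : ℝ) : ℝ := 4 * (q + 3) ^ 2

theorem tipM_pos (q : ℝ) (hq : 1 < q) : 0 < tipM q := by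
  unfold tipM; positivity

/-- the majorant `b_0 = 1`, `b_(n+1) = M^n`. -/
def tipB (M : ℝ) : ℕ → ℝ
  | 0 => 1
  | n + 1 => M ^ n

theorem tipB_zero (M : ℝ) : tipB M 0 = 1 := rfl

theorem tipB_succ (M : ℝ) (n : ℕ) : tipB M (n + 1) = M ^ n := rfl

theorem tip_fst_le {n : ℕ} {p : ℕ × ℕ} (hp : p ∈ antidiagonal n) : p.1 ≤ n := by
  have := mem_antidiagonal.1 hp
  omega

theorem tip_snd_le {n : ℕ} {p : ℕ × ℕ} (hp : p ∈ antidiagonal n) : p.2 ≤ n := by
  have := mem_antidiagonal.1 hp
  omega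

theorem tipB_le_pow {M : ℝ} (hM : 1 ≤ M) (n : ℕ) : tipB M n ≤ M ^ n := by
  cases n with
  | zero => simp [tipB]
  | succ n => simpa [tipB] using pow_le_pow_right₀ hM (Nat.le_succ n)

theorem tipB_nonneg {M : ℝ} (hM : 1 ≤ M) (n : ℕ) : 0 ≤ tipB M n := by
  cases n with
  | zero => simp [tipB]
  | succ n => simpa [tipB] using pow_nonneg (zero_le_one.trans hM) n

theorem tip_sum_pow (M : ℝ) (n : ℕ) :
    ∑ p ∈ antidiagonal n, M ^ p.1 * M ^ p.2 = ((n : ℝ) + 1) * M ^ n := by
  rw [Finset.sum_congr rfl (g := fun _ => M ^ n)]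
  · simp
  · intro p hp
    rw [← pow_add, mem_antidiagonal.1 hp]

theorem tip_abs_sum_mul_le {s : Finset (ℕ × ℕ)} {f g F G : ℕ × ℕ → ℝ}
    (hf : ∀ p ∈ s, |f p| ≤ F p) (hg : ∀ p ∈ s, |g p| ≤ G p) :
    |∑ p ∈ s, f p * g p| ≤ ∑ p ∈ s, F p * G p := by
  refine (Finset.abs_sum_le_sum_abs _ _).trans (Finset.sum_le_sum fun p hp => ?_)
  rw [abs_mul]
  exact mul_le_mul (hf p hp) (hg p hp) (abs_nonneg _) ((abs_nonneg _).trans (hf p hp))

theorem tip_abs_le_of_mul_eq {c x E T : ℝ} (hc : 0 < c) (h : c * x = E) (hE : |E| ≤ c * T) :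
    |x| ≤ T := by
  have h1 : c * |x| = |E| := by rw [← h, abs_mul, abs_of_pos hc]
  exact le_of_mul_le_mul_left (h1.le.trans hE) hc

/-- mixed sum, crude. -/
theorem tip_sumPB_le {M : ℝ} (hM : 1 ≤ M) (k : ℕ) :
    ∑ p ∈ antidiagonal k, M ^ p.1 * tipB M p.2 ≤ ((k : ℝ) + 1) * M ^ k := by
  rw [← tip_sum_pow]
  exact Finset.sum_le_sum fun p _ =>
    mul_le_mul_of_nonneg_left (tipB_le_pow hM p.2) (pow_nonneg (zero_le_one.trans hM) _)

/-- full sum, crude. -/
theorem tip_sumBB_le {M : ℝ} (hM : 1 ≤ M) (k : ℕ) :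
    ∑ p ∈ antidiagonal k, tipB M p.1 * tipB M p.2 ≤ ((k : ℝ) + 1) * M ^ k := by
  rw [← tip_sum_pow]
  exact Finset.sum_le_sum fun p _ =>
    mul_le_mul (tipB_le_pow hM p.1) (tipB_le_pow hM p.2) (tipB_nonneg hM _)
      (pow_nonneg (zero_le_one.trans hM) _)

/-- full sum, one power better. -/
theorem tip_sumBB_succ_le {M : ℝ} (hM : 1 ≤ M) (m : ℕ) :
    ∑ p ∈ antidiagonal (m + 1), tipB M p.1 * tipB M p.2 ≤ ((m : ℝ) + 2) * M ^ m := by
  rw [Finset.Nat.sum_antidiagonal_succ]
  simp only [tipB_zero, tipB_succ]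
  have := tip_sumPB_le hM m
  linarith

/-- mixed sum, sharp. -/
theorem tip_sumPB_sharp {M q : ℝ} (hM : 1 ≤ M) (hqM : q ≤ 2 * M) (k : ℕ) :
    q * ∑ p ∈ antidiagonal k, M ^ p.1 * tipB M p.2 ≤ (q + 2 * (k : ℝ)) * M ^ k := by
  cases k with
  | zero => simp [tipB]
  | succ m =>
    rw [Finset.Nat.sum_antidiagonal_succ']
    simp only [tipB_zero, tipB_succ]
    rw [tip_sum_pow]
    have h0 : 0 ≤ M ^ m := pow_nonneg (zero_le_one.trans hM) m
    have h1 : 0 ≤ ((m : ℝ) + 1) * M ^ m * (2 * M - q) :=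
      mul_nonneg (mul_nonneg (by positivity) h0) (by linarith)
    push_cast
    rw [pow_succ]
    nlinarith [h1]

theorem TipRec.boundB {q : ℝ} (hq : 1 < q) {u v y : ℕ → ℝ} (h : TipRec q u v y) (n : ℕ) :
    |u n| ≤ tipB (tipM q) n ∧ |v n| ≤ tipB (tipM q) n ∧ |y n| ≤ tipB (tipM q) n := by
  have hMq : q + 3 ≤ tipM q := by unfold tipM; nlinarith
  generalize tipM q = M at hMq ⊢
  have hM1 : 1 ≤ M := by linarith
  obtain ⟨hv0, hy1⟩ := h.first hq
  induction n using Nat.strong_induction_on with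
  | _ n ih =>
    cases n with
    | zero =>
      refine ⟨by simp [h.u0, tipB], ?_, by simp [h.y0, tipB]⟩
      rw [hv0]
      simp only [tipB]
      rw [abs_of_pos (by positivity), div_le_one (by linarith)]
      linarith
    | succ k =>
      have ihu : ∀ j ≤ k, |u j| ≤ tipB M j := fun j hj => (ih j (by omega)).1
      have ihv : ∀ j ≤ k, |v j| ≤ tipB M j := fun j hj => (ih j (by omega)).2.1
      have ihy : ∀ j ≤ k, |y j| ≤ tipB M j := fun j hj => (ih j (by omega)).2.2
      have hMk : 0 ≤ M ^ k := pow_nonneg (zero_le_one.trans hM1) k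
      -- `u`
      have hu : |u (k + 1)| ≤ M ^ k := by
        have h1 := h.urec k
        unfold dv cv at h1
        refine tip_abs_le_of_mul_eq (by positivity) h1 ?_
        rw [abs_neg]
        exact (tip_abs_sum_mul_le (fun p hp => ihu p.1 (tip_fst_le hp))
          (fun p hp => ihv p.2 (tip_snd_le hp))).trans (tip_sumBB_le hM1 k)
      -- `y`
      have hy : |y (k + 1)| ≤ M ^ k := by
        have h1 := h.yrec (k + 1)
        have hsh : sh (cv y v) (k + 1) = cv y v k := by simp [sh]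
        rw [hsh] at h1
        cases k with
        | zero =>
          rw [hy1, pow_zero, abs_of_pos (by positivity), div_le_one (by positivity)]
          nlinarith
        | succ m =>
          have hc : cv y y (m + 1 + 1) = 2 * y (m + 1 + 1)
              + ∑ p ∈ antidiagonal m, y (p.1 + 1) * y (p.2 + 1) := by
            unfold cv
            rw [Finset.Nat.sum_antidiagonal_succ, Finset.Nat.sum_antidiagonal_succ']
            simp only [h.y0]
            ring
          have hR : |∑ p ∈ antidiagonal m, y (p.1 + 1) * y (p.2 + 1)| ≤ ((m : ℝ) + 1) * M ^ m :=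
            (tip_abs_sum_mul_le (F := fun p => M ^ p.1) (G := fun p => M ^ p.2)
              (fun p hp => ihy (p.1 + 1) (by have := tip_fst_le hp; omega))
              (fun p hp => ihy (p.2 + 1) (by have := tip_snd_le hp; omega))).trans_eq
              (tip_sum_pow M m)
          have hV : |cv y v (m + 1)| ≤ ((m : ℝ) + 2) * M ^ m :=
            (tip_abs_sum_mul_le (fun p hp => ihy p.1 (tip_fst_le hp))
              (fun p hp => ihv p.2 (tip_snd_le hp))).trans (tip_sumBB_succ_le hM1 m)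
          rw [hc] at h1
          push_cast at h1
          have h2 : ((m : ℝ) + 1 + q) * y (m + 1 + 1)
              = -(q - 1) * (∑ p ∈ antidiagonal m, y (p.1 + 1) * y (p.2 + 1))
                + 2 * cv y v (m + 1) := by linarith
          refine tip_abs_le_of_mul_eq (by positivity) h2 ?_
          have hMm : 0 ≤ M ^ m := pow_nonneg (zero_le_one.trans hM1) m
          have h3 : |-(q - 1) * (∑ p ∈ antidiagonal m, y (p.1 + 1) * y (p.2 + 1))
                + 2 * cv y v (m + 1)|
              ≤ (q - 1) * (((m : ℝ) + 1) * M ^ m) + 2 * (((m : ℝ) + 2) * M ^ m) := by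
            refine (abs_add_le _ _).trans (add_le_add ?_ ?_)
            · rw [abs_mul, abs_neg, abs_of_pos (by linarith : (0 : ℝ) < q - 1)]
              exact mul_le_mul_of_nonneg_left hR (by linarith)
            · rw [abs_mul, abs_of_pos (by norm_num : (0 : ℝ) < 2)]
              exact mul_le_mul_of_nonneg_left hV (by norm_num)
          refine h3.trans ?_
          rw [pow_succ]
          have hm : (0 : ℝ) ≤ m := Nat.cast_nonneg m
          have h4 : (q - 1) * ((m : ℝ) + 1) + 2 * ((m : ℝ) + 2) ≤ ((m : ℝ) + 1 + q) * M := by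
            have : ((m : ℝ) + 1 + q) * (q + 3) ≤ ((m : ℝ) + 1 + q) * M :=
              mul_le_mul_of_nonneg_left hMq (by positivity)
            nlinarith
          nlinarith [mul_le_mul_of_nonneg_right h4 hMm]
      -- `v`
      have hv : |v (k + 1)| ≤ M ^ k := by
        have h1 := h.vrec (k + 1)
        unfold cv at h1
        rw [Finset.Nat.sum_antidiagonal_succ] at h1
        simp only [h.y0] at h1
        push_cast at h1
        have h2 : (2 * (k : ℝ) + 3 + q) * v (k + 1) = u (k + 1)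
            + ∑ p ∈ antidiagonal k, y (p.1 + 1) * (u p.2 - (q - 1) * v p.2) := by linarith
        refine tip_abs_le_of_mul_eq (by positivity) h2 ?_
        have hyk : ∀ j ≤ k, |y (j + 1)| ≤ M ^ j := by
          intro j hj
          rcases Nat.lt_or_ge j k with hlt | hge
          · exact ihy (j + 1) hlt
          · have : j = k := le_antisymm hj hge
            rw [this]; exact hy
        have hw : ∀ j ≤ k, |u j - (q - 1) * v j| ≤ q * tipB M j := by
          intro j hj
          have h5 : |u j - (q - 1) * v j| ≤ |u j| + (q - 1) * |v j| := by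
            refine (abs_sub _ _).trans ?_
            rw [abs_mul, abs_of_pos (by linarith : (0 : ℝ) < q - 1)]
          have h6 := mul_le_mul_of_nonneg_left (ihv j hj) (by linarith : (0 : ℝ) ≤ q - 1)
          have h7 := ihu j hj
          linarith
        have hS : |∑ p ∈ antidiagonal k, y (p.1 + 1) * (u p.2 - (q - 1) * v p.2)|
            ≤ (q + 2 * (k : ℝ)) * M ^ k := by
          refine (tip_abs_sum_mul_le (F := fun p => M ^ p.1) (G := fun p => q * tipB M p.2)
            (fun p hp => hyk p.1 (tip_fst_le hp))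
            (fun p hp => hw p.2 (tip_snd_le hp))).trans ?_
          refine le_trans (le_of_eq ?_) (tip_sumPB_sharp (q := q) hM1 (by linarith) k)
          rw [Finset.mul_sum]
          exact Finset.sum_congr rfl fun p _ => by ring
        refine (abs_add_le _ _).trans ?_
        nlinarith
      exact ⟨hu, hv, hy⟩

theorem TipRec.bound {q : ℝ} (hq : 1 < q) {u v y : ℕ → ℝ} (h : TipRec q u v y) (n : ℕ) :
    |u n| ≤ tipM q ^ n ∧ |v n| ≤ tipM q ^ n ∧ |y n| ≤ tipM q ^ n := by
  have hM1 : 1 ≤ tipM q := by unfold tipM; nlinarith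
  obtain ⟨h1, h2, h3⟩ := h.boundB hq n
  exact ⟨h1.trans (tipB_le_pow hM1 n), h2.trans (tipB_le_pow hM1 n), h3.trans (tipB_le_pow hM1 n)⟩

theorem TipRec.absConv {q : ℝ} (hq : 1 < q) {u v y : ℕ → ℝ} (h : TipRec q u v y) :
    AbsConv u (1 / tipM q) ∧ AbsConv v (1 / tipM q) ∧ AbsConv y (1 / tipM q) :=
  ⟨absConv_of_geo (tipM_pos q hq) fun n => (h.bound hq n).1,
    absConv_of_geo (tipM_pos q hq) fun n => (h.bound hq n).2.1,
    absConv_of_geo (tipM_pos q hq) fun n => (h.bound hq n).2.2⟩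

end Claimed.Agent.R324
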