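/-
Row 324, module B, file TipODE: the sums U = ps u, V = ps v, Y = ps y of the tip series solve the tip system on (-r, r).

PROOF.  All from PowSerA/B:  `hasDerivAt_ps` gives  U' = ps (dv u) = ps (-cv u v) = -(U V)   (`urec`, `ps_smul (-1)`/`ps_conv`).
 V:  V' := ps (dv v) x.  2 V + 2 x V' = ps (fun n => 2 v_n + 2 n v_n) = ps (fun n => (2n+2) v_n)  (`x_mul_deriv_ps`, `ps_add`, `ps_smul`, `AbsConv.nmul`)
     = ps (cv y (u - (q-1) v)) = Y (U - (q-1) V)   (`vrec`, `ps_conv`, `ps_add`, `ps_smul`).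
 Y:  x Y' = ps (fun n => n y_n) = ps ((q-1)(y - cv y y) + 2 sh (cv y v)) = (q-1)(Y - Y^2) + 2 x Y V   (`yrec`, `ps_shift`, `ps_conv`).
 `ps` of pointwise equal sequences are equal (`congrArg`/`funext`).
-/
import Claimed.Agent.R324.Bohm.TipCoefB

set_option autoImplicit false

namespace Claimed.Agent.R324

theorem tip_odeU {q r : ℝ} {u v y : ℕ → ℝ} (h : TipRec q u v y) (hu : AbsConv u r) (hv : AbsConv v r)
    {x : ℝ} (hx : |x| < r) : HasDerivAt (ps u) (-(ps u x * ps v x)) x := by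
  have h1 := hasDerivAt_ps hu hx
  have h2 : dv u = fun n => (-1 : ℝ) * cv u v n := by
    funext n
    rw [h.urec n]; ring
  have h3 : ps (dv u) x = -(ps u x * ps v x) := by
    rw [h2, ps_smul, ps_conv hu hv hx]; ring
  rwa [h3] at h1

theorem tip_odeV {q r : ℝ} {u v y : ℕ → ℝ} (h : TipRec q u v y) (hu : AbsConv u r) (hv : AbsConv v r)
    (hy : AbsConv y r) {x : ℝ} (hx : |x| < r) :
    2 * ps v x + 2 * x * deriv (ps v) x = ps y x * (ps u x - (q - 1) * ps v x) := by
  rw [(hasDerivAt_ps hv hx).deriv]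
  have hw : AbsConv (fun j => u j + (-(q - 1)) * v j) r := hu.add (hv.smul _)
  have e1 : (fun j => u j - (q - 1) * v j) = fun j => u j + (-(q - 1)) * v j := by
    funext j; ring
  have e2 : ps (cv y (fun j => u j - (q - 1) * v j)) x = ps y x * (ps u x - (q - 1) * ps v x) := by
    rw [e1, ps_conv hy hw hx, ps_add hu (hv.smul _) hx, ps_smul]; ring
  have e3 : cv y (fun j => u j - (q - 1) * v j) = fun n => 2 * v n + 2 * ((n : ℝ) * v n) := by
    funext n
    rw [← h.vrec n]; ring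
  rw [← e2, e3, ps_add (hv.smul 2) (hv.nmul.smul 2) hx, ps_smul, ps_smul, ← x_mul_deriv_ps hv hx]
  ring

theorem tip_odeY {q r : ℝ} {u v y : ℕ → ℝ} (h : TipRec q u v y) (hv : AbsConv v r)
    (hy : AbsConv y r) {x : ℝ} (hx : |x| < r) :
    x * deriv (ps y) x = (q - 1) * ps y x * (1 - ps y x) + 2 * x * ps y x * ps v x := by
  rw [(hasDerivAt_ps hy hx).deriv, x_mul_deriv_ps hy hx]
  have e1 : (fun n : ℕ => (n : ℝ) * y n)
      = fun n => (q - 1) * (y n + (-1) * cv y y n) + 2 * sh (cv y v) n := by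
    funext n
    rw [h.yrec n]; ring
  have hyy : AbsConv (cv y y) r := hy.conv hy
  have hyv : AbsConv (cv y v) r := hy.conv hv
  have hA : AbsConv (fun n => y n + (-1) * cv y y n) r := hy.add (hyy.smul _)
  rw [e1, ps_add (hA.smul (q - 1)) (hyv.shift.smul 2) hx, ps_smul, ps_smul,
    ps_add hy (hyy.smul _) hx, ps_smul, ps_conv hy hy hx, ps_shift hyv hx, ps_conv hy hv hx]
  ring

end Claimed.Agent.R324
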