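/-
Row 324, module B, file TipSol: the local solution (w, z) at the tip from the power series U, V, Y.

PROOF of `exists_tip`.  Take u v y from `exists_tipRec`, r = 1/tipM q, `TipRec.absConv`.  U = ps u, V = ps v, Y = ps y.
 * U, V, Y are smooth on (-r, r) (`contDiffOn_ps`), in particular continuous at 0; U 0 = u 0 = 1, Y 0 = 1, V 0 = v 0 = 1/(q+1) (`ps_zero`, `TipRec.first`).
 * choose 0 < δ ≤ r with U > 0 and Y > 0 on (-δ, δ)  (continuity at 0: `ContinuousAt.eventually (lt_mem_nhds ..)`, `Metric.eventually_nhds_iff`/`Metric.ball`, `Real.ball_eq_Ioo`).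
 * w := fun x => -Real.log (U x),   z := fun x => (Y x)⁻¹.    Smooth on (-δ, δ): `ContDiffOn.log`, `ContDiffOn.inv`.
 * for |x| < δ:  HasDerivAt w (V x) x      (`HasDerivAt.log`, `tip_odeU`:  -(-(U V))/U = V).
   Hence  th w = fun x => 2 x V x  on the open interval, so (EventuallyEq, `Filter.EventuallyEq.deriv_eq`)   th (th w) x = 2 x (2 V x + 2 x V' x),  V' = deriv V x
   (V differentiable at x by `hasDerivAt_ps`).       bP w x = x * exp (log (U x)) = x U x.
   (W):  z (4xV + 4x²V') + (q-1) 2xV = 2x [ z (2V + 2xV') + (q-1)V ] = 2x [ z Y (U - (q-1)V) + (q-1)V ] = 2 x U      (`tip_odeV`, z Y = 1).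
   (Z1): th z x = 2x (-Y'/Y²),   x Y' = (q-1) Y (1-Y) + 2 x Y V (`tip_odeY`)  ⟹  th z = 2(q-1)(1 - 1/Y) - 2 (1/Y)(2xV)      (`field_simp`, `ring`/`linear_combination`).
-/
import Claimed.Agent.R324.Bohm.TipODE
import Claimed.Agent.R324.Bohm.Defs

set_option autoImplicit false

namespace Claimed.Agent.R324

open Set

theorem exists_tip (q : ℝ) (hq : 1 < q) : ∃ (δ : ℝ) (w z : ℝ → ℝ), IsTip q δ w z := by
  obtain ⟨u, v, y, h⟩ := exists_tipRec q hq
  obtain ⟨hu, hv, hy⟩ := h.absConv hq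
  have hr : 0 < 1 / tipM q := by
    have := tipM_pos q hq
    positivity
  set r := 1 / tipM q with hrdef
  have h0r : |(0 : ℝ)| < r := by simpa using hr
  have U0 : ps u 0 = 1 := by rw [ps_zero, h.u0]
  have Y0 : ps y 0 = 1 := by rw [ps_zero, h.y0]
  have V0 : ps v 0 = 1 / (q + 1) := by rw [ps_zero, (h.first hq).1]
  have hcU : ContinuousAt (ps u) 0 := (hasDerivAt_ps hu h0r).continuousAt
  have hcY : ContinuousAt (ps y) 0 := (hasDerivAt_ps hy h0r).continuousAt
  have hUe : ∀ᶠ x in nhds (0 : ℝ), 0 < ps u x :=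
    hcU.eventually (lt_mem_nhds (by rw [U0]; norm_num))
  have hYe : ∀ᶠ x in nhds (0 : ℝ), 0 < ps y x :=
    hcY.eventually (lt_mem_nhds (by rw [Y0]; norm_num))
  obtain ⟨ε, hε, hεP⟩ := Metric.eventually_nhds_iff.1 (hUe.and hYe)
  set δ := min ε r with hδdef
  have hδ : 0 < δ := lt_min hε hr
  have hmem : ∀ x ∈ Ioo (-δ) δ, |x| < r ∧ 0 < ps u x ∧ 0 < ps y x := by
    intro x hx
    have hx' : |x| < δ := abs_lt.2 hx
    have h1 : |x| < ε := lt_of_lt_of_le hx' (min_le_left _ _)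
    have h2 : |x| < r := lt_of_lt_of_le hx' (min_le_right _ _)
    have h3 := hεP (y := x) (by rwa [Real.dist_eq, sub_zero])
    exact ⟨h2, h3.1, h3.2⟩
  have hsub : Ioo (-δ) δ ⊆ Ioo (-r) r :=
    Ioo_subset_Ioo (neg_le_neg (min_le_right _ _)) (min_le_right _ _)
  have h0mem : (0 : ℝ) ∈ Ioo (-δ) δ := ⟨by linarith, hδ⟩
  -- derivative of `w`
  have hdw : ∀ x ∈ Ioo (-δ) δ, HasDerivAt (fun x => -Real.log (ps u x)) (ps v x) x := by
    intro x hx
    obtain ⟨hxr, hU, _⟩ := hmem x hx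
    have h1 := ((tip_odeU h hu hv hxr).log hU.ne').neg
    have e : -(-(ps u x * ps v x) / ps u x) = ps v x := by
      field_simp
    rwa [e] at h1
  have hthw : ∀ x ∈ Ioo (-δ) δ, th (fun x => -Real.log (ps u x)) x = 2 * x * ps v x := by
    intro x hx
    unfold th
    rw [(hdw x hx).deriv]
  have hdz : ∀ x ∈ Ioo (-δ) δ,
      HasDerivAt (fun x => (ps y x)⁻¹) (-deriv (ps y) x / ps y x ^ 2) x := by
    intro x hx
    obtain ⟨hxr, _, hY⟩ := hmem x hx
    have h1 := (hasDerivAt_ps hy hxr).differentiableAt.hasDerivAt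
    exact h1.inv hY.ne'
  refine ⟨δ, fun x => -Real.log (ps u x), fun x => (ps y x)⁻¹, ?_⟩
  refine ⟨hδ, ?_, ?_, ?_, ?_, ?_, ?_, ?_, ?_⟩
  · exact (((contDiffOn_ps hu).mono hsub).log fun x hx => (hmem x hx).2.1.ne').neg
  · exact ((contDiffOn_ps hy).mono hsub).inv fun x hx => (hmem x hx).2.2.ne'
  · show -Real.log (ps u 0) = 0
    rw [U0]; simp
  · show (ps y 0)⁻¹ = 1
    rw [Y0]; simp
  · rw [(hdw 0 h0mem).deriv, V0]
  · intro x hx
    exact inv_pos.2 (hmem x hx).2.2
  · intro x hx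
    obtain ⟨hxr, hU, hY⟩ := hmem x hx
    have hV := (hasDerivAt_ps hv hxr).differentiableAt.hasDerivAt
    have hev : th (fun x => -Real.log (ps u x)) =ᶠ[nhds x] fun x' => 2 * x' * ps v x' := by
      filter_upwards [isOpen_Ioo.mem_nhds hx] with x' hx'
      exact hthw x' hx'
    have hd2 : HasDerivAt (fun x' => 2 * x' * ps v x')
        (2 * 1 * ps v x + 2 * x * deriv (ps v) x) x :=
      ((hasDerivAt_id x).const_mul 2).mul hV
    have hthth : th (th (fun x => -Real.log (ps u x))) x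
        = 2 * x * (2 * ps v x + 2 * x * deriv (ps v) x) := by
      show 2 * x * deriv (th (fun x => -Real.log (ps u x))) x = _
      rw [hev.deriv_eq, hd2.deriv]
      ring
    have hP : bP (fun x => -Real.log (ps u x)) x = x * ps u x := by
      unfold bP
      rw [neg_neg, Real.exp_log hU]
    rw [hthth, hthw x hx, hP, tip_odeV h hu hv hy hxr]
    field_simp
    ring
  · intro x hx
    obtain ⟨hxr, hU, hY⟩ := hmem x hx
    have hode := tip_odeY h hv hy hxr
    have hthz : th (fun x => (ps y x)⁻¹) x = 2 * x * (-deriv (ps y) x / ps y x ^ 2) := by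
      unfold th
      rw [(hdz x hx).deriv]
    rw [hthz, hthw x hx]
    have e : 2 * x * (-deriv (ps y) x / ps y x ^ 2) = -2 * (x * deriv (ps y) x) / ps y x ^ 2 := by
      ring
    rw [e, hode]
    field_simp
    ring

end Claimed.Agent.R324
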