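/-
Row 324, module B, file Profile: the global profile (w, z) from the complete trajectory.

`th_comp_log`: for Ξ > 0, d/dΞ f(log Ξ/2) = f'/(2Ξ), so th (..) Ξ = 2Ξ f'/(2Ξ) = f'.   (`Real.hasDerivAt_log`, `HasDerivAt.comp`/`scomp`, `HasDerivAt.deriv`, `field_simp`.)
PROOF of `exists_profile`.  q > 1.  δ, w₁, z₁ from `exists_tip`;  γ, δ' from `exists_traj`.   Write σ(Ξ) = log Ξ/2, (P,Q) = γ.   P > 0 everywhere (region).
   w₂ Ξ := log Ξ - log (γ (σ Ξ)).1,     z₂ Ξ := bz q (γ (σ Ξ)).    Smooth on Ioi 0: log is smooth on Ioi 0 (`Real.contDiffOn_log`/`contDiffAt_log`), γ smooth (`IsTraj.sm`), `ContDiffOn.log`,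
   `contDiffOn_bz` composed with γ∘σ which maps into bU (`bReg_subset_bU`) (`ContDiffOn.comp`).
   On (0,δ'):  γ(σ Ξ) = bPQ w₁ Ξ = (Ξ e^{-w₁}, ..), so w₂ Ξ = log Ξ - (log Ξ - w₁ Ξ) = w₁ Ξ (`Real.log_mul`, `Real.log_exp`);   z₂ Ξ = bz q (bPQ w₁ Ξ) = z₁ Ξ by `IsTip.eqH`.
   `exists_glue` (with δ', restricting smoothness of w₁, z₁ to Ioo (-δ') δ') gives w, z smooth on ℝ, w 0 = w₁ 0 = 0, z 0 = 1, w = w₂, z = z₂ on Ioi 0.
   pq: Ξ > 0.  bP w Ξ = Ξ exp(-(log Ξ - log P)) = P (`Real.exp_sub`/`Real.exp_log`).     th w Ξ = th w₂ Ξ (w = w₂ near Ξ: `Filter.EventuallyEq.deriv_eq`, `Ioi_mem_nhds`)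
       = th log Ξ - th (log P(σ ·)) Ξ = 2 - P'/P = 2 - (2 - Q) = Q      (`th_comp_log` for f = log ∘ fst ∘ γ, f' = P(2-Q)/P).
-/
import Claimed.Agent.R324.Bohm.Global
import Claimed.Agent.R324.Bohm.GlueFn
import Claimed.Agent.R324.Bohm.TipSol

set_option autoImplicit false

namespace Claimed.Agent.R324

open Set
open scoped ContDiff

theorem th_comp_log {f : ℝ → ℝ} {f' Ξ : ℝ} (hΞ : 0 < Ξ) (hf : HasDerivAt f f' (Real.log Ξ / 2)) :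
    th (fun x => f (Real.log x / 2)) Ξ = f' := by
  have h1 : HasDerivAt (fun x => Real.log x / 2) (Ξ⁻¹ / 2) Ξ :=
    (Real.hasDerivAt_log hΞ.ne').div_const 2
  have h2 : HasDerivAt (fun x => f (Real.log x / 2)) (f' * (Ξ⁻¹ / 2)) Ξ :=
    HasDerivAt.comp Ξ hf h1
  unfold th
  rw [h2.deriv]
  field_simp

theorem exists_profile {q : ℝ} (hq : 100 ≤ q) :
    ∃ (γ : ℝ → ℝ × ℝ) (w z : ℝ → ℝ), IsTraj q γ ∧ IsProfile q γ w z := by
  have hq1 : 1 < q := by linarith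
  obtain ⟨δ, w₁, z₁, htip⟩ := exists_tip q hq1
  obtain ⟨γ, hγ, δ', hδ', hγeq⟩ := exists_traj hq htip
  have hδ'pos : 0 < δ' := hδ'.1
  have hδ'le : δ' ≤ δ := hδ'.2
  have hPpos : ∀ σ, 0 < (γ σ).1 := fun σ => (hγ.mem σ).1.1
  have hlog : ContDiffOn ℝ ∞ Real.log (Ioi 0) :=
    Real.contDiffOn_log.mono (fun x hx => (ne_of_gt hx : x ≠ 0))
  have hσ : ContDiffOn ℝ ∞ (fun Ξ : ℝ => Real.log Ξ / 2) (Ioi 0) := hlog.div_const 2
  have hγσ : ContDiffOn ℝ ∞ (fun Ξ : ℝ => γ (Real.log Ξ / 2)) (Ioi 0) :=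
    hγ.sm.comp_contDiffOn hσ
  have hw₂sm : ContDiffOn ℝ ∞
      (fun Ξ : ℝ => Real.log Ξ - Real.log (γ (Real.log Ξ / 2)).1) (Ioi 0) :=
    hlog.sub ((contDiff_fst.comp_contDiffOn hγσ).log (fun x _ => (hPpos _).ne'))
  have hz₂sm : ContDiffOn ℝ ∞ (fun Ξ : ℝ => bz q (γ (Real.log Ξ / 2))) (Ioi 0) :=
    (contDiffOn_bz q).comp hγσ (fun x _ => bReg_subset_bU hq1 (hγ.mem _))
  have hsub : Ioo (-δ') δ' ⊆ Ioo (-δ) δ := Ioo_subset_Ioo (neg_le_neg hδ'le) hδ'le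
  have hagw : ∀ x ∈ Ioo 0 δ', w₁ x = Real.log x - Real.log (γ (Real.log x / 2)).1 := by
    intro x hx
    rw [hγeq x hx]
    show w₁ x = Real.log x - Real.log (x * Real.exp (-w₁ x))
    rw [Real.log_mul hx.1.ne' (Real.exp_pos _).ne', Real.log_exp]
    ring
  have hagz : ∀ x ∈ Ioo 0 δ', z₁ x = bz q (γ (Real.log x / 2)) := by
    intro x hx
    rw [hγeq x hx]
    exact htip.eqH hq1 x ⟨hx.1.le, lt_of_lt_of_le hx.2 hδ'le⟩
  obtain ⟨w, hwsm, hw0, hw⟩ := exists_glue hδ'pos (htip.smw.mono hsub) hw₂sm hagw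
  obtain ⟨z, hzsm, hz0, hz⟩ := exists_glue hδ'pos (htip.smz.mono hsub) hz₂sm hagz
  refine ⟨γ, w, z, hγ, hwsm, hzsm, by rw [hw0, htip.w0], by rw [hz0, htip.z0], ?_, hz⟩
  intro Ξ hΞ
  have hP := hPpos (Real.log Ξ / 2)
  have e1 : bP w Ξ = (γ (Real.log Ξ / 2)).1 := by
    unfold bP
    rw [hw Ξ hΞ, neg_sub, Real.exp_sub, Real.exp_log hP, Real.exp_log hΞ]
    field_simp
  have e2 : th w Ξ = (γ (Real.log Ξ / 2)).2 := by
    have hev : w =ᶠ[nhds Ξ] fun x => Real.log x - Real.log (γ (Real.log x / 2)).1 := by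
      filter_upwards [Ioi_mem_nhds hΞ] with x hx
      exact hw x hx
    have hfst : HasDerivAt (fun σ => (γ σ).1) (bX q (γ (Real.log Ξ / 2))).1 (Real.log Ξ / 2) :=
      (hasFDerivAt_fst (𝕜 := ℝ) (p := γ (Real.log Ξ / 2))).comp_hasDerivAt _
        (hγ.hd (Real.log Ξ / 2))
    have hf : HasDerivAt (fun σ => Real.log (γ σ).1)
        ((bX q (γ (Real.log Ξ / 2))).1 / (γ (Real.log Ξ / 2)).1) (Real.log Ξ / 2) :=
      hfst.log hP.ne'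
    have h1 : HasDerivAt (fun x => Real.log x / 2) (Ξ⁻¹ / 2) Ξ :=
      (Real.hasDerivAt_log hΞ.ne').div_const 2
    have h2 : HasDerivAt (fun x => Real.log (γ (Real.log x / 2)).1)
        ((bX q (γ (Real.log Ξ / 2))).1 / (γ (Real.log Ξ / 2)).1 * (Ξ⁻¹ / 2)) Ξ :=
      HasDerivAt.comp (h₂ := fun σ => Real.log (γ σ).1) Ξ hf h1
    have h3 : HasDerivAt (fun x => Real.log x - Real.log (γ (Real.log x / 2)).1)
        (Ξ⁻¹ - (bX q (γ (Real.log Ξ / 2))).1 / (γ (Real.log Ξ / 2)).1 * (Ξ⁻¹ / 2)) Ξ :=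
      (Real.hasDerivAt_log hΞ.ne').sub h2
    unfold th
    rw [hev.deriv_eq, h3.deriv]
    show 2 * Ξ * (Ξ⁻¹ - (γ (Real.log Ξ / 2)).1 * (2 - (γ (Real.log Ξ / 2)).2)
      / (γ (Real.log Ξ / 2)).1 * (Ξ⁻¹ / 2)) = _
    field_simp
    ring
  exact Prod.ext e1 e2

end Claimed.Agent.R324
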