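/-
Row 324, module B, file Eqs: the equations (W), (H), (Z1) and the region for a global profile.

Let Ξ > 0, σ = log Ξ/2, (P,Q) = γ σ = bPQ w Ξ (`IsProfile.pq`), z Ξ = bz q (γ σ) (`IsProfile.zz`).
* `th_zero`: th f 0 = 2 * 0 * _ = 0.
* eqH: Ξ > 0: zz + pq.   Ξ = 0: bPQ w 0 = (0,0) (bP w 0 = 0, th w 0 = 0), bz q (0,0) = q(q-1)/(q(q-1)) = 1 = z 0.
* reg: pq + `IsTraj.mem`.
* eqW: Ξ = 0: all terms vanish.   Ξ > 0:  th w = fun x => (γ (log x/2)).2 on the open set Ioi 0 (second component of pq), so th (th w) Ξ = (bX q (γ σ)).2 = (2P-(q-1)Q)/bz  by `th_comp_log`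
       (th depends only on the germ: `Filter.EventuallyEq.deriv_eq`);  multiply by z = bz > 0.
* eqZ: Ξ = 0: th z 0 = 0, z 0 = 1, th w 0 = 0.   Ξ > 0:  z = fun x => bz q (γ (log x/2)) on Ioi 0; `th_comp_log` + `hasDerivAt_bz_comp`.
-/
import Claimed.Agent.R324.Bohm.Profile

set_option autoImplicit false

namespace Claimed.Agent.R324

open Set

theorem th_zero (f : ℝ → ℝ) : th f 0 = 0 := by simp [th]

theorem bPQ_zero (w : ℝ → ℝ) : bPQ w 0 = (0, 0) := by simp [bPQ, bP, th]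

variable {q : ℝ} {γ : ℝ → ℝ × ℝ} {w z : ℝ → ℝ}

theorem IsProfile.eqH (hq : 100 ≤ q) (h : IsProfile q γ w z) :
    ∀ Ξ, 0 ≤ Ξ → z Ξ = bz q (bPQ w Ξ) := by
  intro Ξ hΞ
  rcases hΞ.eq_or_lt with rfl | hpos
  · rw [bPQ_zero, h.z0]
    have h0 : q * (q - 1) ≠ 0 := by
      have : 0 < q * (q - 1) := by nlinarith
      exact this.ne'
    simp [bz, bN, bD, div_self h0]
  · rw [h.zz Ξ hpos, h.pq Ξ hpos]

theorem IsProfile.reg (hγ : IsTraj q γ) (h : IsProfile q γ w z) :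
    ∀ Ξ, 0 < Ξ → bPQ w Ξ ∈ bReg q := fun Ξ hΞ => by
  rw [h.pq Ξ hΞ]; exact hγ.mem _

theorem IsProfile.eqW (hq : 100 ≤ q) (hγ : IsTraj q γ) (h : IsProfile q γ w z) :
    ∀ Ξ, 0 ≤ Ξ → z Ξ * th (th w) Ξ + (q - 1) * th w Ξ = 2 * bP w Ξ := by
  intro Ξ hΞ
  rcases hΞ.eq_or_lt with rfl | hpos
  · simp [th_zero, bP]
  · have hev : th w =ᶠ[nhds Ξ] fun x => (fun s => (γ s).2) (Real.log x / 2) := by
      filter_upwards [Ioi_mem_nhds hpos] with x hx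
      exact congrArg Prod.snd (h.pq x hx)
    have hd : HasDerivAt (fun s => (γ s).2) (bX q (γ (Real.log Ξ / 2))).2 (Real.log Ξ / 2) :=
      (hasFDerivAt_snd (𝕜 := ℝ) (p := γ (Real.log Ξ / 2))).comp_hasDerivAt (Real.log Ξ / 2)
        (hγ.hd (Real.log Ξ / 2))
    have h1 : th (th w) Ξ = (bX q (γ (Real.log Ξ / 2))).2 := by
      rw [← th_comp_log hpos hd]
      simp only [th]
      rw [← hev.deriv_eq]
    have hz := (bReg_z hq (hγ.mem (Real.log Ξ / 2))).1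
    have hP : bP w Ξ = (γ (Real.log Ξ / 2)).1 := congrArg Prod.fst (h.pq Ξ hpos)
    have hQ : th w Ξ = (γ (Real.log Ξ / 2)).2 := congrArg Prod.snd (h.pq Ξ hpos)
    rw [h1, h.zz Ξ hpos, hP, hQ]
    have hz0 : bz q (γ (Real.log Ξ / 2)) ≠ 0 := by linarith
    simp only [bX]
    field_simp
    ring

theorem IsProfile.eqZ (hq : 100 ≤ q) (hγ : IsTraj q γ) (h : IsProfile q γ w z) :
    ∀ Ξ, 0 ≤ Ξ → th z Ξ = 2 * (q - 1) * (1 - z Ξ) - 2 * z Ξ * th w Ξ := by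
  intro Ξ hΞ
  rcases hΞ.eq_or_lt with rfl | hpos
  · simp [th_zero, h.z0]
  · have hev : z =ᶠ[nhds Ξ] fun x => (fun s => bz q (γ s)) (Real.log x / 2) := by
      filter_upwards [Ioi_mem_nhds hpos] with x hx
      exact h.zz x hx
    have hd := hasDerivAt_bz_comp (bReg_subset_bU (by linarith) (hγ.mem (Real.log Ξ / 2)))
      (hγ.hd (Real.log Ξ / 2))
    have h1 : th z Ξ = 2 * (q - 1) * (1 - bz q (γ (Real.log Ξ / 2)))
        - 2 * bz q (γ (Real.log Ξ / 2)) * (γ (Real.log Ξ / 2)).2 := by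
      rw [← th_comp_log hpos hd]
      simp only [th]
      rw [← hev.deriv_eq]
    have hQ : th w Ξ = (γ (Real.log Ξ / 2)).2 := congrArg Prod.snd (h.pq Ξ hpos)
    rw [h1, h.zz Ξ hpos, hQ]

end Claimed.Agent.R324
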