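/-
Row 324, module B (additions), file Had: Hadamard quotients of smooth functions on ℝ.   Architect: helper263.

* `hadQ f Ξ = ∫_0^1 f'(sΞ) ds`.
  `hadQ_contDiff`: `Claimed.Agent.R325.rec_average` (R325/Pk04.lean) with h (t,x) = deriv f x on the strip recS 0 1 and c = 0 gives smoothness of (t,Ξ) ↦ ∫_0^1 deriv f (0 + (Ξ-0) σ) dσ on recS 0 1;
       compose with Ξ ↦ (1/2, Ξ) (`ContDiffOn.comp` with `contDiff_const.prodMk contDiff_id`, then `contDiffOn_univ`), rewrite the integrand (0 + (Ξ-0)*σ = σ*Ξ by ring).    deriv f is smooth: `contDiff_infty_iff_deriv`.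
  `hadQ_spec`: `Claimed.Agent.R325.rec_average_eq` or directly `intervalIntegral.smul_integral_comp_mul_left`-type change of variables:  Ξ ∫_0^1 f'(sΞ) ds = ∫_0^Ξ f' = f Ξ - f 0 (`intervalIntegral.integral_deriv_eq_sub'`/`integral_eq_sub_of_hasDerivAt`).
  `hadQ_zero`: the integrand is the constant deriv f 0.
-/
import Claimed.Agent.R325.Pk04

set_option autoImplicit false

namespace Claimed.Agent.R324

open Set
open scoped ContDiff

/-- Hadamard quotient `(f Ξ - f 0)/Ξ`. -/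
noncomputable def hadQ (f : ℝ → ℝ) (Ξ : ℝ) : ℝ := ∫ s in (0 : ℝ)..1, deriv f (s * Ξ)

theorem hadQ_contDiff {f : ℝ → ℝ} (hf : ContDiff ℝ ∞ f) : ContDiff ℝ ∞ (hadQ f) := by
  have hd : ContDiff ℝ ∞ (deriv f) := (contDiff_infty_iff_deriv.1 hf).2
  have hh : ContDiffOn ℝ ∞ (fun q : ℝ × ℝ => deriv f q.2) (Claimed.Agent.R325.recS 0 1) :=
    (hd.comp contDiff_snd).contDiffOn
  have h1 := Claimed.Agent.R325.rec_average hh 0
  have h2 : ContDiffOn ℝ ∞ (fun Ξ : ℝ => ((1 / 2 : ℝ), Ξ)) univ :=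
    (contDiff_const.prodMk contDiff_id).contDiffOn
  have h3 := h1.comp h2 (fun Ξ _ => Claimed.Agent.R325.mem_recS.2 ⟨by norm_num, by norm_num⟩)
  rw [contDiffOn_univ] at h3
  have e : hadQ f = (fun w : ℝ × ℝ => ∫ σ in (0:ℝ)..1, deriv f (0 + (w.2 - 0) * σ)) ∘
      (fun Ξ : ℝ => ((1 / 2 : ℝ), Ξ)) := by
    funext Ξ
    unfold hadQ
    simp only [Function.comp_apply]
    refine intervalIntegral.integral_congr fun s _ => ?_
    congr 1
    ring
  rw [e]
  exact h3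

theorem hadQ_spec {f : ℝ → ℝ} (hf : ContDiff ℝ ∞ f) (Ξ : ℝ) : f Ξ = f 0 + Ξ * hadQ f Ξ := by
  have hd : ContDiff ℝ ∞ (deriv f) := (contDiff_infty_iff_deriv.1 hf).2
  have h1 := Claimed.Agent.R325.rec_average_eq (fun q : ℝ × ℝ => deriv f q.2) 0 0 Ξ
  have h2 : ∫ s in (0 : ℝ)..Ξ, deriv f s = f Ξ - f 0 :=
    intervalIntegral.integral_deriv_eq_sub
      (fun x _ => (hf.differentiable (by simp)).differentiableAt)
      (hd.continuous.intervalIntegrable _ _)
  have e : hadQ f Ξ = ∫ σ in (0:ℝ)..1, deriv f (0 + (Ξ - 0) * σ) := by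
    unfold hadQ
    refine intervalIntegral.integral_congr fun s _ => ?_
    congr 1
    ring
  simp only [] at h1
  rw [h2, ← e, sub_zero] at h1
  linarith

theorem hadQ_zero (f : ℝ → ℝ) : hadQ f 0 = deriv f 0 := by
  unfold hadQ
  simp

end Claimed.Agent.R324
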