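/-
Row 324, module B, file Main: assembly.   `bohm_exists : 100 ≤ q → ∃ w z, IsBohm q w z`.
PLAN OF THE MODULE (all files in Claimed/Agent/R324/Bohm/):
  Defs                                       definitions
  PowSerA, PowSerB                           real power series (generic)
  TipCoefA, TipCoefB, TipODE, TipSol         power series solution at the tip  ⟹ `exists_tip`
  TipH, TipReg, TipTraj                      Hamiltonian constraint, entering the region, integral curve in log time
  Barrier, Damped, ConvGen, GlueFn           generic ODE / gluing lemmas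
  Field, RegAlg, TrapIneq, Trap              planar field, invariant region
  Global, Profile, Eqs                       complete trajectory, global profile, equations
  Mono, Conv, Alpha, SlowK, SlowU, Slow, Decay     asymptotics at the cone
  Main                                       assembly (this file, no sorry of its own)
  SymLip, SymL, SymTh, Sym, Crude            consequences of `IsBohm` (symbol bounds O(J), O(J²); crude bounds)
-/
import Claimed.Agent.R324.Bohm.Eqs
import Claimed.Agent.R324.Bohm.Decay

set_option autoImplicit false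

namespace Claimed.Agent.R324

open Set Filter Topology

theorem IsProfile.isBohm {q : ℕ} (hq : 100 ≤ q) {γ : ℝ → ℝ × ℝ} {w z : ℝ → ℝ}
    (hγ : IsTraj q γ) (h : IsProfile q γ w z) : IsBohm q w z := by
  have hq' : (100 : ℝ) ≤ (q : ℝ) := by exact_mod_cast hq
  refine ⟨h.smw, h.smz, h.w0, h.z0, h.eqW hq' hγ, h.eqH hq', h.eqZ hq' hγ, h.reg hγ, ?_, ?_, ?_⟩
  · -- convergence
    have h1 : Tendsto (fun Ξ : ℝ => Real.log Ξ / 2) atTop atTop :=
      Real.tendsto_log_atTop.atTop_div_const (by norm_num)
    have h2 : Tendsto (fun Ξ : ℝ => γ (Real.log Ξ / 2)) atTop (𝓝 (bC q)) :=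
      (hγ.tendsto hq').comp h1
    refine h2.congr' ?_
    filter_upwards [eventually_gt_atTop (0 : ℝ)] with Ξ hΞ
    exact (h.pq Ξ hΞ).symm
  · -- slow approach
    obtain ⟨C, hC⟩ := hγ.slow hq'
    refine ⟨max C (|bE q (0, 0)| / 4), fun Ξ hΞ => ?_⟩
    rcases hΞ.eq_or_lt with rfl | hpos
    · have hJ : bJ w 0 = 2 := by simp [bJ, th]
      rw [bPQ_zero, hJ]
      have := le_max_right C (|bE q (0, 0)| / 4)
      nlinarith
    · have hJ : bJ w Ξ = 2 - (γ (Real.log Ξ / 2)).2 := by
        rw [← h.pq Ξ hpos]; rfl
      rw [h.pq Ξ hpos, hJ]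
      refine (hC _).trans ?_
      exact mul_le_mul_of_nonneg_right (le_max_left _ _) (sq_nonneg _)
  · -- decay
    obtain ⟨C, hC⟩ := hγ.decay hq'
    refine ⟨max C 2, fun Ξ hΞ => ?_⟩
    rcases hΞ.eq_or_lt with rfl | hpos
    · have hJ : bJ w 0 = 2 := by simp [bJ, th]
      rw [hJ]; simp
    · have hJ : bJ w Ξ = 2 - (γ (Real.log Ξ / 2)).2 := by
        rw [← h.pq Ξ hpos]; rfl
      have hexp : Real.exp (2 * (Real.log Ξ / 2)) = Ξ := by
        rw [mul_div_cancel₀ _ (two_ne_zero)]; exact Real.exp_log hpos
      have := hC (Real.log Ξ / 2)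
      rw [hexp] at this
      rw [hJ]
      refine this.trans ?_
      exact div_le_div_of_nonneg_right (le_max_left _ _) (by positivity)

/-- **Existence of Bohm's Ricci flat profile.** -/
theorem bohm_exists {q : ℕ} (hq : 100 ≤ q) : ∃ w z : ℝ → ℝ, IsBohm q w z := by
  have hq' : (100 : ℝ) ≤ (q : ℝ) := by exact_mod_cast hq
  obtain ⟨γ, w, z, hγ, h⟩ := exists_profile hq'
  exact ⟨w, z, h.isBohm hq hγ⟩

end Claimed.Agent.R324
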