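/-
Row 324, module B, file SymGen (generic, pure Mathlib): first and second order Taylor bounds on a compact convex subset of an open set.

* `exists_lip_on`:  G is C^∞ on the open U, so differentiable at every point of K ⊆ U (`ContDiffOn.differentiableOn`, `DifferentiableOn.differentiableAt` with `hU.mem_nhds`) and x ↦ fderiv ℝ G x is continuous on U
     (`ContDiffOn.continuousOn_fderiv_of_isOpen`), so ‖fderiv ℝ G x‖ ≤ L on the compact K (`IsCompact.exists_bound_of_continuousOn`).     `Convex.norm_image_sub_le_of_norm_fderiv_le`.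
* `exists_taylor2_on`:  x ↦ fderiv ℝ G x is C^∞ on U (`ContDiffOn.fderiv_of_isOpen`), so by `exists_lip_on` (with values in E →L[ℝ] F) ‖fderiv ℝ G x - fderiv ℝ G c‖ ≤ M ‖x - c‖ on K.
     For p ∈ K apply `Convex.norm_image_sub_le_of_norm_fderiv_le'` (φ := fderiv ℝ G c) on the convex set  K ∩ closedBall c ‖p - c‖  with the constant M ‖p - c‖:
        ‖G p - G c - fderiv ℝ G c (p - c)‖ ≤ M ‖p - c‖ * ‖p - c‖.       (Model: `Claimed.Agent.R213.Flow.norm_taylor_two_le` in R213/Flow/Prolong.lean.)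
-/
import Mathlib

set_option autoImplicit false

namespace Claimed.Agent.R324

open Set
open scoped ContDiff

variable {E F : Type*} [NormedAddCommGroup E] [NormedSpace ℝ E] [NormedAddCommGroup F]
  [NormedSpace ℝ F]

theorem exists_lip_on {U K : Set E} (hU : IsOpen U) (hK : IsCompact K) (hKc : Convex ℝ K)
    (hKU : K ⊆ U) {G : E → F} (hG : ContDiffOn ℝ ∞ G U) :
    ∃ L : ℝ, 0 ≤ L ∧ ∀ x ∈ K, ∀ y ∈ K, ‖G y - G x‖ ≤ L * ‖y - x‖ := by
  have hd : ∀ x ∈ K, DifferentiableAt ℝ G x := fun x hx =>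
    (hG.differentiableOn (by simp)).differentiableAt (hU.mem_nhds (hKU hx))
  have hc : ContinuousOn (fderiv ℝ G) K :=
    (hG.continuousOn_fderiv_of_isOpen hU (by simp)).mono hKU
  obtain ⟨L, hL⟩ := hK.exists_bound_of_continuousOn hc
  refine ⟨max L 0, le_max_right _ _, fun x hx y hy => ?_⟩
  exact hKc.norm_image_sub_le_of_norm_fderiv_le hd
    (fun z hz => (hL z hz).trans (le_max_left _ _)) hx hy

theorem exists_taylor2_on {U K : Set E} (hU : IsOpen U) (hK : IsCompact K) (hKc : Convex ℝ K)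
    (hKU : K ⊆ U) {G : E → F} (hG : ContDiffOn ℝ ∞ G U) {c : E} (hc : c ∈ K) :
    ∃ M : ℝ, 0 ≤ M ∧ ∀ p ∈ K, ‖G p - G c - fderiv ℝ G c (p - c)‖ ≤ M * ‖p - c‖ ^ 2 := by
  have hd : ∀ x ∈ K, DifferentiableAt ℝ G x := fun x hx =>
    (hG.differentiableOn (by simp)).differentiableAt (hU.mem_nhds (hKU hx))
  have hG' : ContDiffOn ℝ ∞ (fderiv ℝ G) U := hG.fderiv_of_isOpen hU (by simp)
  obtain ⟨M, hM0, hM⟩ := exists_lip_on hU hK hKc hKU hG'
  refine ⟨M, hM0, fun p hp => ?_⟩
  have hconv : Convex ℝ (K ∩ Metric.closedBall c ‖p - c‖) :=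
    hKc.inter (convex_closedBall c _)
  have hcm : c ∈ K ∩ Metric.closedBall c ‖p - c‖ :=
    ⟨hc, Metric.mem_closedBall_self (norm_nonneg _)⟩
  have hpm : p ∈ K ∩ Metric.closedBall c ‖p - c‖ :=
    ⟨hp, by rw [Metric.mem_closedBall, dist_eq_norm]⟩
  have h := hconv.norm_image_sub_le_of_norm_fderiv_le' (φ := fderiv ℝ G c) (C := M * ‖p - c‖)
    (fun x hx => hd x hx.1)
    (fun x hx => by
      refine (hM c hc x hx.1).trans ?_
      have : ‖x - c‖ ≤ ‖p - c‖ := by
        have := hx.2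
        rwa [Metric.mem_closedBall, dist_eq_norm] at this
      exact mul_le_mul_of_nonneg_left this hM0) hcm hpm
  calc ‖G p - G c - fderiv ℝ G c (p - c)‖ ≤ M * ‖p - c‖ * ‖p - c‖ := h
    _ = M * ‖p - c‖ ^ 2 := by ring

end Claimed.Agent.R324
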