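/-
Row 324, module B, file SymLip: functions of (P,Q) which vanish at the cone point are O(J) on the closed triangle; if moreover the derivative kills the slow eigenvector they are O(|e| + J²).

n = q-1, p = (P,Q), a = n-P, J = 2-Q;  on bTriC:  0 ≤ 2a ≤ nJ (`bTriC_facts`).
* `bC_mem_bTriC`, `zero_mem_bTriC`: unfold; (2(q-1)/(q-1) = 2: `field_simp`).
* `norm_sub_bC_le`: ‖p - bC q‖ = max |P-n| |Q-2| = max a J  (`Prod.norm_def`, `Real.norm_eq_abs`, `max_le`, `abs_le`) ≤ (n/2+1) J.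
* `exists_lin_bound`: `exists_lip_on (isOpen_bU q) (isCompact_bTriC hq) (convex_bTriC hq) (bTriC_subset_bU hq) hG` with x = bC q:  |G p| = |G p - G (bC q)| ≤ L ‖p - bC q‖ ≤ L (n/2+1) J.
* `exists_quad_bound`: `exists_taylor2_on` with c = bC q:  |G p - dG(p - c)| ≤ M ‖p-c‖² ≤ M (n/2+1)² J².
      p - c = (-a, -J) = bE q p • (1,0) - J • bXi q       [bXi q = (n/α, 1), bE q p = -a + (n/α) J;  `Prod.ext`, `simp`, `ring`],
      so dG (p-c) = bE q p * dG (1,0) - J * dG (bXi q) = bE q p * dG (1,0)   (`map_sub`, `map_smul`),     |G p| ≤ |dG (1,0)| |bE q p| + M (n/2+1)² J².       C := max of the two constants.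
-/
import Claimed.Agent.R324.Bohm.RegAlg
import Claimed.Agent.R324.Bohm.SymGen

set_option autoImplicit false

namespace Claimed.Agent.R324

open Set
open scoped ContDiff

variable {q : ℝ}

theorem bC_mem_bTriC (hq : 1 < q) : bC q ∈ bTriC q := by
  have hn : q - 1 ≠ 0 := by linarith
  refine ⟨?_, ?_, ?_, ?_⟩
  · show (0 : ℝ) ≤ q - 1
    linarith
  · show (0 : ℝ) ≤ 2
    norm_num
  · show (2 : ℝ) ≤ 2 * (q - 1) / (q - 1)
    rw [mul_div_assoc, div_self hn]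
    norm_num
  · show 2 + 4 / (q - 1) * ((q - 1) - (q - 1)) ≤ (2 : ℝ)
    simp

theorem zero_mem_bTriC (hq : 1 < q) : ((0 : ℝ), (0 : ℝ)) ∈ bTriC q := by
  have hn : q - 1 ≠ 0 := by linarith
  refine ⟨?_, ?_, ?_, ?_⟩
  · show (0 : ℝ) ≤ 0
    exact le_rfl
  · show (0 : ℝ) ≤ 0
    exact le_rfl
  · show (0 : ℝ) ≤ 2 * 0 / (q - 1)
    simp
  · show 2 + 4 / (q - 1) * (0 - (q - 1)) ≤ (0 : ℝ)
    have : 4 / (q - 1) * (0 - (q - 1)) = -4 := by
      field_simp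
      ring
    rw [this]
    norm_num

theorem norm_sub_bC_le (hq : 1 < q) {p : ℝ × ℝ} (hp : p ∈ bTriC q) :
    ‖p - bC q‖ ≤ ((q - 1) / 2 + 1) * (2 - p.2) := by
  obtain ⟨f1, f2, f3, -⟩ := bTriC_facts hq hp
  have hn : 0 < q - 1 := by linarith
  rw [Prod.norm_def]
  refine max_le ?_ ?_
  · show ‖p.1 - (q - 1)‖ ≤ _
    rw [Real.norm_eq_abs, abs_le]
    constructor <;> nlinarith
  · show ‖p.2 - 2‖ ≤ _
    rw [Real.norm_eq_abs, abs_le]
    constructor <;> nlinarith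

theorem exists_lin_bound (hq : 1 < q) {G : ℝ × ℝ → ℝ} (hG : ContDiffOn ℝ ∞ G (bU q))
    (h0 : G (bC q) = 0) : ∃ C : ℝ, ∀ p ∈ bTriC q, |G p| ≤ C * (2 - p.2) := by
  obtain ⟨L, hL0, hL⟩ := exists_lip_on (isOpen_bU q) (isCompact_bTriC hq) (convex_bTriC hq)
    (bTriC_subset_bU hq) hG
  refine ⟨L * ((q - 1) / 2 + 1), fun p hp => ?_⟩
  have h1 := hL (bC q) (bC_mem_bTriC hq) p hp
  rw [h0, sub_zero, Real.norm_eq_abs] at h1
  calc |G p| ≤ L * ‖p - bC q‖ := h1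
    _ ≤ L * (((q - 1) / 2 + 1) * (2 - p.2)) :=
        mul_le_mul_of_nonneg_left (norm_sub_bC_le hq hp) hL0
    _ = L * ((q - 1) / 2 + 1) * (2 - p.2) := by ring

theorem exists_quad_bound (hq : 1 < q) {G : ℝ × ℝ → ℝ} (hG : ContDiffOn ℝ ∞ G (bU q))
    (h0 : G (bC q) = 0) (h1 : fderiv ℝ G (bC q) (bXi q) = 0) :
    ∃ C : ℝ, 0 ≤ C ∧ ∀ p ∈ bTriC q, |G p| ≤ C * (|bE q p| + (2 - p.2) ^ 2) := by
  obtain ⟨M, hM0, hM⟩ := exists_taylor2_on (isOpen_bU q) (isCompact_bTriC hq) (convex_bTriC hq)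
    (bTriC_subset_bU hq) hG (bC_mem_bTriC hq)
  obtain ⟨d, hd⟩ : ∃ d : ℝ, d = fderiv ℝ G (bC q) ((1 : ℝ), (0 : ℝ)) := ⟨_, rfl⟩
  obtain ⟨B, hB⟩ : ∃ B : ℝ, B = M * ((q - 1) / 2 + 1) ^ 2 := ⟨_, rfl⟩
  have hB0 : 0 ≤ B := by rw [hB]; positivity
  refine ⟨max |d| B, le_max_of_le_left (abs_nonneg d), fun p hp => ?_⟩
  obtain ⟨f1, f2, f3, -⟩ := bTriC_facts hq hp
  have hdec : p - bC q = bE q p • ((1 : ℝ), (0 : ℝ)) - (2 - p.2) • bXi q := by
    ext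
    · simp only [bC, bE, bXi, Prod.fst_sub, Prod.smul_fst, smul_eq_mul]
      ring
    · simp only [bC, bE, bXi, Prod.snd_sub, Prod.smul_snd, smul_eq_mul]
      ring
  have hlin : fderiv ℝ G (bC q) (p - bC q) = bE q p * d := by
    rw [hdec, map_sub, map_smul, map_smul, h1, smul_zero, sub_zero, smul_eq_mul, hd]
  have h2 := hM p hp
  rw [h0, sub_zero, hlin, Real.norm_eq_abs] at h2
  have h3 : ‖p - bC q‖ ^ 2 ≤ (((q - 1) / 2 + 1) * (2 - p.2)) ^ 2 :=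
    pow_le_pow_left₀ (norm_nonneg _) (norm_sub_bC_le hq hp) 2
  have h4 : |G p| ≤ |bE q p * d| + |G p - bE q p * d| := by
    have := abs_add_le (bE q p * d) (G p - bE q p * d)
    rwa [add_sub_cancel] at this
  have h5 : |G p - bE q p * d| ≤ B * (2 - p.2) ^ 2 := by
    calc |G p - bE q p * d| ≤ M * ‖p - bC q‖ ^ 2 := h2
      _ ≤ M * (((q - 1) / 2 + 1) * (2 - p.2)) ^ 2 := mul_le_mul_of_nonneg_left h3 hM0
      _ = B * (2 - p.2) ^ 2 := by rw [hB]; ring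
  have h6 : |bE q p * d| = |d| * |bE q p| := by rw [abs_mul, mul_comm]
  have h7 : |d| * |bE q p| ≤ max |d| B * |bE q p| :=
    mul_le_mul_of_nonneg_right (le_max_left _ _) (abs_nonneg _)
  have h8 : B * (2 - p.2) ^ 2 ≤ max |d| B * (2 - p.2) ^ 2 :=
    mul_le_mul_of_nonneg_right (le_max_right _ _) (sq_nonneg _)
  rw [mul_add]
  linarith

end Claimed.Agent.R324
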