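/-
Row 324, module B, file SymL: the two symbol classes are stable under the Lie derivative bL q G = dG (bX q).

n = q-1, m = q+1, α = bAl q, c = bC q = (n, 2), ξ = bXi q = (n/α, 1).
* `contDiffOn_bL`: p ↦ fderiv ℝ G p is C^∞ on the open bU (`ContDiffOn.fderiv_of_isOpen hG (isOpen_bU q) (by simp)`-type lemma), bX is C^∞ on bU; `ContDiffOn.clm_apply`.
* `bX_bC`: first component n (2-2) = 0, second (2n - n 2)/z = 0.     `bX_zero`: (0 (2-0), (0-0)/z) = 0.
* `bL_bC`, `bL_zero`: dG 0 = 0 (`map_zero`).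
* `bz_bC`: bN = qn+2n = n(q+2), bD = qn + 4q + 2 = (q+1)(q+2).
* `fderiv_bX_bC`: bX is differentiable at c ∈ bU.  Componentwise (`HasFDerivAt.prodMk`/`hasFDerivAt_prodMk..`, or compute the line derivative t ↦ bX q (c + t • ξ) at t = 0 and use `HasFDerivAt.comp_hasDerivAt`):
      d[P(2-Q)](δP,δQ) = δP (2-Q) - P δQ = -n δQ at c;       d[(2P-nQ)/z] = (2δP - nδQ)/z(c) - (2P-nQ) dz/z² = (2δP-nδQ) m/n at c (the numerator vanishes at c).
      For ξ:  (-n, (2n/α - n) m/n) = (-n, -m (1-2/α)) = (-n, -α) = -α • ξ      (`bAl_rate`).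
      Suggestion for the second component: it is the product (2P-nQ) * (bz q p)⁻¹ with first factor vanishing at c: `HasFDerivAt.mul`, then simp with the value 0.
* `fderiv_bL_bC`: bL q G = fun p => (fderiv ℝ G p) (bX q p);  `HasFDerivAt.clm_apply`:  d(bL G)(c) ξ = (d(fderiv G)(c) ξ)(bX q c) + fderiv G c (d bX (c) ξ) = 0 + fderiv G c (-α • ξ) = -α * 0 = 0.
-/
import Claimed.Agent.R324.Bohm.SymLip
import Claimed.Agent.R324.Bohm.Alpha

set_option autoImplicit false

namespace Claimed.Agent.R324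

open Set
open scoped ContDiff

variable {q : ℝ}

theorem contDiffOn_bL {G : ℝ × ℝ → ℝ} (hG : ContDiffOn ℝ ∞ G (bU q)) :
    ContDiffOn ℝ ∞ (bL q G) (bU q) := by
  have h1 : ContDiffOn ℝ ∞ (fderiv ℝ G) (bU q) :=
    hG.fderiv_of_isOpen (isOpen_bU q) (by simp)
  exact h1.clm_apply (contDiffOn_bX q)

theorem bX_bC (q : ℝ) : bX q (bC q) = 0 := by
  unfold bX bC
  refine Prod.ext ?_ ?_
  · simp
  · have : 2 * (q - 1) - (q - 1) * 2 = 0 := by ring
    simp [this]

theorem bX_zero (q : ℝ) : bX q (0, 0) = 0 := by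
  unfold bX
  refine Prod.ext ?_ ?_ <;> simp

theorem bL_bC (q : ℝ) (G : ℝ × ℝ → ℝ) : bL q G (bC q) = 0 := by
  unfold bL; rw [bX_bC]; simp

theorem bL_zero (q : ℝ) (G : ℝ × ℝ → ℝ) : bL q G (0, 0) = 0 := by
  unfold bL; rw [bX_zero]; simp

theorem bz_bC (hq : 1 < q) : bz q (bC q) = (q - 1) / (q + 1) := by
  unfold bz bN bD bC
  have h1 : q + 1 ≠ 0 := by linarith
  have h2 : q * (q - 1) + 2 * q * 2 + (2 : ℝ) ^ 2 / 2 ≠ 0 := by nlinarith
  simp only
  rw [div_eq_div_iff h2 h1]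
  ring

theorem bC_mem_bU_symL (hq : 1 < q) : bC q ∈ bU q := by
  unfold bU bC bN bD
  constructor
  · simp only
    nlinarith
  · simp only
    nlinarith

theorem fderiv_bX_bC (hq : 100 ≤ q) : fderiv ℝ (bX q) (bC q) (bXi q) = -bAl q • bXi q := by
  have hq1 : 1 < q := by linarith
  have hcU : bC q ∈ bU q := bC_mem_bU_symL hq1
  have hnhds : bU q ∈ nhds (bC q) := (isOpen_bU q).mem_nhds hcU
  have hXd : DifferentiableAt ℝ (bX q) (bC q) :=
    ((contDiffOn_bX q).differentiableOn (by simp) (bC q) hcU).differentiableAt hnhds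
  have hzd : DifferentiableAt ℝ (bz q) (bC q) :=
    ((contDiffOn_bz q).differentiableOn (by simp) (bC q) hcU).differentiableAt hnhds
  -- the line
  have hline : HasDerivAt (fun t : ℝ => bC q + t • bXi q) (bXi q) 0 := by
    have h := ((hasDerivAt_id (0 : ℝ)).smul_const (bXi q)).const_add (bC q)
    simpa using h
  have hl0 : bC q + (0 : ℝ) • bXi q = bC q := by simp
  have h1 : HasDerivAt (fun t : ℝ => bX q (bC q + t • bXi q)) (fderiv ℝ (bX q) (bC q) (bXi q)) 0 := by
    have h := hXd.hasFDerivAt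
    rw [← hl0] at h
    have h' := h.comp_hasDerivAt (0 : ℝ) hline
    rw [hl0] at h'
    exact h'
  have hz : HasDerivAt (fun t : ℝ => bz q (bC q + t • bXi q)) (fderiv ℝ (bz q) (bC q) (bXi q)) 0 := by
    have h := hzd.hasFDerivAt
    rw [← hl0] at h
    have h' := h.comp_hasDerivAt (0 : ℝ) hline
    rw [hl0] at h'
    exact h'
  obtain ⟨ha2, _⟩ := bAl_bounds hq
  have hane : bAl q ≠ 0 := by linarith
  have hz0 : bz q (bC q + (0 : ℝ) • bXi q) = (q - 1) / (q + 1) := by rw [hl0, bz_bC hq1]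
  have hz0ne : bz q (bC q + (0 : ℝ) • bXi q) ≠ 0 := by
    rw [hz0]
    exact div_ne_zero (by linarith) (by linarith)
  -- first component
  have hA : HasDerivAt (fun t : ℝ => ((q - 1) + t * ((q - 1) / bAl q)) * (2 - (2 + t * 1)))
      (-(q - 1)) 0 := by
    have e1 : HasDerivAt (fun t : ℝ => (q - 1) + t * ((q - 1) / bAl q)) ((q - 1) / bAl q) 0 := by
      simpa using ((hasDerivAt_id (0 : ℝ)).mul_const ((q - 1) / bAl q)).const_add (q - 1)
    have e2 : HasDerivAt (fun t : ℝ => 2 - (2 + t * 1)) (-1) 0 := by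
      simpa using (((hasDerivAt_id (0 : ℝ)).mul_const (1 : ℝ)).const_add (2 : ℝ)).const_sub (2 : ℝ)
    have e3 := e1.mul e2
    refine HasDerivAt.congr_deriv e3 ?_
    ring
  -- second component
  have hB : HasDerivAt (fun t : ℝ => (2 * ((q - 1) + t * ((q - 1) / bAl q)) - (q - 1) * (2 + t * 1))
      / bz q (bC q + t • bXi q)) (-bAl q) 0 := by
    have e1 : HasDerivAt (fun t : ℝ => 2 * ((q - 1) + t * ((q - 1) / bAl q)) - (q - 1) * (2 + t * 1))
        (2 * ((q - 1) / bAl q) - (q - 1)) 0 := by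
      have f1 : HasDerivAt (fun t : ℝ => (q - 1) + t * ((q - 1) / bAl q)) ((q - 1) / bAl q) 0 := by
        simpa using ((hasDerivAt_id (0 : ℝ)).mul_const ((q - 1) / bAl q)).const_add (q - 1)
      have f2 : HasDerivAt (fun t : ℝ => 2 + t * 1) (1 : ℝ) 0 := by
        simpa using ((hasDerivAt_id (0 : ℝ)).mul_const (1 : ℝ)).const_add (2 : ℝ)
      have f3 := (f1.const_mul (2 : ℝ)).sub (f2.const_mul (q - 1))
      refine HasDerivAt.congr_deriv f3 ?_
      ring
    have e2 := e1.div hz hz0ne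
    refine HasDerivAt.congr_deriv e2 ?_
    rw [hz0]
    have hr := bAl_rate hq
    have hn : q - 1 ≠ 0 := by linarith
    have hm : q + 1 ≠ 0 := by linarith
    have hr' : (q + 1) * (bAl q - 2) = bAl q * bAl q := by
      have : (q + 1) * (1 - 2 / bAl q) * bAl q = bAl q * bAl q := by rw [hr]
      rw [← this]
      field_simp
    field_simp
    nlinarith
  have h2 : HasDerivAt (fun t : ℝ => bX q (bC q + t • bXi q)) (-bAl q • bXi q) 0 := by
    have h := hA.prodMk hB
    have e : (-bAl q • bXi q) = (-(q - 1), -bAl q) := by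
      unfold bXi
      refine Prod.ext ?_ ?_
      · simp
        field_simp
        ring
      · simp
    rw [e]
    refine h.congr_of_eventuallyEq (Filter.Eventually.of_forall fun t => ?_)
    simp [bX, bC, bXi]
  exact h1.unique h2

theorem fderiv_bL_bC (hq : 100 ≤ q) {G : ℝ × ℝ → ℝ} (hG : ContDiffOn ℝ ∞ G (bU q))
    (h1 : fderiv ℝ G (bC q) (bXi q) = 0) : fderiv ℝ (bL q G) (bC q) (bXi q) = 0 := by
  have hq1 : 1 < q := by linarith
  have hcU : bC q ∈ bU q := bC_mem_bU_symL hq1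
  have hnhds : bU q ∈ nhds (bC q) := (isOpen_bU q).mem_nhds hcU
  have hXd : DifferentiableAt ℝ (bX q) (bC q) :=
    ((contDiffOn_bX q).differentiableOn (by simp) (bC q) hcU).differentiableAt hnhds
  have hG1 : ContDiffOn ℝ ∞ (fderiv ℝ G) (bU q) :=
    hG.fderiv_of_isOpen (isOpen_bU q) (by simp)
  have hGd : DifferentiableAt ℝ (fderiv ℝ G) (bC q) :=
    (hG1.differentiableOn (by simp) (bC q) hcU).differentiableAt hnhds
  have h := hGd.hasFDerivAt.clm_apply hXd.hasFDerivAt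
  have h' : fderiv ℝ (bL q G) (bC q) = _ := h.fderiv
  rw [h']
  simp [fderiv_bX_bC hq, bX_bC, h1]

end Claimed.Agent.R324
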