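/-
Row 324, module B, file SymTh: th^j of a function of (P,Q) along a Bohm profile.

* `th_congr`: Ξ = 0: both sides are 0 (th f 0 = 2*0*_).   Ξ > 0: f = g on the open set Ioi 0 ∋ Ξ, so deriv f Ξ = deriv g Ξ (`Filter.EventuallyEq.deriv_eq`, `Ioi_mem_nhds`).
* `th_iter_congr`: induction on j, generalising f g:  th^[j+1] f = th^[j] (th f) (`Function.iterate_succ_apply`), use `th_congr`.
* `IsBohm.th_comp`:  Ξ = 0: th _ 0 = 0 and bPQ w 0 = (0,0), `bL_zero`.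
     Ξ > 0:  bPQ w = (bP w, th w) is differentiable at Ξ (w smooth:  `th_bP` from TipTraj;  th w = 2 Ξ w', w' = deriv w differentiable since w is C^∞: `ContDiff.differentiable_deriv`/`ContDiff.iterate_deriv`…),
       with  2Ξ * (bPQ w)'(Ξ) = (th (bP w) Ξ, th (th w) Ξ) = (P(2-Q), (2P-(q-1)Q)/z) = bX q (bPQ w Ξ):    `th_bP`;  eqW, eqH (z Ξ = bz q (bPQ w Ξ) > 0 by `bReg_z`).
       G is differentiable at bPQ w Ξ ∈ bReg ⊆ bU (open);  chain rule `HasFDerivAt.comp_hasDerivAt`:   deriv (G ∘ bPQ w) Ξ = dG ((bPQ w)' Ξ);   multiply by 2Ξ (`map_smul`).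
* `IsBohm.th_iter_comp`: induction on j generalising G (G ↦ bL q G stays C^∞ on bU: `contDiffOn_bL`):   th^[j+1] (G∘bPQ w) = th^[j] (th (G∘bPQ w)) = th^[j] ((bL q G)∘bPQ w) on Ξ ≥ 0 by `th_iter_congr` + `th_comp`;
     (bL q)^[j+1] G = (bL q)^[j] (bL q G).
-/
import Claimed.Agent.R324.Bohm.SymL
import Claimed.Agent.R324.Bohm.TipTraj

set_option autoImplicit false

namespace Claimed.Agent.R324

open Set
open scoped ContDiff

theorem th_congr {f g : ℝ → ℝ} (h : ∀ Ξ, 0 ≤ Ξ → f Ξ = g Ξ) : ∀ Ξ, 0 ≤ Ξ → th f Ξ = th g Ξ := by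
  intro Ξ hΞ
  unfold th
  rcases hΞ.eq_or_lt with h0 | h0
  · rw [← h0]; simp
  · have he : f =ᶠ[nhds Ξ] g := by
      filter_upwards [Ioi_mem_nhds h0] with x hx
      exact h x (le_of_lt hx)
    rw [he.deriv_eq]

theorem th_iter_congr {f g : ℝ → ℝ} (h : ∀ Ξ, 0 ≤ Ξ → f Ξ = g Ξ) (j : ℕ) :
    ∀ Ξ, 0 ≤ Ξ → th^[j] f Ξ = th^[j] g Ξ := by
  induction j generalizing f g with
  | zero => exact h
  | succ j ih =>
    intro Ξ hΞ
    rw [Function.iterate_succ_apply, Function.iterate_succ_apply]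
    exact ih (th_congr h) Ξ hΞ

variable {q : ℕ} {w z : ℝ → ℝ}

theorem IsBohm.th_comp (hq : 100 ≤ q) (h : IsBohm q w z) {G : ℝ × ℝ → ℝ}
    (hG : ContDiffOn ℝ ∞ G (bU q)) :
    ∀ Ξ, 0 ≤ Ξ → th (fun x => G (bPQ w x)) Ξ = bL q G (bPQ w Ξ) := by
  intro Ξ hΞ
  have hq' : (100 : ℝ) ≤ (q : ℝ) := by exact_mod_cast hq
  rcases hΞ.eq_or_lt with h0 | h0
  · rw [← h0]
    have e1 : bPQ w 0 = (0, 0) := by
      unfold bPQ bP th
      simp
    rw [e1, bL_zero]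
    unfold th
    simp
  · have hwd : DifferentiableAt ℝ w Ξ := h.smw.differentiable (by simp) Ξ
    have hdw : ContDiff ℝ ∞ (deriv w) := by
      have := (contDiff_infty_iff_deriv.1 h.smw).2
      exact this
    have hdwd : DifferentiableAt ℝ (deriv w) Ξ := hdw.differentiable (by simp) Ξ
    have hthd : DifferentiableAt ℝ (th w) Ξ := by
      unfold th
      exact ((differentiableAt_const (2 : ℝ)).mul differentiableAt_id).mul hdwd
    obtain ⟨hPd, hPe⟩ := th_bP hwd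
    have hmem : bPQ w Ξ ∈ bReg (q : ℝ) := h.reg Ξ h0
    have hU : bPQ w Ξ ∈ bU (q : ℝ) := bReg_subset_bU (by linarith) hmem
    have hzpos : 0 < bz (q : ℝ) (bPQ w Ξ) := by linarith [(bReg_z hq' hmem).1]
    have hzH : z Ξ = bz (q : ℝ) (bPQ w Ξ) := h.eqH Ξ hΞ
    have hW := h.eqW Ξ hΞ
    have e2 : th (th w) Ξ = (2 * bP w Ξ - ((q : ℝ) - 1) * th w Ξ) / bz (q : ℝ) (bPQ w Ξ) := by
      rw [eq_div_iff hzpos.ne', ← hzH]
      linarith
    have hX : bX (q : ℝ) (bPQ w Ξ) = (th (bP w) Ξ, th (th w) Ξ) := by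
      rw [hPe, e2]
      rfl
    have hpq : HasDerivAt (bPQ w) (deriv (bP w) Ξ, deriv (th w) Ξ) Ξ :=
      hPd.hasDerivAt.prodMk hthd.hasDerivAt
    have hGd : DifferentiableAt ℝ G (bPQ w Ξ) :=
      (hG.contDiffAt ((isOpen_bU (q : ℝ)).mem_nhds hU)).differentiableAt (by simp)
    have hcomp := hGd.hasFDerivAt.comp_hasDerivAt Ξ hpq
    have hder : deriv (fun x => G (bPQ w x)) Ξ =
        fderiv ℝ G (bPQ w Ξ) (deriv (bP w) Ξ, deriv (th w) Ξ) := hcomp.deriv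
    unfold bL
    rw [hX]
    show 2 * Ξ * deriv (fun x => G (bPQ w x)) Ξ = _
    rw [hder]
    have e3 : (th (bP w) Ξ, th (th w) Ξ) = (2 * Ξ) • (deriv (bP w) Ξ, deriv (th w) Ξ) := by
      unfold th
      simp [Prod.smul_mk]
    rw [e3, map_smul, smul_eq_mul]

theorem IsBohm.th_iter_comp (hq : 100 ≤ q) (h : IsBohm q w z) {G : ℝ × ℝ → ℝ}
    (hG : ContDiffOn ℝ ∞ G (bU q)) (j : ℕ) :
    ∀ Ξ, 0 ≤ Ξ → th^[j] (fun x => G (bPQ w x)) Ξ = (bL q)^[j] G (bPQ w Ξ) := by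
  induction j generalizing G with
  | zero => intro Ξ _; rfl
  | succ j ih =>
    intro Ξ hΞ
    rw [Function.iterate_succ_apply, Function.iterate_succ_apply]
    rw [th_iter_congr (h.th_comp hq hG) j Ξ hΞ]
    exact ih (contDiffOn_bL hG) Ξ hΞ

end Claimed.Agent.R324
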