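/-
Row 324, module B (additions), file Ext: a Bohm profile with z > 0 on ALL of ℝ, Hadamard quotients.   Architect: helper263.

* `IsBohm.exists_pos_ext`:  z is continuous, z 0 = 1  ⟹  ∃ δ > 0, z > 1/2 on (-δ, δ);  for Ξ ≥ 0: z Ξ > 1/2 (`IsBohm.crude_pos`, and z 0 = 1).
     χ(Ξ) := Real.smoothTransition (2 + 2Ξ/δ):  smooth (`Real.smoothTransition.contDiff`), values in [0,1], = 1 for Ξ ≥ -δ/2 (`Real.smoothTransition.one_of_one_le`), = 0 for Ξ ≤ -δ (`zero_of_nonpos`).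
     z' := χ z + (1 - χ).    z' > 0:  Ξ ≤ -δ: z' = 1;   Ξ > -δ: z Ξ > 1/2 so z' ≥ min(z,1) > 0 (convex combination: nlinarith).     z' = z on [-δ/2, ∞) ⊇ [0,∞).
     IsBohm q w z': every field only involves z on Ξ ≥ 0 pointwise, except `eqZ` where th z' Ξ = th z Ξ for Ξ ≥ 0 by `th_congr` (Bohm/SymTh.lean).
* `bohm_exists_pos`: `bohm_exists` + `exists_pos_ext`.
* `bl z` = Hadamard quotient of log z.   `bl_contDiff`: log ∘ z smooth because z > 0 (`ContDiff.log`).   `bl_spec`: `hadQ_spec`, log (z 0) = log 1 = 0.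
-/
import Claimed.Agent.R324.Bohm.Main
import Claimed.Agent.R324.Bohm.SymTh
import Claimed.Agent.R324.Bohm.Crude
import Claimed.Agent.R324.Bohm.Had

set_option autoImplicit false

namespace Claimed.Agent.R324

open Set
open scoped ContDiff

variable {q : ℕ} {w z : ℝ → ℝ}

theorem IsBohm.exists_pos_ext (hq : 100 ≤ q) (h : IsBohm q w z) :
    ∃ z' : ℝ → ℝ, IsBohm q w z' ∧ (∀ Ξ, 0 < z' Ξ) ∧ ∀ Ξ, 0 ≤ Ξ → z' Ξ = z Ξ := by
  have hc : ContinuousAt z 0 := h.smz.continuous.continuousAt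
  have hev : ∀ᶠ Ξ in nhds (0 : ℝ), 1 / 2 < z Ξ := by
    refine hc.eventually (lt_mem_nhds ?_)
    rw [h.z0]
    norm_num
  obtain ⟨δ, hδ, hball⟩ := Metric.eventually_nhds_iff.1 hev
  have hhalf : ∀ Ξ, -δ < Ξ → 1 / 2 < z Ξ := by
    intro Ξ hΞ
    rcases lt_or_ge Ξ δ with h1 | h1
    · refine hball ?_
      rw [Real.dist_eq, sub_zero, abs_lt]
      exact ⟨hΞ, h1⟩
    · exact (h.crude_pos hq (lt_of_lt_of_le hδ h1)).2.2.2.2.2.2.1
  obtain ⟨χ, hχ⟩ : ∃ χ : ℝ → ℝ, χ = fun Ξ => Real.smoothTransition (2 + 2 * Ξ / δ) := ⟨_, rfl⟩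
  have hχs : ContDiff ℝ ∞ χ := by
    rw [hχ]
    refine Real.smoothTransition.contDiff.comp ?_
    fun_prop
  have hχ0 : ∀ Ξ, 0 ≤ χ Ξ := fun Ξ => by rw [hχ]; exact Real.smoothTransition.nonneg _
  have hχ1 : ∀ Ξ, χ Ξ ≤ 1 := fun Ξ => by rw [hχ]; exact Real.smoothTransition.le_one _
  have hχone : ∀ Ξ, 0 ≤ Ξ → χ Ξ = 1 := by
    intro Ξ hΞ
    rw [hχ]
    refine Real.smoothTransition.one_of_one_le ?_
    have : 0 ≤ 2 * Ξ / δ := by positivity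
    linarith
  have hχzero : ∀ Ξ, Ξ ≤ -δ → χ Ξ = 0 := by
    intro Ξ hΞ
    rw [hχ]
    refine Real.smoothTransition.zero_of_nonpos ?_
    have : 2 * Ξ / δ ≤ -2 := by
      rw [div_le_iff₀ hδ]
      linarith
    linarith
  have heq : ∀ Ξ, 0 ≤ Ξ → χ Ξ * z Ξ + (1 - χ Ξ) = z Ξ := by
    intro Ξ hΞ
    rw [hχone Ξ hΞ]
    ring
  refine ⟨fun Ξ => χ Ξ * z Ξ + (1 - χ Ξ), ?_, ?_, heq⟩
  · exact
      { smw := h.smw
        smz := (hχs.mul h.smz).add (contDiff_const.sub hχs)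
        w0 := h.w0
        z0 := by
          show χ 0 * z 0 + (1 - χ 0) = 1
          rw [heq 0 le_rfl, h.z0]
        eqW := fun Ξ hΞ => by
          show (χ Ξ * z Ξ + (1 - χ Ξ)) * th (th w) Ξ + ((q : ℝ) - 1) * th w Ξ = 2 * bP w Ξ
          rw [heq Ξ hΞ]
          exact h.eqW Ξ hΞ
        eqH := fun Ξ hΞ => by
          show χ Ξ * z Ξ + (1 - χ Ξ) = bz q (bPQ w Ξ)
          rw [heq Ξ hΞ]
          exact h.eqH Ξ hΞ
        eqZ := fun Ξ hΞ => by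
          rw [th_congr heq Ξ hΞ]
          show th z Ξ = 2 * ((q : ℝ) - 1) * (1 - (χ Ξ * z Ξ + (1 - χ Ξ))) - 2 * (χ Ξ * z Ξ + (1 - χ Ξ)) * th w Ξ
          rw [heq Ξ hΞ]
          exact h.eqZ Ξ hΞ
        reg := h.reg
        lim := h.lim
        slow := h.slow
        decay := h.decay }
  · intro Ξ
    show 0 < χ Ξ * z Ξ + (1 - χ Ξ)
    rcases le_or_gt Ξ (-δ) with h1 | h1
    · rw [hχzero Ξ h1]
      norm_num
    · have h2 := hhalf Ξ h1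
      have h3 := hχ0 Ξ
      have h4 := hχ1 Ξ
      nlinarith

/-- **Bohm profile with `z > 0` on all of `ℝ`.** -/
theorem bohm_exists_pos (hq : 100 ≤ q) : ∃ w z : ℝ → ℝ, IsBohm q w z ∧ ∀ Ξ, 0 < z Ξ := by
  obtain ⟨w, z, h⟩ := bohm_exists hq
  obtain ⟨z', h', hp, -⟩ := h.exists_pos_ext hq
  exact ⟨w, z', h', hp⟩

/-- `l`:  `log z(Ξ) = Ξ l(Ξ)`. -/
noncomputable def bl (z : ℝ → ℝ) : ℝ → ℝ := hadQ (fun Ξ => Real.log (z Ξ))

theorem IsBohm.bl_contDiff (h : IsBohm q w z) (hz : ∀ Ξ, 0 < z Ξ) : ContDiff ℝ ∞ (bl z) := by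
  unfold bl
  exact hadQ_contDiff (h.smz.log fun Ξ => (hz Ξ).ne')

theorem IsBohm.bl_spec (h : IsBohm q w z) (hz : ∀ Ξ, 0 < z Ξ) (Ξ : ℝ) :
    Real.log (z Ξ) = Ξ * bl z Ξ := by
  have h1 := hadQ_spec (f := fun Ξ => Real.log (z Ξ)) (h.smz.log fun Ξ => (hz Ξ).ne') Ξ
  simp only [h.z0, Real.log_one, zero_add] at h1
  exact h1

end Claimed.Agent.R324
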