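/-
Row 324, module B (additions), file SharpGen: a scalar ODE comparison lemma.   Architect: helper263.     th J Ξ = 2 * Ξ * deriv J Ξ (Bohm/Defs.lean).

* `rpow_decay_of_th` (pure calculus).   J differentiable and positive on [1,∞),  |th J + a J| ≤ (K/Ξ) J there, i.e.  |2Ξ J' + a J| ≤ K J/Ξ.
     Upper bound:  F(Ξ) = J(Ξ) Ξ^(a/2) exp(K/(2Ξ));   F' = Ξ^(a/2) exp(K/(2Ξ)) (J' + a J/(2Ξ) - K J/(2Ξ²)) ≤ 0 on (1,∞)   ⟹  F antitone on [1,∞) (`antitoneOn_of_deriv_nonpos (convex_Ici 1)`)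
       ⟹  J Ξ^(a/2) ≤ J Ξ^(a/2) exp(K/(2Ξ)) = F(Ξ) ≤ F(1) = J(1) exp(K/2);   multiply by Ξ^(-a/2)  (`Real.rpow_neg`, `Real.rpow_add`).
     Lower bound:  H(Ξ) = J(Ξ) Ξ^(a/2) exp(-K/(2Ξ)) is monotone, H(1) = J(1) exp(-K/2), and H(Ξ) ≤ J Ξ^(a/2).
-/
import Claimed.Agent.R324.Bohm.Defs

set_option autoImplicit false

namespace Claimed.Agent.R324

open Set

theorem rpow_decay_aux_deriv {J : ℝ → ℝ} {a c : ℝ} {Ξ : ℝ} (hΞ : 0 < Ξ) (hd : DifferentiableAt ℝ J Ξ) :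
    HasDerivAt (fun x => J x * x ^ (a / 2) * Real.exp (c / (2 * x)))
      (Ξ ^ (a / 2) * Real.exp (c / (2 * Ξ)) *
        (deriv J Ξ + a * J Ξ / (2 * Ξ) - c * J Ξ / (2 * Ξ ^ 2))) Ξ := by
  have h1 := hd.hasDerivAt
  have h2 := Real.hasDerivAt_rpow_const (x := Ξ) (p := a / 2) (Or.inl hΞ.ne')
  have h3 : HasDerivAt (fun x : ℝ => c / (2 * x)) (-c / (2 * Ξ ^ 2)) Ξ := by
    have h4 : HasDerivAt (fun x : ℝ => 2 * x) 2 Ξ := by
      simpa using (hasDerivAt_id Ξ).const_mul (2 : ℝ)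
    have h5 := (hasDerivAt_const Ξ c).div h4 (by positivity)
    refine h5.congr_deriv ?_
    field_simp
    ring
  have h6 := (h1.mul h2).mul h3.exp
  refine HasDerivAt.congr_deriv h6 ?_
  have e : Ξ ^ (a / 2 - 1) = Ξ ^ (a / 2) / Ξ := by
    rw [Real.rpow_sub_one hΞ.ne']
  rw [e]
  simp only [Pi.mul_apply]
  field_simp
  ring

theorem rpow_decay_of_th {J : ℝ → ℝ} {a K : ℝ} (hd : ∀ Ξ, 1 ≤ Ξ → DifferentiableAt ℝ J Ξ)
    (hpos : ∀ Ξ, 1 ≤ Ξ → 0 < J Ξ) (hK : 0 ≤ K)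
    (h : ∀ Ξ, 1 ≤ Ξ → |th J Ξ + a * J Ξ| ≤ K / Ξ * J Ξ) :
    ∀ Ξ, 1 ≤ Ξ → J 1 * Real.exp (-K / 2) * Ξ ^ (-a / 2) ≤ J Ξ ∧
      J Ξ ≤ J 1 * Real.exp (K / 2) * Ξ ^ (-a / 2) := by
  have hder : ∀ c : ℝ, ∀ x : ℝ, 1 ≤ x → HasDerivAt (fun x => J x * x ^ (a / 2) * Real.exp (c / (2 * x)))
      (x ^ (a / 2) * Real.exp (c / (2 * x)) *
        (deriv J x + a * J x / (2 * x) - c * J x / (2 * x ^ 2))) x :=
    fun c x hx => rpow_decay_aux_deriv (by linarith) (hd x hx)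
  have hcont : ∀ c : ℝ, ContinuousOn (fun x => J x * x ^ (a / 2) * Real.exp (c / (2 * x))) (Ici 1) :=
    fun c x hx => (hder c x hx).continuousAt.continuousWithinAt
  have hdiff : ∀ c : ℝ, DifferentiableOn ℝ (fun x => J x * x ^ (a / 2) * Real.exp (c / (2 * x)))
      (interior (Ici 1)) := fun c x hx =>
    (hder c x (interior_subset hx)).differentiableAt.differentiableWithinAt
  have hbd : ∀ x : ℝ, 1 ≤ x → deriv J x + a * J x / (2 * x) - K * J x / (2 * x ^ 2) ≤ 0 ∧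
      0 ≤ deriv J x + a * J x / (2 * x) - (-K) * J x / (2 * x ^ 2) := by
    intro x hx
    have hx0 : 0 < x := by linarith
    have h1 := abs_le.1 (h x hx)
    unfold th at h1
    have e1 : deriv J x + a * J x / (2 * x) - K * J x / (2 * x ^ 2)
        = (2 * x * deriv J x + a * J x - K / x * J x) / (2 * x) := by
      field_simp
    have e2 : deriv J x + a * J x / (2 * x) - (-K) * J x / (2 * x ^ 2)
        = (2 * x * deriv J x + a * J x + K / x * J x) / (2 * x) := by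
      field_simp
      ring
    rw [e1, e2]
    constructor
    · apply div_nonpos_of_nonpos_of_nonneg _ (by positivity)
      linarith [h1.2]
    · apply div_nonneg _ (by positivity)
      linarith [h1.1]
  have hanti : AntitoneOn (fun x => J x * x ^ (a / 2) * Real.exp (K / (2 * x))) (Ici 1) := by
    refine antitoneOn_of_deriv_nonpos (convex_Ici 1) (hcont K) (hdiff K) fun x hx => ?_
    have hx1 : 1 ≤ x := interior_subset hx
    have hx0 : 0 < x := by linarith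
    rw [(hder K x hx1).deriv]
    exact mul_nonpos_of_nonneg_of_nonpos (by positivity) (hbd x hx1).1
  have hmono : MonotoneOn (fun x => J x * x ^ (a / 2) * Real.exp (-K / (2 * x))) (Ici 1) := by
    refine monotoneOn_of_deriv_nonneg (convex_Ici 1) (hcont (-K)) (hdiff (-K)) fun x hx => ?_
    have hx1 : 1 ≤ x := interior_subset hx
    have hx0 : 0 < x := by linarith
    rw [(hder (-K) x hx1).deriv]
    exact mul_nonneg (by positivity) (hbd x hx1).2
  intro Ξ hΞ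
  have hΞ0 : 0 < Ξ := by linarith
  have hJ := hpos Ξ hΞ
  have hp : 0 < Ξ ^ (a / 2) := by positivity
  have hinv : Ξ ^ (-a / 2) = (Ξ ^ (a / 2))⁻¹ := by
    rw [← Real.rpow_neg hΞ0.le]
    congr 1
    ring
  rw [hinv]
  constructor
  · have h1 := hmono (mem_Ici.2 le_rfl) (mem_Ici.2 hΞ) hΞ
    simp only [Real.one_rpow, mul_one] at h1
    have h2 : Real.exp (-K / (2 * Ξ)) ≤ 1 := by
      rw [Real.exp_le_one_iff]
      apply div_nonpos_of_nonpos_of_nonneg (by linarith) (by positivity)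
    have h3 : J Ξ * Ξ ^ (a / 2) * Real.exp (-K / (2 * Ξ)) ≤ J Ξ * Ξ ^ (a / 2) := by
      have := mul_le_mul_of_nonneg_left h2 (by positivity : 0 ≤ J Ξ * Ξ ^ (a / 2))
      simpa using this
    rw [← div_eq_mul_inv, div_le_iff₀ hp]
    exact h1.trans h3
  · have h1 := hanti (mem_Ici.2 le_rfl) (mem_Ici.2 hΞ) hΞ
    simp only [Real.one_rpow, mul_one] at h1
    have h2 : 1 ≤ Real.exp (K / (2 * Ξ)) := by
      rw [Real.one_le_exp_iff]
      positivity
    have h3 : J Ξ * Ξ ^ (a / 2) ≤ J Ξ * Ξ ^ (a / 2) * Real.exp (K / (2 * Ξ)) := by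
      have := mul_le_mul_of_nonneg_left h2 (by positivity : 0 ≤ J Ξ * Ξ ^ (a / 2))
      simpa using this
    rw [← div_eq_mul_inv, le_div_iff₀ hp]
    exact h3.trans h1

end Claimed.Agent.R324
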