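/-
Row 324, module B, file Sym: SYMBOL BOUNDS.   For G smooth on bU q:
   G(cone) = 0                                  ⟹  th^j (G(P,Q)) = O(J)    for every j      (`IsBohm.symJ`)
   G(cone) = 0 and dG(cone)(slow eigenvector)=0 ⟹  th^j (G(P,Q)) = O(J²)   for every j      (`IsBohm.symJ2`)

* `iter_bL_class`: induction on j (`Function.iterate_succ_apply'`: (bL q)^[j+1] G = bL q ((bL q)^[j] G)):  smoothness `contDiffOn_bL`, value at the cone `bL_bC` (j = 0: h0).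
* `iter_bL_class2`: the same with `fderiv_bL_bC`.
* `IsBohm.mem_bTriC`: Ξ = 0: `bPQ_zero`-type computation (bPQ w 0 = (0,0): simp [bPQ, bP, th]) + `zero_mem_bTriC`;   Ξ > 0: reg, `bReg_subset_bTri`, `bTri_subset_bTriC`.
* `symJ`: `th_iter_comp` + `exists_lin_bound` for (bL q)^[j] G;   2 - (bPQ w Ξ).2 = bJ w Ξ by definition (rfl).
* `symJ2`: `th_iter_comp` + `exists_quad_bound` for (bL q)^[j] G + field `slow`:  |..| ≤ C (|bE| + J²) ≤ C (C' + 1) J².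
-/
import Claimed.Agent.R324.Bohm.SymTh

set_option autoImplicit false

namespace Claimed.Agent.R324

open Set
open scoped ContDiff

theorem iter_bL_contDiffOn {q : ℝ} {G : ℝ × ℝ → ℝ} (hG : ContDiffOn ℝ ∞ G (bU q)) (j : ℕ) :
    ContDiffOn ℝ ∞ ((bL q)^[j] G) (bU q) := by
  induction j with
  | zero => exact hG
  | succ j ih =>
    rw [Function.iterate_succ_apply']
    exact contDiffOn_bL ih

theorem iter_bL_class {q : ℝ} {G : ℝ × ℝ → ℝ} (hG : ContDiffOn ℝ ∞ G (bU q))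
    (h0 : G (bC q) = 0) (j : ℕ) :
    ContDiffOn ℝ ∞ ((bL q)^[j] G) (bU q) ∧ (bL q)^[j] G (bC q) = 0 := by
  refine ⟨iter_bL_contDiffOn hG j, ?_⟩
  cases j with
  | zero => exact h0
  | succ j =>
    rw [Function.iterate_succ_apply']
    exact bL_bC q _

theorem iter_bL_class2 {q : ℝ} (hq : 100 ≤ q) {G : ℝ × ℝ → ℝ} (hG : ContDiffOn ℝ ∞ G (bU q))
    (h1 : fderiv ℝ G (bC q) (bXi q) = 0) (j : ℕ) :
    fderiv ℝ ((bL q)^[j] G) (bC q) (bXi q) = 0 := by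
  induction j with
  | zero => exact h1
  | succ j ih =>
    rw [Function.iterate_succ_apply']
    exact fderiv_bL_bC hq (iter_bL_contDiffOn hG j) ih

variable {q : ℕ} {w z : ℝ → ℝ}

theorem IsBohm.mem_bTriC (hq : 100 ≤ q) (h : IsBohm q w z) : ∀ Ξ, 0 ≤ Ξ → bPQ w Ξ ∈ bTriC q := by
  intro Ξ hΞ
  have hq1 : (1 : ℝ) < (q : ℝ) := by
    have : (100 : ℝ) ≤ (q : ℝ) := by exact_mod_cast hq
    linarith
  rcases eq_or_lt_of_le hΞ with h0 | h0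
  · rw [← h0]
    have e : bPQ w 0 = ((0 : ℝ), (0 : ℝ)) := by simp [bPQ, bP, th]
    rw [e]
    exact zero_mem_bTriC hq1
  · exact bTri_subset_bTriC _ (bReg_subset_bTri _ (h.reg Ξ h0))

theorem IsBohm.symJ (hq : 100 ≤ q) (h : IsBohm q w z) {G : ℝ × ℝ → ℝ}
    (hG : ContDiffOn ℝ ∞ G (bU q)) (h0 : G (bC q) = 0) (j : ℕ) :
    ∃ C : ℝ, ∀ Ξ, 0 ≤ Ξ → |th^[j] (fun x => G (bPQ w x)) Ξ| ≤ C * bJ w Ξ := by
  have hq1 : (1 : ℝ) < (q : ℝ) := by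
    have : (100 : ℝ) ≤ (q : ℝ) := by exact_mod_cast hq
    linarith
  obtain ⟨C, hC⟩ := exists_lin_bound hq1 (iter_bL_class hG h0 j).1 (iter_bL_class hG h0 j).2
  refine ⟨C, fun Ξ hΞ => ?_⟩
  rw [h.th_iter_comp hq hG j Ξ hΞ]
  exact hC _ (h.mem_bTriC hq Ξ hΞ)

theorem IsBohm.symJ2 (hq : 100 ≤ q) (h : IsBohm q w z) {G : ℝ × ℝ → ℝ}
    (hG : ContDiffOn ℝ ∞ G (bU q)) (h0 : G (bC q) = 0) (h1 : fderiv ℝ G (bC q) (bXi q) = 0)
    (j : ℕ) :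
    ∃ C : ℝ, ∀ Ξ, 0 ≤ Ξ → |th^[j] (fun x => G (bPQ w x)) Ξ| ≤ C * (bJ w Ξ) ^ 2 := by
  have hq100 : (100 : ℝ) ≤ (q : ℝ) := by exact_mod_cast hq
  have hq1 : (1 : ℝ) < (q : ℝ) := by linarith
  obtain ⟨C, hC0, hC⟩ := exists_quad_bound hq1 (iter_bL_class hG h0 j).1 (iter_bL_class hG h0 j).2
    (iter_bL_class2 hq100 hG h1 j)
  obtain ⟨C', hC'⟩ := h.slow
  refine ⟨C * (C' + 1), fun Ξ hΞ => ?_⟩
  rw [h.th_iter_comp hq hG j Ξ hΞ]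
  have e1 := hC _ (h.mem_bTriC hq Ξ hΞ)
  have e2 := hC' Ξ hΞ
  have e3 : (2 - (bPQ w Ξ).2) = bJ w Ξ := rfl
  rw [e3] at e1
  calc |(bL (q : ℝ))^[j] G (bPQ w Ξ)| ≤ C * (|bE q (bPQ w Ξ)| + (bJ w Ξ) ^ 2) := e1
    _ ≤ C * (C' * (bJ w Ξ) ^ 2 + (bJ w Ξ) ^ 2) := mul_le_mul_of_nonneg_left (by linarith) hC0
    _ = C * (C' + 1) * (bJ w Ξ) ^ 2 := by ring

end Claimed.Agent.R324
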