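/-
Row 324, module B, file SymCor: the symbol bounds of blueprint B3/B4 as corollaries of `symJ`, `symJ2`.   n = q-1, m = q+1, α = bAl q.

* `sym_J`:   G p = 2 - p.2 (polynomial: smooth), G(cone) = 0;   bJ w = fun x => G (bPQ w x) by definition.
* `sym_P`:   G p = p.1 - n.
* `sym_z`:   G p = bz q p - n/m  (`contDiffOn_bz`, `bz_bC`);   z Ξ - n/m = G (bPQ w Ξ) for Ξ ≥ 0 (eqH), transfer by `th_iter_congr`.
* `sym_thz`: th z = th (fun Ξ => z Ξ - n/m) (deriv of a constant shift: `deriv_sub_const`), so th^[j] (th z) = th^[j+1] (fun Ξ => z Ξ - n/m) (`Function.iterate_succ_apply`); use `sym_z (j+1)`.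
* `sym_thJ`: G p = -(bX q p).2 + α (2 - p.2)  = bL q (fun p => 2 - p.2) p + α (2 - p.2).     G(cone) = 0 (`bX_bC`).   dG(cone) ξ = -(d bX(cone) ξ).2 - α ξ.2 = α - α = 0  (`fderiv_bX_bC`, ξ.2 = 1;
       fderiv of p ↦ (bX q p).2 is snd ∘ fderiv bX: `HasFDerivAt.snd`/`fderiv.snd`; bX differentiable at the cone ∈ bU).
       th (bJ w) Ξ + α bJ w Ξ = G (bPQ w Ξ) for Ξ ≥ 0:  `IsBohm.th_comp` for p ↦ 2 - p.2 and bL q (fun p => 2 - p.2) p = -(bX q p).2 (fderiv of an affine map);  transfer by `th_iter_congr`.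
-/
import Claimed.Agent.R324.Bohm.Sym

set_option autoImplicit false

namespace Claimed.Agent.R324

open scoped ContDiff

variable {q : ℕ} {w z : ℝ → ℝ}

theorem IsBohm.sym_J (hq : 100 ≤ q) (h : IsBohm q w z) (j : ℕ) :
    ∃ C : ℝ, ∀ Ξ, 0 ≤ Ξ → |th^[j] (bJ w) Ξ| ≤ C * bJ w Ξ := by
  have hG : ContDiffOn ℝ ∞ (fun p : ℝ × ℝ => 2 - p.2) (bU q) := by
    apply ContDiff.contDiffOn
    fun_prop
  have h0 : (fun p : ℝ × ℝ => 2 - p.2) (bC q) = 0 := by simp [bC]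
  exact h.symJ hq hG h0 j

theorem IsBohm.sym_P (hq : 100 ≤ q) (h : IsBohm q w z) (j : ℕ) :
    ∃ C : ℝ, ∀ Ξ, 0 ≤ Ξ → |th^[j] (fun x => bP w x - ((q : ℝ) - 1)) Ξ| ≤ C * bJ w Ξ := by
  have hG : ContDiffOn ℝ ∞ (fun p : ℝ × ℝ => p.1 - ((q : ℝ) - 1)) (bU q) := by
    apply ContDiff.contDiffOn
    fun_prop
  have h0 : (fun p : ℝ × ℝ => p.1 - ((q : ℝ) - 1)) (bC q) = 0 := by simp [bC]
  exact h.symJ hq hG h0 j

theorem IsBohm.sym_z (hq : 100 ≤ q) (h : IsBohm q w z) (j : ℕ) :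
    ∃ C : ℝ, ∀ Ξ, 0 ≤ Ξ →
      |th^[j] (fun x => z x - ((q : ℝ) - 1) / ((q : ℝ) + 1)) Ξ| ≤ C * bJ w Ξ := by
  have hq1 : (1 : ℝ) < (q : ℝ) := by
    have : (100 : ℝ) ≤ (q : ℝ) := by exact_mod_cast hq
    linarith
  have hG : ContDiffOn ℝ ∞ (fun p : ℝ × ℝ => bz q p - ((q : ℝ) - 1) / ((q : ℝ) + 1)) (bU q) :=
    (contDiffOn_bz (q : ℝ)).sub contDiffOn_const
  have h0 : (fun p : ℝ × ℝ => bz q p - ((q : ℝ) - 1) / ((q : ℝ) + 1)) (bC q) = 0 := by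
    simp only [bz_bC hq1, sub_self]
  obtain ⟨C, hC⟩ := h.symJ hq hG h0 j
  refine ⟨C, fun Ξ hΞ => ?_⟩
  have key : th^[j] (fun x => z x - ((q : ℝ) - 1) / ((q : ℝ) + 1)) Ξ
      = th^[j] (fun x => (fun p : ℝ × ℝ => bz q p - ((q : ℝ) - 1) / ((q : ℝ) + 1)) (bPQ w x)) Ξ :=
    th_iter_congr (fun y hy => by simp only [h.eqH y hy]) j Ξ hΞ
  rw [key]
  exact hC Ξ hΞ

theorem IsBohm.sym_thz (hq : 100 ≤ q) (h : IsBohm q w z) (j : ℕ) :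
    ∃ C : ℝ, ∀ Ξ, 0 ≤ Ξ → |th^[j] (th z) Ξ| ≤ C * bJ w Ξ := by
  obtain ⟨C, hC⟩ := h.sym_z hq (j + 1)
  refine ⟨C, fun Ξ hΞ => ?_⟩
  have e : th z = th (fun x => z x - ((q : ℝ) - 1) / ((q : ℝ) + 1)) := by
    funext x
    unfold th
    rw [deriv_sub_const]
  rw [e, ← Function.iterate_succ_apply]
  exact hC Ξ hΞ

theorem IsBohm.sym_thJ (hq : 100 ≤ q) (h : IsBohm q w z) (j : ℕ) :
    ∃ C : ℝ, ∀ Ξ, 0 ≤ Ξ →
      |th^[j] (fun x => th (bJ w) x + bAl q * bJ w x) Ξ| ≤ C * (bJ w Ξ) ^ 2 := by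
  have hqR : (100 : ℝ) ≤ (q : ℝ) := by exact_mod_cast hq
  have hmem : bC (q : ℝ) ∈ bU (q : ℝ) := by
    refine ⟨?_, ?_⟩
    · simp only [bN, bC]; nlinarith
    · simp only [bD, bC]; nlinarith
  have hX : ContDiffOn ℝ ∞ (bX (q : ℝ)) (bU q) := contDiffOn_bX (q : ℝ)
  have hG : ContDiffOn ℝ ∞
      (fun p : ℝ × ℝ => -(bX (q : ℝ) p).2 + bAl q * (2 - p.2)) (bU q) := by
    apply ContDiffOn.add
    · exact (hX.snd).neg
    · apply ContDiff.contDiffOn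
      fun_prop
  have h0 : (fun p : ℝ × ℝ => -(bX (q : ℝ) p).2 + bAl q * (2 - p.2)) (bC q) = 0 := by
    simp only [bX_bC]
    simp [bC]
  have hXd : DifferentiableAt ℝ (bX (q : ℝ)) (bC q) :=
    ((hX.contDiffAt ((isOpen_bU (q : ℝ)).mem_nhds hmem)).differentiableAt (by simp))
  have h1 : fderiv ℝ (fun p : ℝ × ℝ => -(bX (q : ℝ) p).2 + bAl q * (2 - p.2)) (bC q) (bXi q)
      = 0 := by
    have hd1 : HasFDerivAt (fun p : ℝ × ℝ => -(bX (q : ℝ) p).2)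
        (-((ContinuousLinearMap.snd ℝ ℝ ℝ).comp (fderiv ℝ (bX (q : ℝ)) (bC q)))) (bC q) :=
      (hXd.hasFDerivAt.snd).neg
    have hd2 : HasFDerivAt (fun p : ℝ × ℝ => bAl q * (2 - p.2))
        (bAl q • (-(ContinuousLinearMap.snd ℝ ℝ ℝ))) (bC q) := by
      have := ((hasFDerivAt_snd (𝕜 := ℝ) (E := ℝ) (F := ℝ) (p := bC q)).const_sub 2).const_mul
        (bAl q)
      exact this
    have hd3 : HasFDerivAt (fun p : ℝ × ℝ => -(bX (q : ℝ) p).2 + bAl q * (2 - p.2))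
        (-((ContinuousLinearMap.snd ℝ ℝ ℝ).comp (fderiv ℝ (bX (q : ℝ)) (bC q)))
          + bAl q • (-(ContinuousLinearMap.snd ℝ ℝ ℝ))) (bC q) := hd1.add hd2
    rw [hd3.fderiv]
    simp only [ContinuousLinearMap.add_apply, ContinuousLinearMap.neg_apply,
      ContinuousLinearMap.comp_apply, ContinuousLinearMap.smul_apply,
      ContinuousLinearMap.coe_snd', fderiv_bX_bC hqR]
    simp [bXi]
  obtain ⟨C, hC⟩ := h.symJ2 hq hG h0 h1 j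
  refine ⟨C, fun Ξ hΞ => ?_⟩
  have hG2 : ContDiffOn ℝ ∞ (fun p : ℝ × ℝ => 2 - p.2) (bU q) := by
    apply ContDiff.contDiffOn
    fun_prop
  have hL : ∀ p : ℝ × ℝ, bL q (fun p : ℝ × ℝ => 2 - p.2) p = -(bX (q : ℝ) p).2 := by
    intro p
    unfold bL
    have : HasFDerivAt (fun p : ℝ × ℝ => (2 : ℝ) - p.2) (-(ContinuousLinearMap.snd ℝ ℝ ℝ)) p :=
      (hasFDerivAt_snd (𝕜 := ℝ) (E := ℝ) (F := ℝ) (p := p)).const_sub 2
    rw [this.fderiv]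
    simp
  have key : th^[j] (fun x => th (bJ w) x + bAl q * bJ w x) Ξ
      = th^[j] (fun x => (fun p : ℝ × ℝ => -(bX (q : ℝ) p).2 + bAl q * (2 - p.2)) (bPQ w x)) Ξ := by
    refine th_iter_congr (fun y hy => ?_) j Ξ hΞ
    have e1 : th (bJ w) y = bL q (fun p : ℝ × ℝ => 2 - p.2) (bPQ w y) := h.th_comp hq hG2 y hy
    rw [e1, hL]
    rfl
  rw [key]
  exact hC Ξ hΞ

end Claimed.Agent.R324
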