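/-
Row 324, module B (additions), file Sharp: SHARP decay  c (1+Ξ)^(-α/2) ≤ J ≤ C (1+Ξ)^(-α/2),  α = bAl q   (Real.rpow).   Architect: helper263.

* `IsBohm.thJ_rel`:  `sym_thJ hq 0` gives |th J + α J| ≤ C J² (th^[0] = id);  `decay` gives J ≤ C'/(1+Ξ) ≤ C'/Ξ;  J > 0 (`J_bounds`).   K := |C| * |C'| (or max .. 0).
* `IsBohm.sharp`:  [1,∞): `rpow_decay_of_th` with a = α and  (1+Ξ)^(-α/2) ≤ Ξ^(-α/2) ≤ 2^(α/2) (1+Ξ)^(-α/2)   (`Real.rpow_le_rpow_of_nonpos`/`Real.rpow_le_rpow_of_exponent_nonpos`, `Real.mul_rpow`; 1+Ξ ≤ 2Ξ).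
     [0,1]:  J ≤ 2 and (1+Ξ)^(-α/2) ≥ 2^(-α/2);    J is continuous and positive on the compact [0,1], so J ≥ c₀ > 0 (`IsCompact.exists_isMinOn`), and (1+Ξ)^(-α/2) ≤ 1.
     bJ w = 2 - 2Ξ w' is smooth since w is.
* `bAl_lt`:  m (α-2) = α² (`bAl_root`, m = q+1), α < 3 ⟹ α - 2 < 9/101 ⟹ α < 2.1 ⟹ α - 2 < 4.41/(q+1) < 5/q.
-/
import Claimed.Agent.R324.Bohm.SymCor
import Claimed.Agent.R324.Bohm.Crude
import Claimed.Agent.R324.Bohm.Alpha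
import Claimed.Agent.R324.Bohm.SharpGen

set_option autoImplicit false

namespace Claimed.Agent.R324

open Set
open scoped ContDiff

variable {q : ℕ} {w z : ℝ → ℝ}

theorem IsBohm.contDiff_bJ (h : IsBohm q w z) : ContDiff ℝ ∞ (bJ w) := by
  have h1 : ContDiff ℝ ∞ (deriv w) := (contDiff_infty_iff_deriv.1 h.smw).2
  show ContDiff ℝ ∞ (fun Ξ => 2 - 2 * Ξ * deriv w Ξ)
  exact contDiff_const.sub ((contDiff_const.mul contDiff_id).mul h1)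

theorem IsBohm.thJ_rel (hq : 100 ≤ q) (h : IsBohm q w z) :
    ∃ K : ℝ, 0 ≤ K ∧ ∀ Ξ, 1 ≤ Ξ → |th (bJ w) Ξ + bAl q * bJ w Ξ| ≤ K / Ξ * bJ w Ξ := by
  obtain ⟨C, hC⟩ := h.sym_thJ hq 0
  obtain ⟨C', hC'⟩ := h.decay
  refine ⟨|C| * |C'|, by positivity, ?_⟩
  intro Ξ hΞ
  have hΞ0 : 0 ≤ Ξ := by linarith
  have hΞp : 0 < Ξ := by linarith
  have h1 := hC Ξ hΞ0
  simp only [Function.iterate_zero, id] at h1
  have h2 := hC' Ξ hΞ0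
  obtain ⟨hJ, _⟩ := h.J_bounds hq Ξ hΞ0
  have h3 : bJ w Ξ ≤ |C'| / Ξ := by
    calc bJ w Ξ ≤ C' / (1 + Ξ) := h2
      _ ≤ |C'| / (1 + Ξ) := div_le_div_of_nonneg_right (le_abs_self _) (by linarith)
      _ ≤ |C'| / Ξ := div_le_div_of_nonneg_left (abs_nonneg _) hΞp (by linarith)
  calc |th (bJ w) Ξ + bAl q * bJ w Ξ| ≤ C * (bJ w Ξ) ^ 2 := h1
    _ ≤ |C| * (bJ w Ξ) ^ 2 := mul_le_mul_of_nonneg_right (le_abs_self _) (by positivity)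
    _ = |C| * bJ w Ξ * bJ w Ξ := by ring
    _ ≤ |C| * (|C'| / Ξ) * bJ w Ξ :=
        mul_le_mul_of_nonneg_right (mul_le_mul_of_nonneg_left h3 (abs_nonneg _)) hJ.le
    _ = |C| * |C'| / Ξ * bJ w Ξ := by ring

/-- **sharp decay of `J`.** -/
theorem IsBohm.sharp (hq : 100 ≤ q) (h : IsBohm q w z) :
    ∃ c C : ℝ, 0 < c ∧ ∀ Ξ, 0 ≤ Ξ → c * (1 + Ξ) ^ (-bAl q / 2) ≤ bJ w Ξ ∧
      bJ w Ξ ≤ C * (1 + Ξ) ^ (-bAl q / 2) := by
  have hqR : (100 : ℝ) ≤ (q : ℝ) := by exact_mod_cast hq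
  obtain ⟨hα2, hα3⟩ := bAl_bounds hqR
  obtain ⟨K, hK, hrel⟩ := h.thJ_rel hq
  have hsm := h.contDiff_bJ
  have hdiff : Differentiable ℝ (bJ w) := hsm.differentiable (by simp)
  have hmain := rpow_decay_of_th (J := bJ w) (a := bAl q) (K := K) (fun Ξ _ => hdiff Ξ)
    (fun Ξ hΞ => (h.J_bounds hq Ξ (by linarith)).1) hK hrel
  set s : ℝ := -bAl q / 2 with hs
  have hs0 : s ≤ 0 := by rw [hs]; linarith
  obtain ⟨x₀, hx₀, hmin⟩ := (isCompact_Icc (a := (0 : ℝ)) (b := 1)).exists_isMinOn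
    ⟨0, by simp⟩ hdiff.continuous.continuousOn
  have hc0 : 0 < bJ w x₀ := (h.J_bounds hq x₀ hx₀.1).1
  have hJ1 : 0 < bJ w 1 := (h.J_bounds hq 1 (by norm_num)).1
  set c1 : ℝ := bJ w 1 * Real.exp (-K / 2) with hc1
  set C1 : ℝ := bJ w 1 * Real.exp (K / 2) with hC1
  have hc1p : 0 < c1 := by positivity
  have hC1p : 0 < C1 := by positivity
  have h2s : 0 < (2 : ℝ) ^ s := Real.rpow_pos_of_pos (by norm_num) _
  have h2ms : 0 < (2 : ℝ) ^ (-s) := Real.rpow_pos_of_pos (by norm_num) _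
  have h22 : (2 : ℝ) ^ (-s) * (2 : ℝ) ^ s = 1 := by
    rw [← Real.rpow_add (by norm_num)]; simp
  refine ⟨min (bJ w x₀) c1, (2 + C1) * (2 : ℝ) ^ (-s), lt_min hc0 hc1p, ?_⟩
  intro Ξ hΞ
  have hT : 0 < (1 + Ξ) ^ s := Real.rpow_pos_of_pos (by linarith) _
  by_cases h1 : 1 ≤ Ξ
  · obtain ⟨hl, hu⟩ := hmain Ξ h1
    have hΞp : 0 < Ξ := by linarith
    have e1 : (1 + Ξ) ^ s ≤ Ξ ^ s := Real.rpow_le_rpow_of_nonpos hΞp (by linarith) hs0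
    have e2 : Ξ ^ s ≤ (2 : ℝ) ^ (-s) * (1 + Ξ) ^ s := by
      have e3 : (2 * Ξ) ^ s ≤ (1 + Ξ) ^ s := Real.rpow_le_rpow_of_nonpos (by linarith) (by linarith) hs0
      rw [Real.mul_rpow (by norm_num) hΞp.le] at e3
      calc Ξ ^ s = (2 : ℝ) ^ (-s) * ((2 : ℝ) ^ s * Ξ ^ s) := by rw [← mul_assoc, h22, one_mul]
        _ ≤ (2 : ℝ) ^ (-s) * (1 + Ξ) ^ s := mul_le_mul_of_nonneg_left e3 h2ms.le
    constructor
    · calc min (bJ w x₀) c1 * (1 + Ξ) ^ s ≤ c1 * (1 + Ξ) ^ s :=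
            mul_le_mul_of_nonneg_right (min_le_right _ _) hT.le
        _ ≤ c1 * Ξ ^ s := mul_le_mul_of_nonneg_left e1 hc1p.le
        _ ≤ bJ w Ξ := hl
    · calc bJ w Ξ ≤ C1 * Ξ ^ s := hu
        _ ≤ C1 * ((2 : ℝ) ^ (-s) * (1 + Ξ) ^ s) := mul_le_mul_of_nonneg_left e2 hC1p.le
        _ ≤ (2 + C1) * ((2 : ℝ) ^ (-s) * (1 + Ξ) ^ s) :=
            mul_le_mul_of_nonneg_right (by linarith) (by positivity)
        _ = (2 + C1) * (2 : ℝ) ^ (-s) * (1 + Ξ) ^ s := by ring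
  · have h1' : Ξ ≤ 1 := (not_le.1 h1).le
    have e1 : (1 + Ξ) ^ s ≤ 1 := Real.rpow_le_one_of_one_le_of_nonpos (by linarith) hs0
    have e2 : (2 : ℝ) ^ s ≤ (1 + Ξ) ^ s := Real.rpow_le_rpow_of_nonpos (by linarith) (by linarith) hs0
    have e3 : bJ w x₀ ≤ bJ w Ξ := hmin ⟨hΞ, h1'⟩
    constructor
    · calc min (bJ w x₀) c1 * (1 + Ξ) ^ s ≤ bJ w x₀ * (1 + Ξ) ^ s :=
            mul_le_mul_of_nonneg_right (min_le_left _ _) hT.le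
        _ ≤ bJ w x₀ * 1 := mul_le_mul_of_nonneg_left e1 hc0.le
        _ = bJ w x₀ := mul_one _
        _ ≤ bJ w Ξ := e3
    · calc bJ w Ξ ≤ 2 := (h.J_bounds hq Ξ hΞ).2
        _ = 2 * ((2 : ℝ) ^ (-s) * (2 : ℝ) ^ s) := by rw [h22, mul_one]
        _ ≤ 2 * ((2 : ℝ) ^ (-s) * (1 + Ξ) ^ s) :=
            mul_le_mul_of_nonneg_left (mul_le_mul_of_nonneg_left e2 h2ms.le) (by norm_num)
        _ ≤ (2 + C1) * ((2 : ℝ) ^ (-s) * (1 + Ξ) ^ s) :=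
            mul_le_mul_of_nonneg_right (by linarith) (by positivity)
        _ = (2 + C1) * (2 : ℝ) ^ (-s) * (1 + Ξ) ^ s := by ring

theorem bAl_lt {q : ℝ} (hq : 100 ≤ q) : bAl q < 2 + 5 / q := by
  obtain ⟨h2, h3⟩ := bAl_bounds hq
  have hr := bAl_root hq
  set α := bAl q with hα
  have h1 : (q + 1) * (α - 2) = α ^ 2 := by linarith
  have h4 : α < 2.1 := by
    by_contra hc
    have hc' : 2.1 ≤ α := not_lt.1 hc
    nlinarith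
  have h5 : α ^ 2 < 4.41 := by nlinarith
  have hq0 : 0 < q := by linarith
  have h6 : α - 2 < 5 / q := by
    rw [lt_div_iff₀ hq0]
    nlinarith
  linarith

end Claimed.Agent.R324
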