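/-
Row 324, module B, file SlowK: the slope function k = (q-1) J / a  (J = 2-Q, a = (q-1)-P) along a trajectory.

Notation n = q-1, m = q+1, z = bz q (γ σ), k = bK q (γ σ), α = bAl q, α₊ = bAlp q.     In the triangle a > 0, J > 0, 2a < nJ < 4a (`bTri_facts`).
PROOFS.
* `bK_bounds`: 2 < nJ/a < 4 (`lt_div_iff₀`, `div_lt_iff₀`).
* `hasDerivAt_J`:  J' = -Q' = -(2P-nQ)/z  (`IsTraj.hasDerivAt_snd`, `HasDerivAt.const_sub`);   2P-nQ = nJ-2a;   (n/z)(1-2/k) J = (n/z)(J - 2a/n) = (nJ-2a)/z     (J/k = a/n).    `field_simp; ring`.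
* `hasDerivAt_bK`:  a' = -P' = -(n-a) J;  k' = n (J' a - J a')/a²  (`HasDerivAt.div`, a ≠ 0)  = -(n/z)(nJ-2a)/a + nJ²(n-a)/a² = -(n/z)(k-2) + k² - kJ;
     (k-α)(k-α₊) = k² - mk + 2m  (`bAl_add`, `bAl_mul`),  so   k' = (k-α)(k-α₊) + (m - n/z)(k-2) - kJ.
-/
import Claimed.Agent.R324.Bohm.Mono
import Claimed.Agent.R324.Bohm.Alpha

set_option autoImplicit false

namespace Claimed.Agent.R324

/-- `k = (q-1) J / a`. -/
noncomputable def bK (q : ℝ) (p : ℝ × ℝ) : ℝ := (q - 1) * (2 - p.2) / ((q - 1) - p.1)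

variable {q : ℝ} {γ : ℝ → ℝ × ℝ}

theorem bK_bounds (hq : 1 < q) {p : ℝ × ℝ} (hp : p ∈ bTri q) : 2 < bK q p ∧ bK q p < 4 := by
  obtain ⟨ha, -, h1, h2⟩ := bTri_facts hq hp
  unfold bK
  exact ⟨(lt_div_iff₀ ha).2 h1, (div_lt_iff₀ ha).2 h2⟩

theorem IsTraj.hasDerivAt_J (hq : 100 ≤ q) (h : IsTraj q γ) (σ : ℝ) :
    HasDerivAt (fun s => 2 - (γ s).2)
      (-((q - 1) / bz q (γ σ) * (1 - 2 / bK q (γ σ))) * (2 - (γ σ).2)) σ := by
  have hq1 : 1 < q := by linarith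
  obtain ⟨ha, hJ, -, -⟩ := bTri_facts hq1 (h.mem σ).1
  have hz : 0 < bz q (γ σ) := by linarith [(bReg_z hq (h.mem σ)).1]
  have hn : 0 < q - 1 := by linarith
  refine ((h.hasDerivAt_snd σ).const_sub 2).congr_deriv ?_
  unfold bK
  have ha0 := ha.ne'
  have hJ0 := hJ.ne'
  have hz0 := hz.ne'
  have hn0 := hn.ne'
  generalize bz q (γ σ) = z at *
  field_simp
  ring

theorem IsTraj.hasDerivAt_bK (hq : 100 ≤ q) (h : IsTraj q γ) (σ : ℝ) :
    HasDerivAt (fun s => bK q (γ s))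
      ((bK q (γ σ) - bAl q) * (bK q (γ σ) - bAlp q)
        + ((q + 1) - (q - 1) / bz q (γ σ)) * (bK q (γ σ) - 2) - bK q (γ σ) * (2 - (γ σ).2)) σ := by
  have hq1 : 1 < q := by linarith
  obtain ⟨ha, hJ, -, -⟩ := bTri_facts hq1 (h.mem σ).1
  have hz : 0 < bz q (γ σ) := by linarith [(bReg_z hq (h.mem σ)).1]
  have hn : 0 < q - 1 := by linarith
  have h1 := (h.hasDerivAt_fst σ).const_sub (q - 1)
  have h2 := ((h.hasDerivAt_snd σ).const_sub 2).const_mul (q - 1)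
  have h3 := h2.div h1 ha.ne'
  have e : ∀ k : ℝ, (k - bAl q) * (k - bAlp q) = k ^ 2 - (q + 1) * k + 2 * (q + 1) := by
    intro k
    linear_combination (-k) * bAl_add q + bAl_mul hq
  rw [e]
  unfold bK
  refine h3.congr_deriv ?_
  have ha0 := ha.ne'
  have hJ0 := hJ.ne'
  have hz0 := hz.ne'
  have hn0 := hn.ne'
  generalize bz q (γ σ) = z at *
  field_simp
  ring

end Claimed.Agent.R324
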