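/-
Row 324, module B, file SlowU: the damped equation for u = (k-α)/J.

Notation as in SlowK;  N = bN q p = n(q+2) - 2a,  D = bD q p = m(q+2) - 2mJ + J²/2   (substitute P = n-a, Q = 2-J),  z = N/D.
* `bReg_mz`:   m - n/z = (mN - nD)/N = (-2ma + 2mnJ - nJ²/2)/N.      Lower bound: 2a < nJ ⟹ numerator > mnJ - nJ²/2 = nJ (m - J/2) > 0 (J < 2).
      Upper bound: numerator ≤ 2mnJ and N ≥ qn (P ≥ 0)  ⟹  m - n/z ≤ 2mJ/q ≤ 3J  (q ≥ 2).
* `bReg_c`:   c := (α₊-k) - (n/z)(1-2/k).    c ≤ α₊ < m (k > 2, z > 0).    c ≥ 1:  α₊ ≥ q-3, k < 4, 0 < 1-2/k < 1/2,  z > 1-2/n = (n-2)/n ⟹ n/z < n²/(n-2) ≤ n+4 (n ≥ 4),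
      so c > q - 7 - (n+4)/2 = q/2 - 8.5 ≥ 1.
* `bReg_err`:  E := (m-n/z)(k-2) - kJ;   0 ≤ (m-n/z)(k-2) ≤ 6J,  0 < kJ < 4J  ⟹  |E| ≤ 6J, so |E/J| ≤ 6.
* `hasDerivAt_u`:  u = (k-α)/J.   u' = k'/J - (k-α) J'/J²  (`HasDerivAt.div`, J ≠ 0) with k' = (k-α)(k-α₊) + E (`hasDerivAt_bK`),  J' = -(n/z)(1-2/k) J (`hasDerivAt_J`):
      u' = u [(k-α₊) + (n/z)(1-2/k)] + E/J = -c u + E/J.     (`field_simp; ring`.)
-/
import Claimed.Agent.R324.Bohm.SlowK

set_option autoImplicit false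

namespace Claimed.Agent.R324

/-- damping coefficient. -/
noncomputable def bCc (q : ℝ) (p : ℝ × ℝ) : ℝ :=
  (bAlp q - bK q p) - (q - 1) / bz q p * (1 - 2 / bK q p)

/-- error term. -/
noncomputable def bEr (q : ℝ) (p : ℝ × ℝ) : ℝ :=
  ((q + 1) - (q - 1) / bz q p) * (bK q p - 2) - bK q p * (2 - p.2)

variable {q : ℝ} {γ : ℝ → ℝ × ℝ}

theorem bReg_mz (hq : 100 ≤ q) {p : ℝ × ℝ} (hp : p ∈ bReg q) :
    0 ≤ (q + 1) - (q - 1) / bz q p ∧ (q + 1) - (q - 1) / bz q p ≤ 3 * (2 - p.2) := by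
  have hq1 : 1 < q := by linarith
  obtain ⟨ha, hJ, h1, h2⟩ := bTri_facts hq1 hp.1
  obtain ⟨hN, hD⟩ := bReg_subset_bU hq1 hp
  have hP : 0 < p.1 := hp.1.1
  have hQ : 0 < p.2 := hp.1.2.1
  have e : (q + 1) - (q - 1) / bz q p = ((q + 1) * bN q p - (q - 1) * bD q p) / bN q p := by
    unfold bz
    have hN0 := hN.ne'
    have hD0 := hD.ne'
    field_simp
  rw [e]
  have hn : 0 < q - 1 := by linarith
  constructor
  · apply div_nonneg _ hN.le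
    have e1 : (q + 1) * bN q p - (q - 1) * bD q p
        = (q + 1) * ((q - 1) * (2 - p.2) - 2 * ((q - 1) - p.1))
          + (q - 1) * (2 - p.2) * ((q + 1) - (2 - p.2) / 2) := by
      unfold bN bD
      ring
    rw [e1]
    exact add_nonneg (mul_nonneg (by linarith) (by linarith))
      (mul_nonneg (mul_nonneg hn.le hJ.le) (by linarith))
  · rw [div_le_iff₀ hN]
    have e2 : 3 * (2 - p.2) * bN q p - ((q + 1) * bN q p - (q - 1) * bD q p)
        = (2 - p.2) * (q - 1) * (q - 2) + 6 * (2 - p.2) * p.1 + 2 * (q + 1) * ((q - 1) - p.1)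
          + (q - 1) * (2 - p.2) ^ 2 / 2 := by
      unfold bN bD
      ring
    have h3 : 0 ≤ (2 - p.2) * (q - 1) * (q - 2) + 6 * (2 - p.2) * p.1
        + 2 * (q + 1) * ((q - 1) - p.1) + (q - 1) * (2 - p.2) ^ 2 / 2 := by
      have t1 : 0 ≤ (2 - p.2) * (q - 1) * (q - 2) :=
        mul_nonneg (mul_nonneg hJ.le hn.le) (by linarith)
      have t2 : 0 ≤ 6 * (2 - p.2) * p.1 := mul_nonneg (by linarith) hP.le
      have t3 : 0 ≤ 2 * (q + 1) * ((q - 1) - p.1) := mul_nonneg (by linarith) ha.le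
      have t4 : 0 ≤ (q - 1) * (2 - p.2) ^ 2 / 2 := by positivity
      linarith
    linarith

theorem bReg_c (hq : 100 ≤ q) {p : ℝ × ℝ} (hp : p ∈ bReg q) : 1 ≤ bCc q p ∧ bCc q p ≤ q + 1 := by
  have hq1 : 1 < q := by linarith
  have hk := bK_bounds hq1 hp.1
  have hz := bReg_z hq hp
  have hz3 : 1 - bz q p < 2 / (q - 1) := hp.2.2.1
  have hal := bAlp_bounds hq
  have hn : 0 < q - 1 := by linarith
  unfold bCc
  generalize bK q p = k at *
  generalize bz q p = z at *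
  have hz0 : 0 < z := by linarith [hz.1]
  have hk0 : 0 < k := by linarith [hk.1]
  have hnz : (q - 1) / z < (q - 1) + 4 := by
    rw [div_lt_iff₀ hz0]
    have h5 : (1 - z) * (q - 1) < 2 := (lt_div_iff₀ hn).1 hz3
    nlinarith [hz.1]
  have hnz0 : 0 < (q - 1) / z := div_pos hn hz0
  have hk1 : 2 / k < 1 := (div_lt_one hk0).2 hk.1
  have hk2 : 1 / 2 < 2 / k := by
    rw [lt_div_iff₀ hk0]
    linarith [hk.2]
  have h6 : 0 ≤ (q - 1) / z * (1 - 2 / k) := mul_nonneg hnz0.le (by linarith)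
  have h7 : (q - 1) / z * (1 - 2 / k) < ((q - 1) + 4) * (1 / 2) :=
    mul_lt_mul'' hnz (by linarith) hnz0.le (by linarith)
  constructor
  · linarith [hal.1, hk.2]
  · linarith [hal.2, hk.1]

theorem bReg_err (hq : 100 ≤ q) {p : ℝ × ℝ} (hp : p ∈ bReg q) : |bEr q p / (2 - p.2)| ≤ 6 := by
  have hq1 : 1 < q := by linarith
  obtain ⟨ha, hJ, h1, h2⟩ := bTri_facts hq1 hp.1
  have hk := bK_bounds hq1 hp.1
  obtain ⟨hm0, hm1⟩ := bReg_mz hq hp
  rw [abs_div, abs_of_pos hJ, div_le_iff₀ hJ]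
  unfold bEr
  generalize bK q p = k at *
  generalize (q + 1) - (q - 1) / bz q p = y at *
  have t1 : 0 ≤ y * (k - 2) := mul_nonneg hm0 (by linarith [hk.1])
  have t2 : y * (k - 2) ≤ 3 * (2 - p.2) * 2 :=
    mul_le_mul hm1 (by linarith [hk.2]) (by linarith [hk.1]) (by linarith)
  have t3 : 0 ≤ k * (2 - p.2) := mul_nonneg (by linarith [hk.1]) hJ.le
  have t4 : k * (2 - p.2) ≤ 4 * (2 - p.2) := mul_le_mul_of_nonneg_right hk.2.le hJ.le
  rw [abs_le]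
  constructor <;> linarith

theorem IsTraj.hasDerivAt_u (hq : 100 ≤ q) (h : IsTraj q γ) (σ : ℝ) :
    HasDerivAt (fun s => (bK q (γ s) - bAl q) / (2 - (γ s).2))
      (-bCc q (γ σ) * ((bK q (γ σ) - bAl q) / (2 - (γ σ).2)) + bEr q (γ σ) / (2 - (γ σ).2)) σ := by
  have hq1 : 1 < q := by linarith
  obtain ⟨ha, hJ, -, -⟩ := bTri_facts hq1 (h.mem σ).1
  have h3 := ((h.hasDerivAt_bK hq σ).sub_const (bAl q)).div (h.hasDerivAt_J hq σ) hJ.ne'
  refine h3.congr_deriv ?_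
  unfold bCc bEr
  have hJ0 := hJ.ne'
  generalize (q - 1) / bz q (γ σ) = y at *
  generalize 2 / bK q (γ σ) = t at *
  generalize bK q (γ σ) = k at *
  field_simp
  ring

end Claimed.Agent.R324
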