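/-
Row 324, module B, file Slow: slow approach to the cone.

* `IsTraj.slowK`.  u σ := (k-α)/J.  `abs_le_of_damped` on [0,∞) with c = bCc q ∘ γ, e = (bEr q (γ ·))/(2-Q), c0 = 1, K = q+1, M = 6, B = max |u 0| 6  (`hasDerivAt_u`, `bReg_c`, `bReg_err`):  |u σ| ≤ B for σ ≥ 0,
     i.e. |k-α| ≤ B J (J > 0; `abs_div`, `div_le_iff₀`).     For σ ≤ 0:  |k-α| ≤ 2 (k, α ∈ (2,4): `bK_bounds`, `bAl_bounds`) and J σ ≥ J 0 > 0 (`monotone_snd`), so |k-α| ≤ (2/J 0) J σ.     C := max B (2/J 0).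
* `IsTraj.slow`.   bE q p = -a + nJ/α = a (k-α)/α      (a k = nJ; `field_simp`).     0 < a < nJ/2, α > 2  ⟹  |bE| ≤ (nJ/2) (C J)/2 = (nC/4) J².
-/
import Claimed.Agent.R324.Bohm.SlowU
import Claimed.Agent.R324.Bohm.Damped

set_option autoImplicit false

namespace Claimed.Agent.R324

variable {q : ℝ} {γ : ℝ → ℝ × ℝ}

theorem IsTraj.slowK (hq : 100 ≤ q) (h : IsTraj q γ) :
    ∃ C : ℝ, ∀ σ, |bK q (γ σ) - bAl q| ≤ C * (2 - (γ σ).2) := by
  have hq1 : 1 < q := by linarith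
  have hJ : ∀ σ, 0 < 2 - (γ σ).2 := fun σ => (bTri_facts hq1 (h.mem σ).1).2.1
  have key : ∀ t, 0 ≤ t → |(bK q (γ t) - bAl q) / (2 - (γ t).2)|
      ≤ max |(bK q (γ 0) - bAl q) / (2 - (γ 0).2)| 6 :=
    abs_le_of_damped (u := fun s => (bK q (γ s) - bAl q) / (2 - (γ s).2))
      (c := fun s => bCc q (γ s)) (e := fun s => bEr q (γ s) / (2 - (γ s).2))
      (c0 := 1) (K := q + 1) (M := 6) one_pos
      (fun t _ => h.hasDerivAt_u hq t) (fun t _ => bReg_c hq (h.mem t))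
      (fun t _ => bReg_err hq (h.mem t)) (le_max_left _ _)
      (by rw [one_mul]; exact le_max_right _ _)
  refine ⟨max (max |(bK q (γ 0) - bAl q) / (2 - (γ 0).2)| 6) (2 / (2 - (γ 0).2)), fun σ => ?_⟩
  rcases le_total 0 σ with hσ | hσ
  · have h1 := key σ hσ
    rw [abs_div, abs_of_pos (hJ σ), div_le_iff₀ (hJ σ)] at h1
    exact h1.trans (mul_le_mul_of_nonneg_right (le_max_left _ _) (hJ σ).le)
  · have hk := bK_bounds hq1 (h.mem σ).1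
    have ha := bAl_bounds hq
    have h1 : |bK q (γ σ) - bAl q| ≤ 2 := by
      rw [abs_le]
      constructor <;> linarith [hk.1, hk.2, ha.1, ha.2]
    have hm : (γ σ).2 ≤ (γ 0).2 := h.monotone_snd hq hσ
    have h2 : 2 ≤ 2 / (2 - (γ 0).2) * (2 - (γ σ).2) := by
      rw [div_mul_eq_mul_div, le_div_iff₀ (hJ 0)]
      linarith
    exact h1.trans (h2.trans (mul_le_mul_of_nonneg_right (le_max_right _ _) (hJ σ).le))

theorem IsTraj.slow (hq : 100 ≤ q) (h : IsTraj q γ) :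
    ∃ C : ℝ, ∀ σ, |bE q (γ σ)| ≤ C * (2 - (γ σ).2) ^ 2 := by
  have hq1 : 1 < q := by linarith
  obtain ⟨C, hC⟩ := h.slowK hq
  obtain ⟨hα2, -⟩ := bAl_bounds hq
  have hα0 : 0 < bAl q := by linarith
  refine ⟨(q - 1) * C / 4, fun σ => ?_⟩
  obtain ⟨ha, hJ, h2a, -⟩ := bTri_facts hq1 (h.mem σ).1
  have e : bE q (γ σ) = ((q - 1) - (γ σ).1) * (bK q (γ σ) - bAl q) / bAl q := by
    unfold bE bK
    have ha0 := ha.ne'
    have hα0' := hα0.ne'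
    field_simp
    ring
  rw [e, abs_div, abs_mul, abs_of_pos ha, abs_of_pos hα0]
  have hX0 : 0 ≤ ((q - 1) - (γ σ).1) * |bK q (γ σ) - bAl q| :=
    mul_nonneg ha.le (abs_nonneg _)
  have hCJ : 0 ≤ C * (2 - (γ σ).2) := (abs_nonneg _).trans (hC σ)
  have h1 : ((q - 1) - (γ σ).1) * |bK q (γ σ) - bAl q| / bAl q
      ≤ ((q - 1) - (γ σ).1) * |bK q (γ σ) - bAl q| / 2 :=
    div_le_div_of_nonneg_left hX0 (by norm_num) hα2.le
  have h2 : ((q - 1) - (γ σ).1) * |bK q (γ σ) - bAl q|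
      ≤ ((q - 1) * (2 - (γ σ).2) / 2) * (C * (2 - (γ σ).2)) :=
    mul_le_mul (by linarith) (hC σ) (abs_nonneg _) (by linarith)
  calc ((q - 1) - (γ σ).1) * |bK q (γ σ) - bAl q| / bAl q
      ≤ ((q - 1) - (γ σ).1) * |bK q (γ σ) - bAl q| / 2 := h1
    _ ≤ ((q - 1) * (2 - (γ σ).2) / 2) * (C * (2 - (γ σ).2)) / 2 := by linarith
    _ = (q - 1) * C / 4 * (2 - (γ σ).2) ^ 2 := by ring

end Claimed.Agent.R324
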