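/-
Row 324, module B (additions), file SymCor2: second order relations between J, z, P.     n = q-1, m = q+1, α = bAl q, z₀ = n/m.   Architect: helper263.
      bKz q = κ_z = 4 z₀ α/((α+2)(m-α))  ( = 2 z₀ (α-2)/(α+2) = 2 z₀ (α-1)/(q+2),  because m (α-2) = α², `bAl_root`).
   `sym_E`  :  th^j ( P - n + (n/α) J )        = O(J²)
   `sym_z2` :  th^j ( z - z₀ - (κ_z/α) J )     = O(J²)
   `sym_Jz` :  th^j ( -th z - κ_z J )          = O(J²)
All three are instances of `IsBohm.symJ2` (Bohm/Sym.lean): G smooth on bU q, G(cone) = 0, dG(cone)(bXi q) = 0, bXi q = (n/α, 1).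

* `bKz_eq`: field_simp + `bAl_root`, `bAl_bounds` (denominators α+2, m-α, q+2 are positive).
* `sym_E`:  G = bE q (affine: bE q p = (p.1 - n) + n/α (2 - p.2));  dG = fst - (n/α) snd,  dG(bXi) = n/α - n/α = 0.    (fun x => bE q (bPQ w x)) is the function in the statement by definition (bJ w x = 2 - th w x).
* `fderiv_bz_bC`:  bz = bN/bD;  at the cone N = n(q+2), D = m(q+2);   ∂_P bz = 2/D,  ∂_Q bz = -N (2q+Q)/D² = -2n/(m(q+2));    d bz(cone)(n/α, 1) = 2n/(m(q+2)) (1/α - 1) = -κ_z/α   (use `bKz_eq`).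
     (HasFDerivAt of bN, bD are elementary: bN q p = q(q-1) + 2 p.1, bD q p = q(q-1) + 2 q p.2 + p.2²/2;  `HasFDerivAt.div`/`HasFDerivAt.mul` + `inv`.   Alternative: restrict to the line s ↦ cone + s ξ and compute a 1-D derivative as in `fderiv_bX_bC` (Bohm/SymL.lean).)
* `sym_z2`: G p = bz q p - z₀ - (κ_z/α)(2 - p.2);  G(cone) = 0 (`bz_bC`);  dG(ξ) = d bz(ξ) + κ_z/α = 0;   transfer z = bz(P,Q) on Ξ ≥ 0 by `th_iter_congr` and `eqH` (as in `sym_z`).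
-/
import Claimed.Agent.R324.Bohm.SymCor
import Claimed.Agent.R324.Bohm.Alpha

set_option autoImplicit false

namespace Claimed.Agent.R324

open scoped ContDiff

/-- `κ_z = 4 z₀ α/((α+2)(m-α))`. -/
noncomputable def bKz (q : ℝ) : ℝ :=
  4 * ((q - 1) / (q + 1)) * bAl q / ((bAl q + 2) * (q + 1 - bAl q))

theorem bKz_eq {q : ℝ} (hq : 100 ≤ q) :
    bKz q = 2 * ((q - 1) / (q + 1)) * (bAl q - 1) / (q + 2) ∧
      bKz q = 2 * ((q - 1) / (q + 1)) * (bAl q - 2) / (bAl q + 2) := by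
  obtain ⟨ha2, ha3⟩ := bAl_bounds hq
  have hr := bAl_root hq
  have h1 : bAl q + 2 ≠ 0 := by linarith
  have h2 : q + 1 - bAl q ≠ 0 := by linarith
  have h3 : q + 2 ≠ 0 := by linarith
  have h4 : q + 1 ≠ 0 := by linarith
  unfold bKz
  constructor
  · rw [div_eq_div_iff (mul_ne_zero h1 h2) h3]
    field_simp
    linear_combination (2 * (q - 1) * (bAl q + 1)) * hr
  · rw [div_eq_div_iff (mul_ne_zero h1 h2) h1]
    field_simp
    linear_combination (2 * (q - 1)) * hr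

theorem fderiv_bz_bC {q : ℝ} (hq : 100 ≤ q) :
    fderiv ℝ (bz q) (bC q) (bXi q) = -(bKz q / bAl q) := by
  have hq1 : 1 < q := by linarith
  have hcU : bC q ∈ bU q := bC_mem_bU_symL hq1
  have hnhds : bU q ∈ nhds (bC q) := (isOpen_bU q).mem_nhds hcU
  have hzd : DifferentiableAt ℝ (bz q) (bC q) :=
    ((contDiffOn_bz q).differentiableOn (by simp) (bC q) hcU).differentiableAt hnhds
  have hline : HasDerivAt (fun t : ℝ => bC q + t • bXi q) (bXi q) 0 := by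
    have h := ((hasDerivAt_id (0 : ℝ)).smul_const (bXi q)).const_add (bC q)
    simpa using h
  have hl0 : bC q + (0 : ℝ) • bXi q = bC q := by simp
  have hz : HasDerivAt (fun t : ℝ => bz q (bC q + t • bXi q)) (fderiv ℝ (bz q) (bC q) (bXi q)) 0 := by
    have h := hzd.hasFDerivAt
    rw [← hl0] at h
    have h' := h.comp_hasDerivAt (0 : ℝ) hline
    rw [hl0] at h'
    exact h'
  obtain ⟨ha2, _⟩ := bAl_bounds hq
  have hane : bAl q ≠ 0 := by linarith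
  have f1 : HasDerivAt (fun t : ℝ => (q - 1) + t * ((q - 1) / bAl q)) ((q - 1) / bAl q) 0 := by
    simpa using ((hasDerivAt_id (0 : ℝ)).mul_const ((q - 1) / bAl q)).const_add (q - 1)
  have f2 : HasDerivAt (fun t : ℝ => 2 + t * 1) (1 : ℝ) 0 := by
    simpa using ((hasDerivAt_id (0 : ℝ)).mul_const (1 : ℝ)).const_add (2 : ℝ)
  have eN : HasDerivAt (fun t : ℝ => q * (q - 1) + 2 * ((q - 1) + t * ((q - 1) / bAl q)))
      (2 * ((q - 1) / bAl q)) 0 := (f1.const_mul (2 : ℝ)).const_add (q * (q - 1))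
  have eD : HasDerivAt (fun t : ℝ => q * (q - 1) + 2 * q * (2 + t * 1) + (2 + t * 1) ^ 2 / 2)
      (2 * q * 1 + (2 * (2 + 0 * 1) ^ 1 * 1) / 2) 0 := by
    have g1 := (f2.const_mul (2 * q)).const_add (q * (q - 1))
    have g2 := (f2.pow 2).div_const (2 : ℝ)
    have g3 := g1.add g2
    refine HasDerivAt.congr_deriv g3 ?_
    norm_num
  have hD0 : q * (q - 1) + 2 * q * (2 + (0 : ℝ) * 1) + (2 + (0 : ℝ) * 1) ^ 2 / 2 ≠ 0 := by
    nlinarith
  have e2 := eN.div eD hD0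
  have h2 : HasDerivAt (fun t : ℝ => bz q (bC q + t • bXi q)) (-(bKz q / bAl q)) 0 := by
    have h3 : HasDerivAt (fun t : ℝ => (q * (q - 1) + 2 * ((q - 1) + t * ((q - 1) / bAl q)))
        / (q * (q - 1) + 2 * q * (2 + t * 1) + (2 + t * 1) ^ 2 / 2)) (-(bKz q / bAl q)) 0 := by
      refine HasDerivAt.congr_deriv e2 ?_
      rw [(bKz_eq hq).1]
      have hm : q + 1 ≠ 0 := by linarith
      have hm2 : q + 2 ≠ 0 := by linarith
      have eD0 : q * (q - 1) + 2 * q * (2 + (0 : ℝ) * 1) + (2 + (0 : ℝ) * 1) ^ 2 / 2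
          = (q + 1) * (q + 2) := by ring
      rw [eD0]
      field_simp
      ring
    refine h3.congr_of_eventuallyEq (Filter.Eventually.of_forall fun t => ?_)
    simp [bz, bN, bD, bC, bXi]
  exact hz.unique h2

variable {q : ℕ} {w z : ℝ → ℝ}

theorem IsBohm.sym_E (hq : 100 ≤ q) (h : IsBohm q w z) (j : ℕ) :
    ∃ C : ℝ, ∀ Ξ, 0 ≤ Ξ →
      |th^[j] (fun x => (bP w x - ((q : ℝ) - 1)) + ((q : ℝ) - 1) / bAl q * bJ w x) Ξ|
        ≤ C * (bJ w Ξ) ^ 2 := by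
  have hqR : (100 : ℝ) ≤ (q : ℝ) := by exact_mod_cast hq
  obtain ⟨ha2, _⟩ := bAl_bounds hqR
  have hane : bAl (q : ℝ) ≠ 0 := by linarith
  have hG : ContDiffOn ℝ ∞ (bE (q : ℝ)) (bU q) := by
    apply ContDiff.contDiffOn
    unfold bE
    fun_prop
  have h0 : bE (q : ℝ) (bC q) = 0 := by simp [bE, bC]
  have h1 : fderiv ℝ (bE (q : ℝ)) (bC q) (bXi q) = 0 := by
    have hd1 : HasFDerivAt (fun p : ℝ × ℝ => p.1 - ((q : ℝ) - 1))
        (ContinuousLinearMap.fst ℝ ℝ ℝ) (bC q) :=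
      (hasFDerivAt_fst (𝕜 := ℝ) (E := ℝ) (F := ℝ) (p := bC q)).sub_const _
    have hd2 : HasFDerivAt (fun p : ℝ × ℝ => ((q : ℝ) - 1) / bAl q * (2 - p.2))
        ((((q : ℝ) - 1) / bAl q) • (-(ContinuousLinearMap.snd ℝ ℝ ℝ))) (bC q) := by
      have := ((hasFDerivAt_snd (𝕜 := ℝ) (E := ℝ) (F := ℝ) (p := bC q)).const_sub 2).const_mul
        (((q : ℝ) - 1) / bAl q)
      exact this
    have hd3 : HasFDerivAt (bE (q : ℝ))
        (ContinuousLinearMap.fst ℝ ℝ ℝ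
          + (((q : ℝ) - 1) / bAl q) • (-(ContinuousLinearMap.snd ℝ ℝ ℝ))) (bC q) := hd1.add hd2
    rw [hd3.fderiv]
    simp [bXi]
  exact h.symJ2 hq hG h0 h1 j

theorem IsBohm.sym_z2 (hq : 100 ≤ q) (h : IsBohm q w z) (j : ℕ) :
    ∃ C : ℝ, ∀ Ξ, 0 ≤ Ξ →
      |th^[j] (fun x => z x - ((q : ℝ) - 1) / ((q : ℝ) + 1) - bKz q / bAl q * bJ w x) Ξ|
        ≤ C * (bJ w Ξ) ^ 2 := by
  have hqR : (100 : ℝ) ≤ (q : ℝ) := by exact_mod_cast hq
  have hq1 : (1 : ℝ) < (q : ℝ) := by linarith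
  have hcU : bC (q : ℝ) ∈ bU (q : ℝ) := bC_mem_bU_symL hq1
  have hnhds : bU (q : ℝ) ∈ nhds (bC (q : ℝ)) := (isOpen_bU (q : ℝ)).mem_nhds hcU
  have hzd : DifferentiableAt ℝ (bz (q : ℝ)) (bC q) :=
    ((contDiffOn_bz (q : ℝ)).differentiableOn (by simp) (bC q) hcU).differentiableAt hnhds
  have hG : ContDiffOn ℝ ∞ (fun p : ℝ × ℝ =>
      bz q p - ((q : ℝ) - 1) / ((q : ℝ) + 1) - bKz q / bAl q * (2 - p.2)) (bU q) := by
    apply ContDiffOn.sub
    · exact (contDiffOn_bz (q : ℝ)).sub contDiffOn_const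
    · apply ContDiff.contDiffOn
      fun_prop
  have h0 : (fun p : ℝ × ℝ =>
      bz q p - ((q : ℝ) - 1) / ((q : ℝ) + 1) - bKz q / bAl q * (2 - p.2)) (bC q) = 0 := by
    simp only [bz_bC hq1, sub_self]
    simp [bC]
  have h1 : fderiv ℝ (fun p : ℝ × ℝ =>
      bz q p - ((q : ℝ) - 1) / ((q : ℝ) + 1) - bKz q / bAl q * (2 - p.2)) (bC q) (bXi q) = 0 := by
    have hd1 : HasFDerivAt (fun p : ℝ × ℝ => bz q p - ((q : ℝ) - 1) / ((q : ℝ) + 1))
        (fderiv ℝ (bz (q : ℝ)) (bC q)) (bC q) := hzd.hasFDerivAt.sub_const _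
    have hd2 : HasFDerivAt (fun p : ℝ × ℝ => bKz q / bAl q * (2 - p.2))
        ((bKz q / bAl q) • (-(ContinuousLinearMap.snd ℝ ℝ ℝ))) (bC q) := by
      have := ((hasFDerivAt_snd (𝕜 := ℝ) (E := ℝ) (F := ℝ) (p := bC q)).const_sub 2).const_mul
        (bKz q / bAl q)
      exact this
    have hd3 : HasFDerivAt (fun p : ℝ × ℝ =>
        bz q p - ((q : ℝ) - 1) / ((q : ℝ) + 1) - bKz q / bAl q * (2 - p.2))
        (fderiv ℝ (bz (q : ℝ)) (bC q)
          - (bKz q / bAl q) • (-(ContinuousLinearMap.snd ℝ ℝ ℝ))) (bC q) := hd1.sub hd2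
    rw [hd3.fderiv]
    have e : (fderiv ℝ (bz (q : ℝ)) (bC q)
          - (bKz q / bAl q) • (-(ContinuousLinearMap.snd ℝ ℝ ℝ))) (bXi q)
        = fderiv ℝ (bz (q : ℝ)) (bC q) (bXi q) + bKz q / bAl q * (bXi q).2 := by
      simp
    rw [e, fderiv_bz_bC hqR]
    simp [bXi]
  obtain ⟨C, hC⟩ := h.symJ2 hq hG h0 h1 j
  refine ⟨C, fun Ξ hΞ => ?_⟩
  have key : th^[j] (fun x => z x - ((q : ℝ) - 1) / ((q : ℝ) + 1) - bKz q / bAl q * bJ w x) Ξ
      = th^[j] (fun x => (fun p : ℝ × ℝ =>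
          bz q p - ((q : ℝ) - 1) / ((q : ℝ) + 1) - bKz q / bAl q * (2 - p.2)) (bPQ w x)) Ξ := by
    refine th_iter_congr (fun y hy => ?_) j Ξ hΞ
    rw [h.eqH y hy]
    rfl
  rw [key]
  exact hC Ξ hΞ

end Claimed.Agent.R324
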