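/-
Row 324, module B (additions), file SymCor3:   th^j ( -th z - κ_z J ) = O(J²),  κ_z = bKz q (Bohm/SymCor2.lean).   Architect: helper263.      n = q-1, m = q+1, α = bAl q, z₀ = n/m.

* `sym_Jz`: for Ξ ≥ 0:   -th z - κ_z J = -th(z - z₀ - (κ_z/α) J) - (κ_z/α)(th J + α J).
     Cleanest: apply `symJ2` to  G = -(bL q G₂) - (κ_z/α) G₃,   G₂ = the function of `sym_z2`,  G₃ p = -(bX q p).2 + α (2 - p.2) (the function of `sym_thJ`);   class: `contDiffOn_bL`, `bL_bC`, `fderiv_bL_bC`;  for G₃ repeat the computation in `sym_thJ` (Bohm/SymCor.lean) — or extract it into a lemma;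
     identification on Ξ ≥ 0:  `IsBohm.th_comp` for G₂ (th (G₂∘bPQ w) = bL q G₂ ∘ bPQ w),  th (z - z₀ - (κ_z/α) J) = th z - (κ_z/α) th J (z, J smooth on ℝ: `deriv_sub`, `deriv_const_mul`), `th_congr`, `th_iter_congr`.
-/
import Claimed.Agent.R324.Bohm.SymCor2

set_option autoImplicit false

namespace Claimed.Agent.R324

open scoped ContDiff

/-- general form of `fderiv_bL_bC`: `d(bL G)(cone) ξ = -α dG(cone) ξ`. -/
theorem symCor3_fderiv_bL_bC {q : ℝ} (hq : 100 ≤ q) {G : ℝ × ℝ → ℝ}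
    (hG : ContDiffOn ℝ ∞ G (bU q)) :
    fderiv ℝ (bL q G) (bC q) (bXi q) = -bAl q * fderiv ℝ G (bC q) (bXi q) := by
  have hq1 : 1 < q := by linarith
  have hcU : bC q ∈ bU q := bC_mem_bU_symL hq1
  have hnhds : bU q ∈ nhds (bC q) := (isOpen_bU q).mem_nhds hcU
  have hXd : DifferentiableAt ℝ (bX q) (bC q) :=
    ((contDiffOn_bX q).differentiableOn (by simp) (bC q) hcU).differentiableAt hnhds
  have hG1 : ContDiffOn ℝ ∞ (fderiv ℝ G) (bU q) :=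
    hG.fderiv_of_isOpen (isOpen_bU q) (by simp)
  have hGd : DifferentiableAt ℝ (fderiv ℝ G) (bC q) :=
    (hG1.differentiableOn (by simp) (bC q) hcU).differentiableAt hnhds
  have h := hGd.hasFDerivAt.clm_apply hXd.hasFDerivAt
  have h' : fderiv ℝ (bL q G) (bC q) = _ := h.fderiv
  rw [h']
  simp [fderiv_bX_bC hq, bX_bC]

variable {q : ℕ} {w z : ℝ → ℝ}

theorem IsBohm.sym_Jz (hq : 100 ≤ q) (h : IsBohm q w z) (j : ℕ) :
    ∃ C : ℝ, ∀ Ξ, 0 ≤ Ξ →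
      |th^[j] (fun x => -th z x - bKz q * bJ w x) Ξ| ≤ C * (bJ w Ξ) ^ 2 := by
  have hqR : (100 : ℝ) ≤ (q : ℝ) := by exact_mod_cast hq
  have hq1 : (1 : ℝ) < (q : ℝ) := by linarith
  have hcU : bC (q : ℝ) ∈ bU (q : ℝ) := bC_mem_bU_symL hq1
  have hz : ContDiffOn ℝ ∞ (bz (q : ℝ)) (bU q) := contDiffOn_bz (q : ℝ)
  have hLz : ContDiffOn ℝ ∞ (bL (q : ℝ) (bz (q : ℝ))) (bU q) := contDiffOn_bL hz
  have hG : ContDiffOn ℝ ∞
      (fun p : ℝ × ℝ => -(bL (q : ℝ) (bz (q : ℝ)) p) - bKz q * (2 - p.2)) (bU q) := by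
    apply ContDiffOn.sub hLz.neg
    apply ContDiff.contDiffOn
    fun_prop
  have h0 : (fun p : ℝ × ℝ => -(bL (q : ℝ) (bz (q : ℝ)) p) - bKz q * (2 - p.2)) (bC q) = 0 := by
    simp only [bL_bC]
    simp [bC]
  have hLd : DifferentiableAt ℝ (bL (q : ℝ) (bz (q : ℝ))) (bC q) :=
    (hLz.contDiffAt ((isOpen_bU (q : ℝ)).mem_nhds hcU)).differentiableAt (by simp)
  have hane : bAl (q : ℝ) ≠ 0 := by
    have := (bAl_bounds hqR).1
    linarith
  have h1 : fderiv ℝ (fun p : ℝ × ℝ => -(bL (q : ℝ) (bz (q : ℝ)) p) - bKz q * (2 - p.2))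
      (bC q) (bXi q) = 0 := by
    have hd1 : HasFDerivAt (fun p : ℝ × ℝ => -(bL (q : ℝ) (bz (q : ℝ)) p))
        (-(fderiv ℝ (bL (q : ℝ) (bz (q : ℝ))) (bC q))) (bC q) := hLd.hasFDerivAt.neg
    have hd2 : HasFDerivAt (fun p : ℝ × ℝ => bKz q * (2 - p.2))
        (bKz q • (-(ContinuousLinearMap.snd ℝ ℝ ℝ))) (bC q) := by
      have := ((hasFDerivAt_snd (𝕜 := ℝ) (E := ℝ) (F := ℝ) (p := bC q)).const_sub 2).const_mul
        (bKz q)
      exact this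
    have hd3 : HasFDerivAt
        (fun p : ℝ × ℝ => -(bL (q : ℝ) (bz (q : ℝ)) p) - bKz q * (2 - p.2))
        (-(fderiv ℝ (bL (q : ℝ) (bz (q : ℝ))) (bC q))
          - bKz q • (-(ContinuousLinearMap.snd ℝ ℝ ℝ))) (bC q) := hd1.sub hd2
    rw [hd3.fderiv]
    simp only [sub_apply, neg_apply,
      smul_apply, ContinuousLinearMap.coe_snd',
      symCor3_fderiv_bL_bC hqR hz, fderiv_bz_bC hqR]
    have e : (bXi (q : ℝ)).2 = 1 := rfl
    rw [e, smul_eq_mul]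
    field_simp
    ring
  obtain ⟨C, hC⟩ := h.symJ2 hq hG h0 h1 j
  refine ⟨C, fun Ξ hΞ => ?_⟩
  have key : th^[j] (fun x => -th z x - bKz q * bJ w x) Ξ
      = th^[j] (fun x => (fun p : ℝ × ℝ => -(bL (q : ℝ) (bz (q : ℝ)) p) - bKz q * (2 - p.2))
          (bPQ w x)) Ξ := by
    refine th_iter_congr (fun y hy => ?_) j Ξ hΞ
    have e1 : th z y = th (fun x => bz (q : ℝ) (bPQ w x)) y := th_congr h.eqH y hy
    have e2 : th (fun x => bz (q : ℝ) (bPQ w x)) y = bL q (bz (q : ℝ)) (bPQ w y) :=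
      h.th_comp hq hz y hy
    rw [e1, e2]
    rfl
  rw [key]
  exact hC Ξ hΞ

end Claimed.Agent.R324
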