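/-
Row 324, module B (additions requested by the chief architect, msg #20753), file ThA: algebra of `th = 2 Ξ d/dΞ` on functions which are smooth on (0,∞).   Architect: helper263.
Everything here is elementary calculus on the OPEN set `Ioi 0` (`isOpen_Ioi`);  `th f Ξ = 2 * Ξ * deriv f Ξ` (Bohm/Defs.lean).

* `th_contDiffOn_pos`: `ContDiffOn.deriv_of_isOpen hf isOpen_Ioi (by simp)` gives smoothness of `deriv f`; multiply by the polynomial 2Ξ.
* `th_iter_contDiffOn_pos`: induction (`Function.iterate_succ_apply'`).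
* `th_eqOn_pos`: f = g near Ξ > 0 (`Ioi_mem_nhds`), `Filter.EventuallyEq.deriv_eq`.      `th_iter_eqOn_pos`: induction on j generalising f g (`Function.iterate_succ_apply`).
* `th_add_pos`, `th_mul_pos`: `deriv_add`/`deriv_mul` (or the `deriv_fun_add`, `deriv_fun_mul` variants) at Ξ > 0; differentiability from ContDiffOn on an open set; `ring`.
* `th_const_mul`: `deriv_const_mul_field`, no differentiability needed.      `th_iter_const_mul`: induction.
* `th_iter_add_pos`: induction on j generalising f g:  th^[j+1](f+g) = th^[j](th (f+g)) = th^[j](th f + th g) on Ioi 0 by `th_iter_eqOn_pos (th_add_pos ..)`, then the induction hypothesis for th f, th g.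
-/
import Claimed.Agent.R324.Bohm.Defs

set_option autoImplicit false

namespace Claimed.Agent.R324

open Set
open scoped ContDiff

variable {f g : ℝ → ℝ}

theorem th_differentiableAt_pos (hf : ContDiffOn ℝ ∞ f (Ioi 0)) {x : ℝ} (hx : x ∈ Ioi (0 : ℝ)) :
    DifferentiableAt ℝ f x :=
  ((hf.differentiableOn (by simp)) x hx).differentiableAt (isOpen_Ioi.mem_nhds hx)

theorem th_contDiffOn_pos (hf : ContDiffOn ℝ ∞ f (Ioi 0)) : ContDiffOn ℝ ∞ (th f) (Ioi 0) := by
  have h1 : ContDiffOn ℝ ∞ (deriv f) (Ioi 0) := ContDiffOn.deriv_of_isOpen hf isOpen_Ioi (by simp)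
  have h2 : ContDiffOn ℝ ∞ (fun x : ℝ => 2 * x) (Ioi 0) := (contDiff_const.mul contDiff_id).contDiffOn
  exact h2.mul h1

theorem th_iter_contDiffOn_pos (hf : ContDiffOn ℝ ∞ f (Ioi 0)) (j : ℕ) :
    ContDiffOn ℝ ∞ (th^[j] f) (Ioi 0) := by
  induction j with
  | zero => exact hf
  | succ j ih =>
    rw [Function.iterate_succ_apply']
    exact th_contDiffOn_pos ih

theorem th_eqOn_pos (h : EqOn f g (Ioi 0)) : EqOn (th f) (th g) (Ioi 0) := by
  intro x hx
  have h1 : f =ᶠ[nhds x] g := Filter.eventuallyEq_of_mem (isOpen_Ioi.mem_nhds hx) h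
  unfold th
  rw [h1.deriv_eq]

theorem th_iter_eqOn_pos (h : EqOn f g (Ioi 0)) (j : ℕ) : EqOn (th^[j] f) (th^[j] g) (Ioi 0) := by
  induction j with
  | zero => exact h
  | succ j ih =>
    rw [Function.iterate_succ_apply', Function.iterate_succ_apply']
    exact th_eqOn_pos ih

theorem th_add_pos (hf : ContDiffOn ℝ ∞ f (Ioi 0)) (hg : ContDiffOn ℝ ∞ g (Ioi 0)) :
    EqOn (th (fun x => f x + g x)) (fun x => th f x + th g x) (Ioi 0) := by
  intro x hx
  simp only [th]
  rw [deriv_fun_add (th_differentiableAt_pos hf hx) (th_differentiableAt_pos hg hx)]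
  ring

theorem th_mul_pos (hf : ContDiffOn ℝ ∞ f (Ioi 0)) (hg : ContDiffOn ℝ ∞ g (Ioi 0)) :
    EqOn (th (fun x => f x * g x)) (fun x => th f x * g x + f x * th g x) (Ioi 0) := by
  intro x hx
  simp only [th]
  rw [deriv_fun_mul (th_differentiableAt_pos hf hx) (th_differentiableAt_pos hg hx)]
  ring

theorem th_const_mul (c : ℝ) (f : ℝ → ℝ) : th (fun x => c * f x) = fun x => c * th f x := by
  funext x
  simp only [th]
  rw [deriv_const_mul_field]
  ring

theorem th_iter_const_mul (c : ℝ) (f : ℝ → ℝ) (j : ℕ) :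
    th^[j] (fun x => c * f x) = fun x => c * th^[j] f x := by
  induction j with
  | zero => rfl
  | succ j ih =>
    rw [Function.iterate_succ_apply', ih, th_const_mul]
    funext x
    rw [Function.iterate_succ_apply']

theorem th_iter_add_pos (hf : ContDiffOn ℝ ∞ f (Ioi 0)) (hg : ContDiffOn ℝ ∞ g (Ioi 0)) (j : ℕ) :
    EqOn (th^[j] (fun x => f x + g x)) (fun x => th^[j] f x + th^[j] g x) (Ioi 0) := by
  induction j with
  | zero => exact fun x _ => rfl
  | succ j ih =>
    intro x hx
    rw [Function.iterate_succ_apply', th_eqOn_pos ih hx,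
      th_add_pos (th_iter_contDiffOn_pos hf j) (th_iter_contDiffOn_pos hg j) hx]
    simp only [Function.iterate_succ_apply']

end Claimed.Agent.R324
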