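/-
Row 324, module B (additions), file ThC: the class `ThC β f`:  f smooth on (0,∞) and th^j f = O(β) on [1,∞) for every j.   Architect: helper263.
All closure properties are proved WITHOUT binomial sums, by induction on j over the whole class (the class is stable under `th` by definition: shift j).

* `ThC.apply_th`: sm: `th_contDiffOn_pos`;  bd j := bd (j+1) of f  (`Function.iterate_succ_apply`: th^[j+1] f = th^[j] (th f)).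
* `ThC.congr`: `th_iter_eqOn_pos` (1 ≤ Ξ ⟹ Ξ ∈ Ioi 0).
* `ThC.mono`: |..| ≤ C β ≤ |C| β ≤ |C| K β'   (β ≥ 0).
* `ThC.const_mul`: `th_iter_const_mul`, constant |c| * C.
* `ThC.add`: `th_iter_add_pos`, triangle inequality, constant C₁ + C₂.
* `ThC.mul`: prove  ∀ j, ∀ f g, ThC β₁ f → ThC β₂ g → ∃ C, ∀ Ξ ≥ 1, |th^[j] (f g) Ξ| ≤ C β₁ β₂  by induction on j.
     j = 0: |f g| = |f| |g| ≤ (C₁ β₁)(C₂ β₂)  (`mul_le_mul h1 h2 (abs_nonneg _) ((abs_nonneg _).trans h1)`).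
     j+1:  th^[j+1](f g) = th^[j](th (f g)) = th^[j](th f * g + f * th g) = th^[j](th f * g) + th^[j](f * th g) on Ioi 0  (`th_iter_eqOn_pos (th_mul_pos ..)`, `th_iter_add_pos`); induction hypothesis for (th f, g) and (f, th g).
-/
import Claimed.Agent.R324.Bohm.ThA

set_option autoImplicit false

namespace Claimed.Agent.R324

open Set
open scoped ContDiff

/-- `f` is smooth on `(0,∞)` and `th^j f = O(β)` on `[1,∞)` for every `j`. -/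
structure ThC (β f : ℝ → ℝ) : Prop where
  sm : ContDiffOn ℝ ∞ f (Ioi 0)
  bd : ∀ j : ℕ, ∃ C : ℝ, ∀ Ξ, 1 ≤ Ξ → |th^[j] f Ξ| ≤ C * β Ξ

variable {β β₁ β₂ β' f g : ℝ → ℝ}

theorem ThC.apply_th (h : ThC β f) : ThC β (th f) := by
  refine ⟨th_contDiffOn_pos h.sm, fun j => ?_⟩
  obtain ⟨C, hC⟩ := h.bd (j + 1)
  refine ⟨C, fun Ξ hΞ => ?_⟩
  have h1 := hC Ξ hΞ
  rwa [Function.iterate_succ_apply] at h1

theorem ThC.congr (h : ThC β f) (e : EqOn g f (Ioi 0)) : ThC β g := by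
  refine ⟨h.sm.congr e, fun j => ?_⟩
  obtain ⟨C, hC⟩ := h.bd j
  refine ⟨C, fun Ξ hΞ => ?_⟩
  rw [th_iter_eqOn_pos e j (show Ξ ∈ Ioi 0 from lt_of_lt_of_le one_pos hΞ)]
  exact hC Ξ hΞ

theorem ThC.mono (h : ThC β f) (h0 : ∀ Ξ, 1 ≤ Ξ → 0 ≤ β Ξ) {K : ℝ}
    (hK : ∀ Ξ, 1 ≤ Ξ → β Ξ ≤ K * β' Ξ) : ThC β' f := by
  refine ⟨h.sm, fun j => ?_⟩
  obtain ⟨C, hC⟩ := h.bd j
  refine ⟨|C| * K, fun Ξ hΞ => ?_⟩
  calc |th^[j] f Ξ| ≤ C * β Ξ := hC Ξ hΞ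
    _ ≤ |C| * β Ξ := mul_le_mul_of_nonneg_right (le_abs_self C) (h0 Ξ hΞ)
    _ ≤ |C| * (K * β' Ξ) := mul_le_mul_of_nonneg_left (hK Ξ hΞ) (abs_nonneg C)
    _ = |C| * K * β' Ξ := by ring

theorem ThC.const_mul (h : ThC β f) (c : ℝ) : ThC β (fun x => c * f x) := by
  refine ⟨contDiffOn_const.mul h.sm, fun j => ?_⟩
  obtain ⟨C, hC⟩ := h.bd j
  refine ⟨|c| * C, fun Ξ hΞ => ?_⟩
  rw [th_iter_const_mul, abs_mul, mul_assoc]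
  exact mul_le_mul_of_nonneg_left (hC Ξ hΞ) (abs_nonneg c)

theorem ThC.add (hf : ThC β f) (hg : ThC β g) : ThC β (fun x => f x + g x) := by
  refine ⟨hf.sm.add hg.sm, fun j => ?_⟩
  obtain ⟨C₁, h₁⟩ := hf.bd j
  obtain ⟨C₂, h₂⟩ := hg.bd j
  refine ⟨C₁ + C₂, fun Ξ hΞ => ?_⟩
  rw [th_iter_add_pos hf.sm hg.sm j (show Ξ ∈ Ioi 0 from lt_of_lt_of_le one_pos hΞ)]
  calc |th^[j] f Ξ + th^[j] g Ξ| ≤ |th^[j] f Ξ| + |th^[j] g Ξ| := abs_add_le _ _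
    _ ≤ C₁ * β Ξ + C₂ * β Ξ := add_le_add (h₁ Ξ hΞ) (h₂ Ξ hΞ)
    _ = (C₁ + C₂) * β Ξ := by ring

theorem ThC.sub (hf : ThC β f) (hg : ThC β g) : ThC β (fun x => f x - g x) := by
  refine (hf.add (hg.const_mul (-1))).congr (fun x _ => ?_)
  show f x - g x = f x + -1 * g x
  ring

theorem thC_mul_aux (j : ℕ) : ∀ f g : ℝ → ℝ, ThC β₁ f → ThC β₂ g →
    ∃ C : ℝ, ∀ Ξ, 1 ≤ Ξ → |th^[j] (fun x => f x * g x) Ξ| ≤ C * (β₁ Ξ * β₂ Ξ) := by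
  induction j with
  | zero =>
    intro f g hf hg
    obtain ⟨C₁, h₁⟩ := hf.bd 0
    obtain ⟨C₂, h₂⟩ := hg.bd 0
    refine ⟨C₁ * C₂, fun Ξ hΞ => ?_⟩
    have e₁ := h₁ Ξ hΞ
    have e₂ := h₂ Ξ hΞ
    simp only [Function.iterate_zero, id_eq] at e₁ e₂ ⊢
    rw [abs_mul]
    calc |f Ξ| * |g Ξ| ≤ (C₁ * β₁ Ξ) * (C₂ * β₂ Ξ) :=
          mul_le_mul e₁ e₂ (abs_nonneg _) ((abs_nonneg _).trans e₁)
      _ = C₁ * C₂ * (β₁ Ξ * β₂ Ξ) := by ring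
  | succ j ih =>
    intro f g hf hg
    obtain ⟨C₁, h₁⟩ := ih (th f) g hf.apply_th hg
    obtain ⟨C₂, h₂⟩ := ih f (th g) hf hg.apply_th
    refine ⟨C₁ + C₂, fun Ξ hΞ => ?_⟩
    have hpos : Ξ ∈ Ioi (0 : ℝ) := lt_of_lt_of_le one_pos hΞ
    rw [Function.iterate_succ_apply, th_iter_eqOn_pos (th_mul_pos hf.sm hg.sm) j hpos,
      th_iter_add_pos (hf.apply_th.sm.mul hg.sm) (hf.sm.mul hg.apply_th.sm) j hpos]
    calc |th^[j] (fun x => th f x * g x) Ξ + th^[j] (fun x => f x * th g x) Ξ|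
        ≤ |th^[j] (fun x => th f x * g x) Ξ| + |th^[j] (fun x => f x * th g x) Ξ| :=
          abs_add_le _ _
      _ ≤ C₁ * (β₁ Ξ * β₂ Ξ) + C₂ * (β₁ Ξ * β₂ Ξ) := add_le_add (h₁ Ξ hΞ) (h₂ Ξ hΞ)
      _ = (C₁ + C₂) * (β₁ Ξ * β₂ Ξ) := by ring

theorem ThC.mul (hf : ThC β₁ f) (hg : ThC β₂ g) :
    ThC (fun x => β₁ x * β₂ x) (fun x => f x * g x) := by
  exact ⟨hf.sm.mul hg.sm, fun j => thC_mul_aux j f g hf hg⟩

end Claimed.Agent.R324
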