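/-
Row 324, module B (additions), file ThD: examples of the class `ThC` (Bohm/ThC.lean) and stability under d/dΞ.   Architect: helper263.

* `thC_const`: th of a constant is 0 (`deriv_const`), so th^[j] (const) is c (j = 0) or 0;  easiest: th^[j+1] (fun _ => c) = fun _ => 0 by induction.
* `thC_rpow`: on Ioi 0:  th (Ξ^s) = 2 s Ξ^s  (`Real.hasDerivAt_rpow_const`, Ξ * Ξ^(s-1) = Ξ^s by `Real.rpow_sub_one`/`Real.rpow_add`);   hence th^[j] (Ξ^s) = (2s)^j Ξ^s on Ioi 0 (induction with `th_iter_eqOn_pos`, `th_iter_const_mul`).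
     smoothness on Ioi 0: `Real.contDiffAt_rpow_const_of_ne` / `ContDiffAt.rpow_const_of_ne`.
* `thC_inv`: the case s = -1 (`Real.rpow_neg_one`) — rewrite weight and function by `funext`/`ThC.congr` — or directly.      `thC_id`: s = 1 (`Real.rpow_one`).
* `ThC.apply_deriv`: on Ioi 0:  deriv f Ξ = (1/2) * (Ξ⁻¹ * th f Ξ);   `ThC.congr`, `ThC.const_mul`, `ThC.mul thC_inv h.apply_th`;  weights: Ξ⁻¹ * β = β / Ξ (rewrite by `funext`, `div_eq_inv_mul`).
* `ThC.iter_deriv`: induction on j, `iteratedDeriv_succ`, β/Ξ^j/Ξ = β/Ξ^(j+1) (`funext`, `div_div`, `pow_succ`); j = 0: `iteratedDeriv_zero`, β/Ξ^0 = β.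
-/
import Claimed.Agent.R324.Bohm.ThC

set_option autoImplicit false

namespace Claimed.Agent.R324

open Set
open scoped ContDiff

variable {β f : ℝ → ℝ}

theorem thD_th_const (c : ℝ) : th (fun _ => c) = fun _ => 0 := by
  funext x
  simp [th]

theorem thD_iter_zero (j : ℕ) : th^[j] (fun _ => (0 : ℝ)) = fun _ => 0 := by
  induction j with
  | zero => rfl
  | succ j ih => rw [Function.iterate_succ_apply, thD_th_const, ih]

theorem thC_const (c : ℝ) : ThC (fun _ => 1) (fun _ => c) := by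
  refine ⟨contDiffOn_const, fun j => ⟨|c|, fun Ξ _ => ?_⟩⟩
  cases j with
  | zero => simp
  | succ j =>
    rw [Function.iterate_succ_apply, thD_th_const, thD_iter_zero]
    simp

theorem thD_th_rpow (s : ℝ) : EqOn (th (fun x => x ^ s)) (fun x => (2 * s) * x ^ s) (Ioi 0) := by
  intro x hx
  have hx0 : (0 : ℝ) < x := hx
  have h1 : deriv (fun x : ℝ => x ^ s) x = s * x ^ (s - 1) := Real.deriv_rpow_const x s
  have h2 : x * x ^ (s - 1) = x ^ s := by
    rw [Real.rpow_sub_one hx0.ne']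
    field_simp
  show 2 * x * deriv (fun x : ℝ => x ^ s) x = (2 * s) * x ^ s
  rw [h1, ← h2]
  ring

theorem thD_iter_rpow (s : ℝ) (j : ℕ) :
    EqOn (th^[j] (fun x => x ^ s)) (fun x => (2 * s) ^ j * x ^ s) (Ioi 0) := by
  induction j with
  | zero =>
    intro x _
    simp
  | succ j ih =>
    intro x hx
    rw [Function.iterate_succ_apply, th_iter_eqOn_pos (thD_th_rpow s) j hx, th_iter_const_mul]
    show (2 * s) * th^[j] (fun x => x ^ s) x = (2 * s) ^ (j + 1) * x ^ s
    rw [ih hx]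
    ring

theorem thC_rpow (s : ℝ) : ThC (fun x => x ^ s) (fun x => x ^ s) := by
  refine ⟨fun x hx => (Real.contDiffAt_rpow_const_of_ne (ne_of_gt hx)).contDiffWithinAt,
    fun j => ⟨|(2 * s) ^ j|, fun Ξ hΞ => ?_⟩⟩
  have h0 : (0 : ℝ) < Ξ := by linarith
  rw [thD_iter_rpow s j (mem_Ioi.2 h0), abs_mul, abs_of_nonneg (Real.rpow_nonneg h0.le s)]

theorem thC_inv : ThC (fun x => x⁻¹) (fun x => x⁻¹) := by
  have h := thC_rpow (-1)
  have e : (fun x : ℝ => x ^ (-1 : ℝ)) = fun x => x⁻¹ := funext fun x => Real.rpow_neg_one x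
  rwa [e] at h

theorem thC_id : ThC (fun x => x) (fun x => x) := by
  have h := thC_rpow 1
  have e : (fun x : ℝ => x ^ (1 : ℝ)) = fun x => x := funext fun x => Real.rpow_one x
  rwa [e] at h

theorem ThC.apply_deriv (h : ThC β f) : ThC (fun x => β x / x) (deriv f) := by
  have h1 := (ThC.mul thC_inv h.apply_th).const_mul (1 / 2)
  have e : (fun x : ℝ => x⁻¹ * β x) = fun x => β x / x := funext fun x => (div_eq_inv_mul _ _).symm
  rw [e] at h1
  refine h1.congr ?_
  intro x hx
  have hx0 : x ≠ 0 := ne_of_gt hx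
  show deriv f x = 1 / 2 * (x⁻¹ * (2 * x * deriv f x))
  field_simp

theorem ThC.iter_deriv (h : ThC β f) (j : ℕ) : ThC (fun x => β x / x ^ j) (iteratedDeriv j f) := by
  induction j with
  | zero =>
    have e : (fun x : ℝ => β x / x ^ 0) = β := funext fun x => by rw [pow_zero, div_one]
    rw [e, iteratedDeriv_zero]
    exact h
  | succ j ih =>
    have h1 := ih.apply_deriv
    have e : (fun x : ℝ => β x / x ^ j / x) = fun x => β x / x ^ (j + 1) :=
      funext fun x => by rw [div_div, pow_succ]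
    rw [e] at h1
    rw [iteratedDeriv_succ]
    exact h1

end Claimed.Agent.R324
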