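/-
Row 324, module B (additions), file Symb: symbol classes up to Ξ = 0.   Architect: helper263.
   IsSymb β f :   f smooth on ℝ   and   |f^(j)(Ξ)| ≤ C_j β(Ξ) (1+Ξ)^(-j)   for all Ξ ≥ 0, j.

* `isSymb_of_thC`:  fix j.   [1,∞):  `ThC.iter_deriv h j` at th-order 0 gives |f^(j)(Ξ)| ≤ C β(Ξ)/Ξ^j, and 1/Ξ^j ≤ 2^j/(1+Ξ)^j (1+Ξ ≤ 2Ξ); replace C by |C| (β ≥ 0).
       [0,1]:  f^(j) is continuous (`ContDiff.continuous_iteratedDeriv j hf (by simp)`), so bounded by some M ≥ 0 on the compact `Icc 0 1` (`IsCompact.exists_bound_of_continuousOn`);   M ≤ (M 2^j/c) β(Ξ)/(1+Ξ)^j  since β ≥ c, (1+Ξ)^j ≤ 2^j.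
       Constant: |C| 2^j + M 2^j / c.
* `IsSymb.mono`: as `ThC.mono`.
-/
import Claimed.Agent.R324.Bohm.ThD

set_option autoImplicit false

namespace Claimed.Agent.R324

open Set
open scoped ContDiff

/-- symbol of weight `β` on `[0,∞)`. -/
def IsSymb (β f : ℝ → ℝ) : Prop :=
  ContDiff ℝ ∞ f ∧ ∀ j : ℕ, ∃ C : ℝ, ∀ Ξ, 0 ≤ Ξ → |iteratedDeriv j f Ξ| ≤ C * β Ξ / (1 + Ξ) ^ j

variable {β β₁ β₂ β' f g : ℝ → ℝ}

theorem isSymb_of_thC (hf : ContDiff ℝ ∞ f) (h : ThC β f) (h0 : ∀ Ξ, 0 ≤ Ξ → 0 ≤ β Ξ)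
    {c : ℝ} (hc : 0 < c) (hβ : ∀ Ξ ∈ Icc (0 : ℝ) 1, c ≤ β Ξ) : IsSymb β f := by
  refine ⟨hf, fun j => ?_⟩
  obtain ⟨C, hC⟩ := (h.iter_deriv j).bd 0
  have hcont : Continuous (iteratedDeriv j f) := hf.continuous_iteratedDeriv j (by exact_mod_cast le_top)
  obtain ⟨M, hM⟩ := isCompact_Icc.exists_bound_of_continuousOn (hcont.continuousOn (s := Icc (0 : ℝ) 1))
  have hM0 : 0 ≤ M := (norm_nonneg _).trans (hM 0 ⟨le_rfl, zero_le_one⟩)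
  refine ⟨|C| * 2 ^ j + M * 2 ^ j / c, fun Ξ hΞ => ?_⟩
  have h1Ξ : 0 < 1 + Ξ := by linarith
  have hβ0 := h0 Ξ hΞ
  rw [le_div_iff₀ (pow_pos h1Ξ j), add_mul]
  have hA : 0 ≤ |C| * 2 ^ j * β Ξ := by positivity
  have hB : 0 ≤ M * 2 ^ j / c * β Ξ := by positivity
  have habs := abs_nonneg (iteratedDeriv j f Ξ)
  rcases le_total 1 Ξ with h1 | h1
  · have hΞ0 : 0 < Ξ := by linarith
    have h2 : |iteratedDeriv j f Ξ| ≤ C * (β Ξ / Ξ ^ j) := hC Ξ h1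
    have h3 : |iteratedDeriv j f Ξ| * Ξ ^ j ≤ |C| * β Ξ := by
      have h4 : C * (β Ξ / Ξ ^ j) = C * β Ξ / Ξ ^ j := by ring
      rw [h4, le_div_iff₀ (pow_pos hΞ0 j)] at h2
      exact h2.trans (mul_le_mul_of_nonneg_right (le_abs_self C) hβ0)
    have h5 : (1 + Ξ) ^ j ≤ 2 ^ j * Ξ ^ j := by
      rw [← mul_pow]
      exact pow_le_pow_left₀ h1Ξ.le (by linarith) j
    calc |iteratedDeriv j f Ξ| * (1 + Ξ) ^ j ≤ |iteratedDeriv j f Ξ| * (2 ^ j * Ξ ^ j) :=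
          mul_le_mul_of_nonneg_left h5 habs
      _ = 2 ^ j * (|iteratedDeriv j f Ξ| * Ξ ^ j) := by ring
      _ ≤ 2 ^ j * (|C| * β Ξ) := mul_le_mul_of_nonneg_left h3 (by positivity)
      _ = |C| * 2 ^ j * β Ξ := by ring
      _ ≤ |C| * 2 ^ j * β Ξ + M * 2 ^ j / c * β Ξ := by linarith
  · have h2 : |iteratedDeriv j f Ξ| ≤ M := hM Ξ ⟨hΞ, h1⟩
    have h3 : (1 + Ξ) ^ j ≤ 2 ^ j := pow_le_pow_left₀ h1Ξ.le (by linarith) j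
    have h4 : c ≤ β Ξ := hβ Ξ ⟨hΞ, h1⟩
    calc |iteratedDeriv j f Ξ| * (1 + Ξ) ^ j ≤ M * 2 ^ j :=
          mul_le_mul h2 h3 (by positivity) hM0
      _ = M * 2 ^ j / c * c := by field_simp
      _ ≤ M * 2 ^ j / c * β Ξ := mul_le_mul_of_nonneg_left h4 (by positivity)
      _ ≤ |C| * 2 ^ j * β Ξ + M * 2 ^ j / c * β Ξ := by linarith

theorem IsSymb.mono (h : IsSymb β f) (h0 : ∀ Ξ, 0 ≤ Ξ → 0 ≤ β Ξ) {K : ℝ}
    (hK : ∀ Ξ, 0 ≤ Ξ → β Ξ ≤ K * β' Ξ) : IsSymb β' f := by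
  refine ⟨h.1, fun j => ?_⟩
  obtain ⟨C, hC⟩ := h.2 j
  refine ⟨|C| * K, fun Ξ hΞ => ?_⟩
  have h1Ξ : 0 < 1 + Ξ := by linarith
  refine (hC Ξ hΞ).trans ?_
  apply div_le_div_of_nonneg_right _ (pow_pos h1Ξ j).le
  calc C * β Ξ ≤ |C| * β Ξ := mul_le_mul_of_nonneg_right (le_abs_self C) (h0 Ξ hΞ)
    _ ≤ |C| * (K * β' Ξ) := mul_le_mul_of_nonneg_left (hK Ξ hΞ) (abs_nonneg C)
    _ = |C| * K * β' Ξ := by ring

end Claimed.Agent.R324
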