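/-
Row 324, module B (additions), file SymbA: algebra of the symbol classes `IsSymb` (Bohm/Symb.lean).   Architect: helper263.

* `IsSymb.add`, `const_mul`: `iteratedDeriv_add`/`iteratedDeriv_fun_add`, `iteratedDeriv_const_mul_field`.
* `IsSymb.mul`: Leibniz `iteratedDeriv_fun_mul` (Mathlib.Analysis.Calculus.IteratedDeriv.Lemmas):  f^(i) g^(j-i) ≤ C_i β₁ (1+Ξ)^(-i) C'_(j-i) β₂ (1+Ξ)^(-(j-i));  choose the constants with `choose`/`Classical.choose`, sum over `Finset.range (j+1)`.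
* `IsSymb.apply_deriv`: `iteratedDeriv_succ'`: iteratedDeriv j (deriv f) = iteratedDeriv (j+1) f;  smoothness `contDiff_infty_iff_deriv`.
* `isSymb_const`, `isSymb_id`: iteratedDeriv of constants / of id (`iteratedDeriv_const`, `iteratedDeriv_fun_id`).
* `IsSymb.apply_th`: th f = 2 * (Ξ * deriv f):  `IsSymb.mul isSymb_id h.apply_deriv`, weight (1+Ξ) * (β/(1+Ξ)) = β on Ξ ≥ 0 — use `IsSymb.mono` (needs β ≥ 0) or a congruence lemma for weights which agree on Ξ ≥ 0.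
* `IsSymb.th_iter`: induction; at derivative order 0 this is the bound |th^[j] f| ≤ C β.
-/
import Claimed.Agent.R324.Bohm.Symb

set_option autoImplicit false

namespace Claimed.Agent.R324

open Set
open scoped ContDiff

variable {β β₁ β₂ f g : ℝ → ℝ}

theorem IsSymb.const_mul (h : IsSymb β f) (c : ℝ) : IsSymb β (fun x => c * f x) := by
  refine ⟨contDiff_const.mul h.1, fun j => ?_⟩
  obtain ⟨C, hC⟩ := h.2 j
  refine ⟨|c| * C, fun Ξ hΞ => ?_⟩
  have h1 : iteratedDeriv j (fun x => c * f x) Ξ = c * iteratedDeriv j f Ξ := by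
    simp
  rw [h1, abs_mul]
  calc |c| * |iteratedDeriv j f Ξ| ≤ |c| * (C * β Ξ / (1 + Ξ) ^ j) :=
        mul_le_mul_of_nonneg_left (hC Ξ hΞ) (abs_nonneg _)
    _ = |c| * C * β Ξ / (1 + Ξ) ^ j := by ring

theorem IsSymb.add (hf : IsSymb β f) (hg : IsSymb β g) : IsSymb β (fun x => f x + g x) := by
  refine ⟨hf.1.add hg.1, fun j => ?_⟩
  obtain ⟨C₁, hC₁⟩ := hf.2 j
  obtain ⟨C₂, hC₂⟩ := hg.2 j
  refine ⟨C₁ + C₂, fun Ξ hΞ => ?_⟩
  have h1 : iteratedDeriv j (fun x => f x + g x) Ξ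
      = iteratedDeriv j f Ξ + iteratedDeriv j g Ξ :=
    iteratedDeriv_fun_add ((hf.1.of_le (by exact_mod_cast le_top)).contDiffAt)
      ((hg.1.of_le (by exact_mod_cast le_top)).contDiffAt)
  rw [h1]
  calc |iteratedDeriv j f Ξ + iteratedDeriv j g Ξ|
      ≤ |iteratedDeriv j f Ξ| + |iteratedDeriv j g Ξ| := abs_add_le _ _
    _ ≤ C₁ * β Ξ / (1 + Ξ) ^ j + C₂ * β Ξ / (1 + Ξ) ^ j := add_le_add (hC₁ Ξ hΞ) (hC₂ Ξ hΞ)
    _ = (C₁ + C₂) * β Ξ / (1 + Ξ) ^ j := by ring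

theorem IsSymb.sub (hf : IsSymb β f) (hg : IsSymb β g) : IsSymb β (fun x => f x - g x) := by
  have h := hf.add (hg.const_mul (-1))
  have e : (fun x => f x - g x) = fun x => f x + -1 * g x := by
    funext x; ring
  rw [e]; exact h

theorem IsSymb.mul (hf : IsSymb β₁ f) (hg : IsSymb β₂ g) :
    IsSymb (fun x => β₁ x * β₂ x) (fun x => f x * g x) := by
  refine ⟨hf.1.mul hg.1, fun j => ?_⟩
  choose C₁ hC₁ using hf.2
  choose C₂ hC₂ using hg.2
  refine ⟨∑ i ∈ Finset.range (j + 1), (j.choose i : ℝ) * C₁ i * C₂ (j - i), fun Ξ hΞ => ?_⟩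
  have h1 : iteratedDeriv j (fun x => f x * g x) Ξ
      = ∑ i ∈ Finset.range (j + 1),
          (j.choose i : ℝ) * iteratedDeriv i f Ξ * iteratedDeriv (j - i) g Ξ :=
    iteratedDeriv_fun_mul ((hf.1.of_le (by exact_mod_cast le_top)).contDiffAt)
      ((hg.1.of_le (by exact_mod_cast le_top)).contDiffAt)
  have hpos : (0 : ℝ) < 1 + Ξ := by linarith
  rw [h1]
  calc |∑ i ∈ Finset.range (j + 1),
          (j.choose i : ℝ) * iteratedDeriv i f Ξ * iteratedDeriv (j - i) g Ξ|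
      ≤ ∑ i ∈ Finset.range (j + 1),
          |(j.choose i : ℝ) * iteratedDeriv i f Ξ * iteratedDeriv (j - i) g Ξ| :=
        Finset.abs_sum_le_sum_abs _ _
    _ ≤ ∑ i ∈ Finset.range (j + 1),
          (j.choose i : ℝ) * C₁ i * C₂ (j - i) * (β₁ Ξ * β₂ Ξ) / (1 + Ξ) ^ j := by
        refine Finset.sum_le_sum fun i hi => ?_
        have hij : i ≤ j := Nat.lt_succ_iff.1 (Finset.mem_range.1 hi)
        have ha := hC₁ i Ξ hΞ
        have hb := hC₂ (j - i) Ξ hΞ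
        have hab : |iteratedDeriv i f Ξ| * |iteratedDeriv (j - i) g Ξ|
            ≤ (C₁ i * β₁ Ξ / (1 + Ξ) ^ i) * (C₂ (j - i) * β₂ Ξ / (1 + Ξ) ^ (j - i)) :=
          mul_le_mul ha hb (abs_nonneg _) (le_trans (abs_nonneg _) ha)
        have hpow : (1 + Ξ) ^ j = (1 + Ξ) ^ i * (1 + Ξ) ^ (j - i) := by
          rw [← pow_add, Nat.add_sub_cancel' hij]
        rw [abs_mul, abs_mul, Nat.abs_cast, mul_assoc]
        calc (j.choose i : ℝ) * (|iteratedDeriv i f Ξ| * |iteratedDeriv (j - i) g Ξ|)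
            ≤ (j.choose i : ℝ) * ((C₁ i * β₁ Ξ / (1 + Ξ) ^ i)
                * (C₂ (j - i) * β₂ Ξ / (1 + Ξ) ^ (j - i))) :=
              mul_le_mul_of_nonneg_left hab (Nat.cast_nonneg _)
          _ = (j.choose i : ℝ) * C₁ i * C₂ (j - i) * (β₁ Ξ * β₂ Ξ) / (1 + Ξ) ^ j := by
              rw [hpow]
              have h1 : (1 + Ξ) ^ i ≠ 0 := (pow_pos hpos _).ne'
              have h2 : (1 + Ξ) ^ (j - i) ≠ 0 := (pow_pos hpos _).ne'
              field_simp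
    _ = (∑ i ∈ Finset.range (j + 1), (j.choose i : ℝ) * C₁ i * C₂ (j - i))
          * (β₁ Ξ * β₂ Ξ) / (1 + Ξ) ^ j := by
        rw [Finset.sum_mul, Finset.sum_div]

theorem IsSymb.apply_deriv (h : IsSymb β f) : IsSymb (fun x => β x / (1 + x)) (deriv f) := by
  refine ⟨(contDiff_infty_iff_deriv.1 h.1).2, fun j => ?_⟩
  obtain ⟨C, hC⟩ := h.2 (j + 1)
  refine ⟨C, fun Ξ hΞ => ?_⟩
  have h1 : iteratedDeriv j (deriv f) Ξ = iteratedDeriv (j + 1) f Ξ := by
    rw [iteratedDeriv_succ']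
  rw [h1]
  refine (hC Ξ hΞ).trans (le_of_eq ?_)
  have hpos : (0 : ℝ) < 1 + Ξ := by linarith
  have h2 : (1 + Ξ) ^ j ≠ 0 := (pow_pos hpos _).ne'
  rw [pow_succ]
  field_simp

theorem isSymb_const (c : ℝ) : IsSymb (fun _ => 1) (fun _ => c) := by
  refine ⟨contDiff_const, fun j => ⟨|c|, fun Ξ hΞ => ?_⟩⟩
  have hpos : (0 : ℝ) < 1 + Ξ := by linarith
  rw [iteratedDeriv_const]
  by_cases hj : j = 0
  · subst hj; simp
  · simp only [hj, if_false, abs_zero]
    positivity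

theorem isSymb_id : IsSymb (fun x => 1 + x) (fun x => x) := by
  refine ⟨contDiff_id, fun j => ⟨1, fun Ξ hΞ => ?_⟩⟩
  have hpos : (0 : ℝ) < 1 + Ξ := by linarith
  rw [iteratedDeriv_fun_id]
  by_cases hj : j = 0
  · subst hj
    simp only [if_true, pow_zero, div_one, one_mul]
    rw [abs_of_nonneg hΞ]; linarith
  · by_cases hj1 : j = 1
    · subst hj1
      simp only [one_ne_zero, if_false, if_true, abs_one, pow_one, one_mul]
      rw [div_self hpos.ne']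
    · simp only [hj, hj1, if_false, abs_zero]
      positivity

theorem IsSymb.apply_th (h : IsSymb β f) (h0 : ∀ Ξ, 0 ≤ Ξ → 0 ≤ β Ξ) : IsSymb β (th f) := by
  have h1 := (isSymb_id.mul h.apply_deriv).const_mul 2
  have e : th f = fun x => 2 * (x * deriv f x) := by
    funext x; simp only [th]; ring
  rw [e]
  refine h1.mono (K := 1) (fun Ξ hΞ => ?_) (fun Ξ hΞ => ?_)
  · have hpos : (0 : ℝ) < 1 + Ξ := by linarith
    have := h0 Ξ hΞ
    positivity
  · have hpos : (0 : ℝ) < 1 + Ξ := by linarith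
    rw [mul_div_cancel₀ _ hpos.ne', one_mul]

theorem IsSymb.th_iter (h : IsSymb β f) (h0 : ∀ Ξ, 0 ≤ Ξ → 0 ≤ β Ξ) (j : ℕ) :
    ∃ C : ℝ, ∀ Ξ, 0 ≤ Ξ → |th^[j] f Ξ| ≤ C * β Ξ := by
  have key : ∀ j : ℕ, IsSymb β (th^[j] f) := by
    intro j
    induction j with
    | zero => simpa using h
    | succ n ih =>
      rw [Function.iterate_succ_apply']
      exact ih.apply_th h0
  obtain ⟨C, hC⟩ := (key j).2 0
  refine ⟨C, fun Ξ hΞ => ?_⟩
  have := hC Ξ hΞ
  simpa using this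

end Claimed.Agent.R324
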