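/-
Row 324, module B (additions), file SymbG: functions of (P,Q) along a Bohm profile are symbols.   Architect: helper263.
Classes: `ThC` (Bohm/ThC.lean), `IsSymb` (Bohm/Symb.lean).   Inputs: `IsBohm.symJ`, `IsBohm.symJ2` (Bohm/Sym.lean), `IsBohm.J_bounds` (Bohm/Crude.lean).

* `IsBohm.contDiff_bPQ`: bPQ w = (Ξ e^{-w}, 2Ξ w');  w smooth, deriv w smooth (`contDiff_infty_iff_deriv`); `ContDiff.prodMk`.
* `IsBohm.comp_contDiffOn`: `ContDiffOn.comp hG (contDiff_bPQ).contDiffOn`, maps Ioi 0 into bU q: `h.reg`, `bReg_subset_bU`.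
* `thC_of_G1`, `thC_of_G2`: sm = `comp_contDiffOn`;  bd j = `symJ hq hG h0 j`, `symJ2 ..` restricted to Ξ ≥ 1.
* `thC_of_G`:  G = (G - G(cone)) + G(cone):  `thC_of_G1` for p ↦ G p - G (bC q) (smooth: `hG.sub contDiffOn_const`), `ThC.mono` with J ≤ 2 * 1 (J ≥ 0), `ThC.add` with `thC_const`, `ThC.congr`.
* `J_lower`:  bJ w is continuous and positive on the compact Icc 0 1 (`IsCompact.exists_isMinOn`, `J_bounds`);  continuity from `contDiff_bPQ` (bJ w Ξ = 2 - (bPQ w Ξ).2) or from smoothness of w.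
* `symb_of_G`, `symb_of_G1`, `symb_of_G2`:  `ThC.congr` (f = G∘bPQ w on Ioi 0) + `isSymb_of_thC` with c = 1, c₀, c₀² (c₀ from `J_lower`;  c₀² ≤ J²: `pow_le_pow_left₀`).
-/
import Claimed.Agent.R324.Bohm.Symb
import Claimed.Agent.R324.Bohm.Sym
import Claimed.Agent.R324.Bohm.Crude

set_option autoImplicit false

namespace Claimed.Agent.R324

open Set
open scoped ContDiff

variable {q : ℕ} {w z : ℝ → ℝ} {G : ℝ × ℝ → ℝ} {f : ℝ → ℝ}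

theorem IsBohm.contDiff_bPQ (h : IsBohm q w z) : ContDiff ℝ ∞ (bPQ w) := by
  have hdw : ContDiff ℝ ∞ (deriv w) := (contDiff_infty_iff_deriv.1 h.smw).2
  have h1 : ContDiff ℝ ∞ (bP w) := by
    unfold bP
    exact contDiff_id.mul (Real.contDiff_exp.comp h.smw.neg)
  have h2 : ContDiff ℝ ∞ (th w) := by
    unfold th
    exact (contDiff_const.mul contDiff_id).mul hdw
  exact h1.prodMk h2

theorem IsBohm.comp_contDiffOn (hq : 100 ≤ q) (h : IsBohm q w z) (hG : ContDiffOn ℝ ∞ G (bU q)) :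
    ContDiffOn ℝ ∞ (fun x => G (bPQ w x)) (Ioi 0) := by
  have hq1 : (1 : ℝ) < (q : ℝ) := by
    have : (100 : ℝ) ≤ (q : ℝ) := by exact_mod_cast hq
    linarith
  exact hG.comp h.contDiff_bPQ.contDiffOn (fun Ξ hΞ => bReg_subset_bU hq1 (h.reg Ξ hΞ))

theorem IsBohm.thC_of_G1 (hq : 100 ≤ q) (h : IsBohm q w z) (hG : ContDiffOn ℝ ∞ G (bU q))
    (h0 : G (bC q) = 0) : ThC (bJ w) (fun x => G (bPQ w x)) := by
  refine ⟨h.comp_contDiffOn hq hG, fun j => ?_⟩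
  obtain ⟨C, hC⟩ := h.symJ hq hG h0 j
  exact ⟨C, fun Ξ hΞ => hC Ξ (by linarith)⟩

theorem IsBohm.thC_of_G2 (hq : 100 ≤ q) (h : IsBohm q w z) (hG : ContDiffOn ℝ ∞ G (bU q))
    (h0 : G (bC q) = 0) (h1 : fderiv ℝ G (bC q) (bXi q) = 0) :
    ThC (fun x => bJ w x ^ 2) (fun x => G (bPQ w x)) := by
  refine ⟨h.comp_contDiffOn hq hG, fun j => ?_⟩
  obtain ⟨C, hC⟩ := h.symJ2 hq hG h0 h1 j
  exact ⟨C, fun Ξ hΞ => hC Ξ (by linarith)⟩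

theorem IsBohm.thC_of_G (hq : 100 ≤ q) (h : IsBohm q w z) (hG : ContDiffOn ℝ ∞ G (bU q)) :
    ThC (fun _ => 1) (fun x => G (bPQ w x)) := by
  have hG' : ContDiffOn ℝ ∞ (fun p => G p - G (bC q)) (bU q) := hG.sub contDiffOn_const
  have h1 : ThC (bJ w) (fun x => G (bPQ w x) - G (bC q)) :=
    h.thC_of_G1 (G := fun p => G p - G (bC q)) hq hG' (by simp)
  have h2 : ThC (fun _ => (1 : ℝ)) (fun x => G (bPQ w x) - G (bC q)) :=
    h1.mono (K := 2) (fun Ξ hΞ => (h.J_bounds hq Ξ (by linarith)).1.le)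
      (fun Ξ hΞ => by have := (h.J_bounds hq Ξ (by linarith)).2; linarith)
  refine (h2.add (thC_const (G (bC q)))).congr (fun x _ => ?_)
  simp

theorem IsBohm.J_lower (hq : 100 ≤ q) (h : IsBohm q w z) :
    ∃ c : ℝ, 0 < c ∧ ∀ Ξ ∈ Icc (0 : ℝ) 1, c ≤ bJ w Ξ := by
  have hcont : Continuous (bJ w) := by
    have h2 : Continuous (fun Ξ => (bPQ w Ξ).2) := continuous_snd.comp h.contDiff_bPQ.continuous
    exact continuous_const.sub h2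
  obtain ⟨x, hx, hmin⟩ := isCompact_Icc.exists_isMinOn (s := Icc (0 : ℝ) 1)
    ⟨0, ⟨le_rfl, zero_le_one⟩⟩ hcont.continuousOn
  exact ⟨bJ w x, (h.J_bounds hq x hx.1).1, fun Ξ hΞ => hmin hΞ⟩

theorem IsBohm.symb_of_G (hq : 100 ≤ q) (h : IsBohm q w z) (hG : ContDiffOn ℝ ∞ G (bU q))
    (hf : ContDiff ℝ ∞ f) (e : ∀ Ξ, 0 ≤ Ξ → f Ξ = G (bPQ w Ξ)) : IsSymb (fun _ => 1) f := by
  have h1 : ThC (fun _ => (1 : ℝ)) f :=
    (h.thC_of_G hq hG).congr (fun Ξ hΞ => e Ξ (le_of_lt hΞ))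
  exact isSymb_of_thC hf h1 (fun _ _ => zero_le_one) one_pos (fun _ _ => le_rfl)

theorem IsBohm.symb_of_G1 (hq : 100 ≤ q) (h : IsBohm q w z) (hG : ContDiffOn ℝ ∞ G (bU q))
    (h0 : G (bC q) = 0)
    (hf : ContDiff ℝ ∞ f) (e : ∀ Ξ, 0 ≤ Ξ → f Ξ = G (bPQ w Ξ)) : IsSymb (bJ w) f := by
  have h1 : ThC (bJ w) f :=
    (h.thC_of_G1 hq hG h0).congr (fun Ξ hΞ => e Ξ (le_of_lt hΞ))
  obtain ⟨c, hc, hcJ⟩ := h.J_lower hq
  exact isSymb_of_thC hf h1 (fun Ξ hΞ => (h.J_bounds hq Ξ hΞ).1.le) hc hcJ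

theorem IsBohm.symb_of_G2 (hq : 100 ≤ q) (h : IsBohm q w z) (hG : ContDiffOn ℝ ∞ G (bU q))
    (h0 : G (bC q) = 0) (h1 : fderiv ℝ G (bC q) (bXi q) = 0)
    (hf : ContDiff ℝ ∞ f) (e : ∀ Ξ, 0 ≤ Ξ → f Ξ = G (bPQ w Ξ)) :
    IsSymb (fun x => bJ w x ^ 2) f := by
  have h2 : ThC (fun x => bJ w x ^ 2) f :=
    (h.thC_of_G2 hq hG h0 h1).congr (fun Ξ hΞ => e Ξ (le_of_lt hΞ))
  obtain ⟨c, hc, hcJ⟩ := h.J_lower hq
  exact isSymb_of_thC hf h2 (fun Ξ _ => sq_nonneg _) (pow_pos hc 2)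
    (fun Ξ hΞ => pow_le_pow_left₀ hc.le (hcJ Ξ hΞ) 2)

end Claimed.Agent.R324
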