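/-
Row 324, module B (additions), file SymbCor1: the concrete symbol bounds up to Ξ = 0  (|f^(j)(Ξ)| ≤ C_j β(Ξ) (1+Ξ)^(-j), Ξ ≥ 0).   Architect: helper263.
n = q-1, m = q+1, z₀ = n/m, α = bAl q, κ_z = bKz q, J = bJ w, P = bP w.

PART 1 (functions of (P,Q); use `symb_of_G`, `symb_of_G1` of Bohm/SymbG.lean; global smoothness from h.smw, h.smz, `contDiff_bPQ`):
* `symb_J`:   G p = 2 - p.2.            `symb_thw`: G p = p.2  (th w Ξ = (bPQ w Ξ).2 by rfl).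
* `symb_P`:   G p = p.1.                `symb_P1`: G p = p.1 - n.
* `symb_z`:   G = bz q (`contDiffOn_bz`, `eqH`).       `symb_z1`: G p = bz q p - z₀ (`bz_bC`).
* `symb_thz`: `IsSymb.apply_th` applied to `symb_z1` (th (z - z₀) = th z: `deriv_sub_const`);  J ≥ 0 on Ξ ≥ 0 by `J_bounds`.
* `symb_logz`, `symb_logz1`, `symb_invz`:  G = log ∘ bz q, log ∘ bz q - log z₀, 1/bz q:  smooth on bU q because bz q = bN/bD > 0 there (`ContDiffOn.log`, `ContDiffOn.inv`/`div`);  global smoothness of log z, 1/z from hz.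
-/
import Claimed.Agent.R324.Bohm.SymbG
import Claimed.Agent.R324.Bohm.SymbA
import Claimed.Agent.R324.Bohm.SymL

set_option autoImplicit false

namespace Claimed.Agent.R324

open Set
open scoped ContDiff

variable {q : ℕ} {w z : ℝ → ℝ}

/-! ### Part 1 -/

theorem IsBohm.contDiff_thw_sc1 (h : IsBohm q w z) : ContDiff ℝ ∞ (th w) :=
  contDiff_snd.comp h.contDiff_bPQ

theorem IsBohm.contDiff_bP_sc1 (h : IsBohm q w z) : ContDiff ℝ ∞ (bP w) :=
  contDiff_fst.comp h.contDiff_bPQ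

theorem IsBohm.contDiff_bJ_sc1 (h : IsBohm q w z) : ContDiff ℝ ∞ (bJ w) :=
  contDiff_const.sub h.contDiff_thw_sc1

theorem bz_pos_sc1 {r : ℝ} {p : ℝ × ℝ} (hp : p ∈ bU r) : 0 < bz r p :=
  div_pos hp.1 hp.2

theorem IsBohm.symb_J (hq : 100 ≤ q) (h : IsBohm q w z) : IsSymb (bJ w) (bJ w) := by
  refine h.symb_of_G1 hq (G := fun p => 2 - p.2) ?_ ?_ h.contDiff_bJ_sc1 (fun _ _ => rfl)
  · exact (contDiff_const.sub contDiff_snd).contDiffOn
  · simp [bC]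

theorem IsBohm.symb_thw (hq : 100 ≤ q) (h : IsBohm q w z) : IsSymb (fun _ => 1) (th w) := by
  refine h.symb_of_G hq (G := fun p => p.2) ?_ h.contDiff_thw_sc1 (fun _ _ => rfl)
  exact contDiff_snd.contDiffOn

theorem IsBohm.symb_P (hq : 100 ≤ q) (h : IsBohm q w z) : IsSymb (fun _ => 1) (bP w) := by
  refine h.symb_of_G hq (G := fun p => p.1) ?_ h.contDiff_bP_sc1 (fun _ _ => rfl)
  exact contDiff_fst.contDiffOn

theorem IsBohm.symb_P1 (hq : 100 ≤ q) (h : IsBohm q w z) :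
    IsSymb (bJ w) (fun x => bP w x - ((q : ℝ) - 1)) := by
  refine h.symb_of_G1 hq (G := fun p => p.1 - ((q : ℝ) - 1)) ?_ ?_
    (h.contDiff_bP_sc1.sub contDiff_const) (fun _ _ => rfl)
  · exact (contDiff_fst.sub contDiff_const).contDiffOn
  · simp [bC]

theorem IsBohm.symb_z (hq : 100 ≤ q) (h : IsBohm q w z) : IsSymb (fun _ => 1) z :=
  h.symb_of_G hq (contDiffOn_bz q) h.smz h.eqH

theorem IsBohm.symb_z1 (hq : 100 ≤ q) (h : IsBohm q w z) :
    IsSymb (bJ w) (fun x => z x - ((q : ℝ) - 1) / ((q : ℝ) + 1)) := by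
  have hq1 : (1 : ℝ) < q := by
    have : (100 : ℝ) ≤ q := by exact_mod_cast hq
    linarith
  refine h.symb_of_G1 hq (G := fun p => bz q p - ((q : ℝ) - 1) / ((q : ℝ) + 1)) ?_ ?_
    (h.smz.sub contDiff_const) (fun Ξ hΞ => ?_)
  · exact (contDiffOn_bz q).sub contDiffOn_const
  · show bz q (bC q) - _ = 0
    rw [bz_bC hq1, sub_self]
  · show z Ξ - _ = bz q (bPQ w Ξ) - _
    rw [h.eqH Ξ hΞ]

theorem IsBohm.symb_thz (hq : 100 ≤ q) (h : IsBohm q w z) : IsSymb (bJ w) (th z) := by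
  have h1 := (h.symb_z1 hq).apply_th (fun Ξ hΞ => (h.J_bounds hq Ξ hΞ).1.le)
  have e : th (fun x => z x - ((q : ℝ) - 1) / ((q : ℝ) + 1)) = th z := by
    funext Ξ
    unfold th
    rw [deriv_sub_const]
  rwa [e] at h1

theorem IsBohm.symb_logz (hq : 100 ≤ q) (h : IsBohm q w z) (hz : ∀ Ξ, 0 < z Ξ) :
    IsSymb (fun _ => 1) (fun x => Real.log (z x)) := by
  refine h.symb_of_G hq (G := fun p => Real.log (bz q p)) ?_ (h.smz.log fun x => (hz x).ne')
    (fun Ξ hΞ => ?_)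
  · exact (contDiffOn_bz q).log fun p hp => (bz_pos_sc1 hp).ne'
  · show Real.log (z Ξ) = Real.log (bz q (bPQ w Ξ))
    rw [h.eqH Ξ hΞ]

theorem IsBohm.symb_logz1 (hq : 100 ≤ q) (h : IsBohm q w z) (hz : ∀ Ξ, 0 < z Ξ) :
    IsSymb (bJ w) (fun x => Real.log (z x) - Real.log (((q : ℝ) - 1) / ((q : ℝ) + 1))) := by
  have hq1 : (1 : ℝ) < q := by
    have : (100 : ℝ) ≤ q := by exact_mod_cast hq
    linarith
  refine h.symb_of_G1 hq
    (G := fun p => Real.log (bz q p) - Real.log (((q : ℝ) - 1) / ((q : ℝ) + 1))) ?_ ?_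
    ((h.smz.log fun x => (hz x).ne').sub contDiff_const) (fun Ξ hΞ => ?_)
  · exact ((contDiffOn_bz q).log fun p hp => (bz_pos_sc1 hp).ne').sub contDiffOn_const
  · show Real.log (bz q (bC q)) - _ = 0
    rw [bz_bC hq1, sub_self]
  · show Real.log (z Ξ) - _ = Real.log (bz q (bPQ w Ξ)) - _
    rw [h.eqH Ξ hΞ]

theorem IsBohm.symb_invz (hq : 100 ≤ q) (h : IsBohm q w z) (hz : ∀ Ξ, 0 < z Ξ) :
    IsSymb (fun _ => 1) (fun x => 1 / z x) := by
  refine h.symb_of_G hq (G := fun p => 1 / bz q p) ?_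
    (contDiff_const.div h.smz fun x => (hz x).ne') (fun Ξ hΞ => ?_)
  · exact contDiffOn_const.div (contDiffOn_bz q) fun p hp => (bz_pos_sc1 hp).ne'
  · show 1 / z Ξ = 1 / bz q (bPQ w Ξ)
    rw [h.eqH Ξ hΞ]

end Claimed.Agent.R324
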