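/-
Row 324, module B (additions), file SymbCor2: the concrete symbol bounds up to Ξ = 0  (|f^(j)(Ξ)| ≤ C_j β(Ξ) (1+Ξ)^(-j), Ξ ≥ 0).   Architect: helper263.
n = q-1, m = q+1, z₀ = n/m, α = bAl q, κ_z = bKz q, J = bJ w, P = bP w.

PART 2 (division by Ξ;  pattern:  f = Ξ⁻¹ * F on Ioi 0 with `ThC (fun _ => 1) F`;  `(thC_inv.mul hF)`, `ThC.congr`, `ThC.mono` with Ξ⁻¹ * 1 ≤ 2 * (1/(1+Ξ)) for Ξ ≥ 1,  then `isSymb_of_thC` with c = 1/2 on [0,1]):
* `symb_dw`:   deriv w = (1/2) Ξ⁻¹ th w,   F = th w = G∘bPQ w, G p = p.2 (`thC_of_G`).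
* `symb_expw`: e^{-w} = Ξ⁻¹ P.                  `symb_expw1`: e^{-w}(1+Ξ) = e^{-w} + P;  `IsSymb.add`, `symb_P` (SymbCor1), `IsSymb.mono` (1/(1+Ξ) ≤ 1); IsSymb of pointwise equal functions: rewrite by `funext`.
* `symb_bl`:   bl z = Ξ⁻¹ log z  (`bl_spec`),   log z = (log ∘ bz q)∘bPQ w on Ξ ≥ 0.
-/
import Claimed.Agent.R324.Bohm.SymbG
import Claimed.Agent.R324.Bohm.SymbA
import Claimed.Agent.R324.Bohm.Ext
import Claimed.Agent.R324.Bohm.SymbCor1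

set_option autoImplicit false

namespace Claimed.Agent.R324

open Set
open scoped ContDiff

variable {q : ℕ} {w z : ℝ → ℝ}

/-! ### Part 2 -/

/-- The pattern of Part 2: division by `Ξ`. -/
theorem symbcor2_div {f F : ℝ → ℝ} (hf : ContDiff ℝ ∞ f) (hF : ThC (fun _ => 1) F)
    (e : ∀ Ξ, 0 < Ξ → f Ξ = Ξ⁻¹ * F Ξ) : IsSymb (fun x => 1 / (1 + x)) f := by
  have h1 : ThC (fun x : ℝ => x⁻¹ * 1) (fun x => x⁻¹ * F x) := thC_inv.mul hF
  have h2 : ThC (fun x : ℝ => x⁻¹ * 1) f := h1.congr (fun Ξ hΞ => e Ξ hΞ)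
  have h3 : ThC (fun x : ℝ => 1 / (1 + x)) f := by
    refine h2.mono (K := 2) (fun Ξ hΞ => ?_) (fun Ξ hΞ => ?_)
    · have : (0 : ℝ) < Ξ := by linarith
      positivity
    · have h0 : (0 : ℝ) < Ξ := by linarith
      rw [mul_one, inv_eq_one_div, mul_one_div, div_le_div_iff₀ h0 (by linarith)]
      linarith
  refine isSymb_of_thC hf h3 (fun Ξ hΞ => by positivity) (c := 1 / 2) (by norm_num) (fun Ξ hΞ => ?_)
  rw [div_le_div_iff₀ (by norm_num) (by linarith [hΞ.1])]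
  linarith [hΞ.2]

theorem IsBohm.symb_dw (hq : 100 ≤ q) (h : IsBohm q w z) :
    IsSymb (fun x => 1 / (1 + x)) (deriv w) := by
  have hG : ThC (fun _ => 1) (fun x => (fun p : ℝ × ℝ => p.2) (bPQ w x)) :=
    h.thC_of_G hq contDiff_snd.contDiffOn
  refine symbcor2_div (contDiff_infty_iff_deriv.1 h.smw).2 (hG.const_mul (1 / 2)) (fun Ξ hΞ => ?_)
  show deriv w Ξ = Ξ⁻¹ * (1 / 2 * (2 * Ξ * deriv w Ξ))
  field_simp

theorem IsBohm.symb_expw (hq : 100 ≤ q) (h : IsBohm q w z) :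
    IsSymb (fun x => 1 / (1 + x)) (fun x => Real.exp (-w x)) := by
  have hG : ThC (fun _ => 1) (fun x => (fun p : ℝ × ℝ => p.1) (bPQ w x)) :=
    h.thC_of_G hq contDiff_fst.contDiffOn
  refine symbcor2_div (Real.contDiff_exp.comp h.smw.neg) hG (fun Ξ hΞ => ?_)
  show Real.exp (-w Ξ) = Ξ⁻¹ * (Ξ * Real.exp (-w Ξ))
  field_simp

theorem IsBohm.symb_expw1 (hq : 100 ≤ q) (h : IsBohm q w z) :
    IsSymb (fun _ => 1) (fun x => Real.exp (-w x) * (1 + x)) := by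
  have h1 : IsSymb (fun _ => 1) (fun x => Real.exp (-w x)) := by
    refine (h.symb_expw hq).mono (K := 1) (fun Ξ hΞ => by positivity) (fun Ξ hΞ => ?_)
    rw [mul_one, div_le_one (by linarith)]
    linarith
  have h2 := h1.add (h.symb_P hq)
  have e : (fun x => Real.exp (-w x) * (1 + x)) = fun x => Real.exp (-w x) + bP w x := by
    funext x
    unfold bP
    ring
  rw [e]
  exact h2

theorem IsBohm.symb_bl (hq : 100 ≤ q) (h : IsBohm q w z) (hz : ∀ Ξ, 0 < z Ξ) :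
    IsSymb (fun x => 1 / (1 + x)) (bl z) := by
  have hlog : ContDiffOn ℝ ∞ (fun p : ℝ × ℝ => Real.log (bz q p)) (bU q) := by
    refine (contDiffOn_bz (q : ℝ)).log (fun p hp => ?_)
    exact (div_pos hp.1 hp.2).ne'
  have hG : ThC (fun _ => 1) (fun x => (fun p : ℝ × ℝ => Real.log (bz q p)) (bPQ w x)) :=
    h.thC_of_G hq hlog
  refine symbcor2_div (h.bl_contDiff hz) hG (fun Ξ hΞ => ?_)
  show bl z Ξ = Ξ⁻¹ * Real.log (bz q (bPQ w Ξ))
  rw [← h.eqH Ξ hΞ.le, h.bl_spec hz Ξ]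
  field_simp

end Claimed.Agent.R324
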