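/-
Row 324, module B (additions), file SymbCor3: the concrete symbol bounds up to Ξ = 0  (|f^(j)(Ξ)| ≤ C_j β(Ξ) (1+Ξ)^(-j), Ξ ≥ 0).   Architect: helper263.
n = q-1, m = q+1, z₀ = n/m, α = bAl q, κ_z = bKz q, J = bJ w, P = bP w.

PART 3 (second order; use the th-bounds of Bohm/SymCor.lean, SymCor2.lean:  they give the field `bd` of `ThC (fun x => J x ^ 2) f` directly;  `sm` from global smoothness;  then `isSymb_of_thC` with c = c₀², c₀ from `J_lower`):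
* `symb_thJ2` (`sym_thJ`), `symb_Jz2` (`sym_Jz`), `symb_z2` (`sym_z2`), `symb_E2` (`sym_E`).
-/
import Claimed.Agent.R324.Bohm.SymbG
import Claimed.Agent.R324.Bohm.SymCor3

set_option autoImplicit false

namespace Claimed.Agent.R324

open Set
open scoped ContDiff

variable {q : ℕ} {w z : ℝ → ℝ}

/-! ### Part 3 -/

theorem th_contDiff_sc3 {f : ℝ → ℝ} (hf : ContDiff ℝ ∞ f) : ContDiff ℝ ∞ (th f) := by
  have h1 : ContDiff ℝ ∞ (deriv f) := (contDiff_infty_iff_deriv.1 hf).2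
  have : th f = fun x => 2 * x * deriv f x := rfl
  rw [this]
  exact (contDiff_const.mul contDiff_id).mul h1

theorem IsBohm.contDiff_bJ_sc3 (h : IsBohm q w z) : ContDiff ℝ ∞ (bJ w) := by
  have : bJ w = fun x => 2 - th w x := rfl
  rw [this]
  exact contDiff_const.sub (th_contDiff_sc3 h.smw)

theorem IsBohm.contDiff_bP_sc3 (h : IsBohm q w z) : ContDiff ℝ ∞ (bP w) := by
  have : bP w = fun x => x * Real.exp (-w x) := rfl
  rw [this]
  exact contDiff_id.mul (Real.contDiff_exp.comp h.smw.neg)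

theorem IsBohm.symb2_of_bd (hq : 100 ≤ q) (h : IsBohm q w z) {f : ℝ → ℝ} (hf : ContDiff ℝ ∞ f)
    (hb : ∀ j : ℕ, ∃ C : ℝ, ∀ Ξ, 0 ≤ Ξ → |th^[j] f Ξ| ≤ C * (bJ w Ξ) ^ 2) :
    IsSymb (fun x => bJ w x ^ 2) f := by
  obtain ⟨c, hc, hcJ⟩ := h.J_lower hq
  refine isSymb_of_thC hf ⟨hf.contDiffOn, fun j => ?_⟩ (fun Ξ _ => sq_nonneg _) (c := c ^ 2)
    (by positivity) (fun Ξ hΞ => pow_le_pow_left₀ hc.le (hcJ Ξ hΞ) 2)
  obtain ⟨C, hC⟩ := hb j
  exact ⟨C, fun Ξ hΞ => hC Ξ (by linarith)⟩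

theorem IsBohm.symb_thJ2 (hq : 100 ≤ q) (h : IsBohm q w z) :
    IsSymb (fun x => bJ w x ^ 2) (fun x => th (bJ w) x + bAl q * bJ w x) :=
  h.symb2_of_bd hq ((th_contDiff_sc3 h.contDiff_bJ_sc3).add (contDiff_const.mul h.contDiff_bJ_sc3))
    (h.sym_thJ hq)

theorem IsBohm.symb_Jz2 (hq : 100 ≤ q) (h : IsBohm q w z) :
    IsSymb (fun x => bJ w x ^ 2) (fun x => -th z x - bKz q * bJ w x) :=
  h.symb2_of_bd hq ((th_contDiff_sc3 h.smz).neg.sub (contDiff_const.mul h.contDiff_bJ_sc3))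
    (h.sym_Jz hq)

theorem IsBohm.symb_z2 (hq : 100 ≤ q) (h : IsBohm q w z) :
    IsSymb (fun x => bJ w x ^ 2)
      (fun x => z x - ((q : ℝ) - 1) / ((q : ℝ) + 1) - bKz q / bAl q * bJ w x) :=
  h.symb2_of_bd hq ((h.smz.sub contDiff_const).sub (contDiff_const.mul h.contDiff_bJ_sc3))
    (h.sym_z2 hq)

theorem IsBohm.symb_E2 (hq : 100 ≤ q) (h : IsBohm q w z) :
    IsSymb (fun x => bJ w x ^ 2)
      (fun x => (bP w x - ((q : ℝ) - 1)) + ((q : ℝ) - 1) / bAl q * bJ w x) :=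
  h.symb2_of_bd hq ((h.contDiff_bP_sc3.sub contDiff_const).add
    (contDiff_const.mul h.contDiff_bJ_sc3)) (h.sym_E hq)

end Claimed.Agent.R324
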